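import Vale.Agent.P301.Poisson
import Mathlib.LinearAlgebra.BilinearForm.Orthogonal

/-! Quotients of sections of arbitrary powers of `L`. -/

open scoped Manifold ContDiff ComplexOrder Topology Matrix
open MeasureTheory Set Filter

set_option linter.all false

noncomputable section

namespace Vale.Agent.P301

open Vale.Agent.P272.K
open Vale.Agent.P272.K.INT (IsDensity intX intX_congr intX_of_support IsClosedForm)

section defs

variable {N : ℕ} {X : Type} [TopologicalSpace X] [ChartedSpace (Cm N) X]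

/-- The differentials at `x`, written in the chart `e`, of the meromorphic functions `t / t₀`, where
`t` and `t₀` are global holomorphic sections of the same power `L^k`, `k ≥ 1`, and `t₀` does not
vanish at `x`. -/
def LineBundle.quotDiffs (L : LineBundle N X) (e : Chart N X) (x : X) : Set (Cm N) :=
  {v | ∃ k : ℕ, 1 ≤ k ∧ ∃ t₀ t : L.ι → X → ℂ, L.IsSection k t₀ ∧ L.IsSection k t ∧
    ∃ a : L.ι, x ∈ L.U a ∧ t₀ a x ≠ 0 ∧
      ∀ j, v j = dz j (fun z => t a (e.symm z) / t₀ a (e.symm z)) (e x)}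

end defs

variable {N : ℕ} {X : Type} [TopologicalSpace X] [ChartedSpace (Cm N) X]
  {L : LineBundle N X} {e : Chart N X} {x : X}

lemma HolAt.mul {f g : X → ℂ} (hf : HolAt N f x) (hg : HolAt N g x) :
    HolAt N (fun y => f y * g y) x := fun e hx => (hf e hx).mul (hg e hx)

lemma HolAt.pow {f : X → ℂ} (hf : HolAt N f x) (k : ℕ) : HolAt N (fun y => f y ^ k) x :=
  fun e hx => (hf e hx).pow k

lemma IsSection.mul {m k : ℕ} {s t : L.ι → X → ℂ} (hs : L.IsSection m s) (ht : L.IsSection k t) :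
    L.IsSection (m + k) (fun a x => s a x * t a x) where
  holo a x ha := HolAt.mul (hs.holo a x ha) (ht.holo a x ha)
  change a b x ha hb := by
    rw [hs.change a b x ha hb, ht.change a b x ha hb, pow_add]; ring

lemma IsSection.pow {m : ℕ} {s : L.ι → X → ℂ} (hs : L.IsSection m s) (k : ℕ) :
    L.IsSection (m * k) (fun a x => s a x ^ k) where
  holo a x ha := HolAt.pow (hs.holo a x ha) k
  change a b x ha hb := by
    rw [hs.change a b x ha hb, mul_pow, ← pow_mul]

/-- the quotient does not depend on the trivialisation -/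
lemma quot_change {k : ℕ} {t₀ t : L.ι → X → ℂ} (h0 : L.IsSection k t₀) (h1 : L.IsSection k t)
    (hx : At e x) {a b : L.ι} (ha : x ∈ L.U a) (hb : x ∈ L.U b) (j : Fin N) :
    dz j (fun z => t b (e.symm z) / t₀ b (e.symm z)) (e x) =
      dz j (fun z => t a (e.symm z) / t₀ a (e.symm z)) (e x) := by
  refine dz_congr ?_
  filter_upwards [At.nhds_mem ((L.isOpen a).inter (L.isOpen b)) hx ⟨ha, hb⟩] with y hy
  have hg := L.ne_zero b a _ hy.2.2.2 hy.2.2.1
  rw [h0.change b a _ hy.2.2.2 hy.2.2.1, h1.change b a _ hy.2.2.2 hy.2.2.1,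
    mul_div_mul_left _ _ (pow_ne_zero k hg)]

/-- an isotropic subspace has at most half the dimension -/
lemma finrank_span_le {n : ℕ} {P : Matrix (Fin (2 * n)) (Fin (2 * n)) ℂ} (hP : P.det ≠ 0)
    {S : Set (Fin (2 * n) → ℂ)} (hS : ∀ v ∈ S, ∀ u ∈ S, ∑ j, ∑ k, P j k * v j * u k = 0) :
    Module.finrank ℂ (Submodule.span ℂ S) ≤ n := by
  classical
  set B := Matrix.toBilin' P with hB
  have hBa : ∀ v u, B v u = ∑ j, ∑ k, P j k * v j * u k := by
    intro v u
    rw [hB, Matrix.toBilin'_apply]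
    exact Finset.sum_congr rfl fun j _ => Finset.sum_congr rfl fun k _ => by ring
  have hnd : B.Nondegenerate :=
    LinearMap.BilinForm.nondegenerate_toBilin'_iff_det_ne_zero.2 hP
  have hle : Submodule.span ℂ S ≤ B.orthogonal (Submodule.span ℂ S) := by
    intro u hu
    rw [LinearMap.BilinForm.mem_orthogonal_iff]
    intro v hv
    show B v u = 0
    induction hu using Submodule.span_induction with
    | mem u hu =>
      induction hv using Submodule.span_induction with
      | mem v hv => rw [hBa]; exact hS v hv u hu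
      | zero => simp
      | add v v' _ _ h1 h2 => rw [map_add, LinearMap.add_apply, h1, h2, add_zero]
      | smul c v _ h1 => rw [map_smul, LinearMap.smul_apply, h1, smul_zero]
    | zero => simp
    | add u u' _ _ h1 h2 => rw [map_add, h1, h2, add_zero]
    | smul c u _ h1 => rw [map_smul, h1, smul_zero]
  have h1 := LinearMap.BilinForm.finrank_orthogonal hnd (Submodule.span ℂ S)
  have h2 := Submodule.finrank_mono hle
  have h3 : Module.finrank ℂ (Fin (2 * n) → ℂ) = 2 * n := by simp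
  have h4 : Module.finrank ℂ (Submodule.span ℂ S) ≤ Module.finrank ℂ (Fin (2 * n) → ℂ) :=
    Submodule.finrank_le (Submodule.span ℂ S)
  rw [h3] at h1 h4
  omega

variable [IsManifold 𝓘(ℂ, Cm N) ω X] [T2Space X] [CompactSpace X]
  {σ w : Chart N X → Cm N → Matrix (Fin N) (Fin N) ℂ}

theorem quotDiffs_isotropic (hσ : IsSymplectic σ) (hw : IsKahler w) (hnef : L.IsNef w)
    (hL : L.IsIsotropic σ) (hx : At e x) {v u : Cm N} (hv : v ∈ L.quotDiffs e x)
    (hu : u ∈ L.quotDiffs e x) : ∑ j, ∑ k, (σ e (e x))⁻¹ j k * v j * u k = 0 := by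
  obtain ⟨m, hm, s₀, s₁, hs₀, hs₁, a, ha, hsa, hva⟩ := hv
  obtain ⟨k, hk, t₀, t₁, ht₀, ht₁, b, hb, htb, hub⟩ := hu
  have hta : t₀ a x ≠ 0 := by
    rw [ht₀.change a b x ha hb]
    exact mul_ne_zero (pow_ne_zero k (L.ne_zero a b x ha hb)) htb
  have hua : ∀ j, u j = dz j (fun z => t₁ a (e.symm z) / t₀ a (e.symm z)) (e x) := fun j => by
    rw [hub j, quot_change ht₀ ht₁ hx ha hb j]
  obtain ⟨m', rfl⟩ : ∃ m', m = m' + 1 := ⟨m - 1, by omega⟩
  obtain ⟨k', rfl⟩ : ∃ k', k = k' + 1 := ⟨k - 1, by omega⟩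
  -- sections of `L^(mk)`
  have e0 : (m' + 1) * (k' + 1) + (k' + 1) * (m' + 1) = 2 * ((m' + 1) * (k' + 1)) := by ring
  have S0 := IsSection.mul (IsSection.pow hs₀ (k' + 1)) (IsSection.pow ht₀ (m' + 1))
  have S1 := IsSection.mul (IsSection.mul hs₁ (IsSection.pow hs₀ k')) (IsSection.pow ht₀ (m' + 1))
  have S2 := IsSection.mul (IsSection.pow hs₀ (k' + 1)) (IsSection.mul ht₁ (IsSection.pow ht₀ m'))
  have e1 : (m' + 1) + (m' + 1) * k' + (k' + 1) * (m' + 1) =
      (m' + 1) * (k' + 1) + (k' + 1) * (m' + 1) := by ring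
  have e2 : (m' + 1) * (k' + 1) + ((k' + 1) + (k' + 1) * m') =
      (m' + 1) * (k' + 1) + (k' + 1) * (m' + 1) := by ring
  rw [e1] at S1
  rw [e2] at S2
  have hp : 1 ≤ (m' + 1) * (k' + 1) + (k' + 1) * (m' + 1) := by
    have : 1 ≤ (m' + 1) * (k' + 1) := Nat.one_le_iff_ne_zero.2 (by positivity)
    omega
  have hne : s₀ a x ^ (k' + 1) * t₀ a x ^ (m' + 1) ≠ 0 :=
    mul_ne_zero (pow_ne_zero _ hsa) (pow_ne_zero _ hta)
  have key := poisson_commute hσ hw hnef hL hp S0 S1 S2 hx ha hne
  have hsn : ∀ᶠ y in 𝓝 (e x), s₀ a (e.symm y) ≠ 0 := by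
    refine (hs₀.holo a x ha e hx).continuousAt.eventually_ne ?_
    rw [hx.left_inv]; exact hsa
  have htn : ∀ᶠ y in 𝓝 (e x), t₀ a (e.symm y) ≠ 0 := by
    refine (ht₀.holo a x ha e hx).continuousAt.eventually_ne ?_
    rw [hx.left_inv]; exact hta
  unfold bracket at key
  refine Eq.trans ?_ key
  refine Finset.sum_congr rfl fun i _ => Finset.sum_congr rfl fun j _ => ?_
  rw [hva i, hua j]
  congr 1
  · congr 1
    refine dz_congr ?_
    filter_upwards [hsn, htn] with y hy hy'
    field_simp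
    ring
  · refine dz_congr ?_
    filter_upwards [hsn, htn] with y hy hy'
    field_simp
    ring

end Vale.Agent.P301
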