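import Vale.Agent.P301.Core3
import Vale.Agent.P301.PoissonAll

/-! The dimension of base loci. -/

open scoped Manifold ContDiff ComplexOrder Topology Matrix
open MeasureTheory Set Filter

set_option linter.all false

noncomputable section

namespace Vale.Agent.P301

open Vale.Agent.P272.K
open Vale.Agent.P272.K.INT (IsDensity intX intX_congr intX_of_support IsClosedForm)

section defs

variable {N : ℕ} {X : Type} [TopologicalSpace X] [ChartedSpace (Cm N) X]

/-- the common zero set of a set of sections of powers of `L` -/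
def LineBundle.zeros (L : LineBundle N X) (S : Set (ℕ × (L.ι → X → ℂ))) : Set X :=
  {x | ∀ q ∈ S, L.Zero q.2 x}

/-- the stable base locus of `L`: the common zeros of all holomorphic sections of all powers `L^m`,
`m ≥ 1` -/
def LineBundle.sbs (L : LineBundle N X) : Set X :=
  {x | ∀ m, 1 ≤ m → x ∈ L.bs m}

/-- The analytic set `Z ⊆ X` has dimension at least `k` at the point `p ∈ Z`: in no chart around `p`
is `p` an isolated point of the intersection of `Z` with a linear subspace of dimension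
`c = N + 1 - k` through `p`. -/
def DimGE (N : ℕ) {X : Type} [TopologicalSpace X] [ChartedSpace (Cm N) X] (k : ℕ) (Z : Set X)
    (p : X) : Prop :=
  ∀ e : Chart N X, At e p → ∀ c : ℕ, c + k = N + 1 → ∀ ℓ : Cm c →ₗ[ℂ] Cm N,
    Function.Injective ℓ → ∀ r : ℝ, 0 < r →
      ∃ v : Cm c, v ≠ 0 ∧ ‖v‖ < r ∧ e p + ℓ v ∈ e.target ∧ e.symm (e p + ℓ v) ∈ Z

end defs

/-- a linear injection extends to an isomorphism -/
lemma exists_extend {N c d : ℕ} (hdc : d + c = N) (ℓ : Cm c →ₗ[ℂ] Cm N)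
    (hℓ : Function.Injective ℓ) : ∃ Φ : (Cm d × Cm c) ≃L[ℂ] Cm N, ∀ x, Φ (0, x) = ℓ x := by
  obtain ⟨W, hW⟩ := Submodule.exists_isCompl (LinearMap.range ℓ)
  have h1 : Module.finrank ℂ W = d := by
    have h2 := Submodule.finrank_add_eq_of_isCompl hW
    rw [LinearMap.finrank_range_of_inj hℓ, Module.finrank_fin_fun, Module.finrank_fin_fun] at h2
    omega
  have h3 : Module.finrank ℂ (Cm d) = Module.finrank ℂ W := by rw [h1, Module.finrank_fin_fun]
  set eW : Cm d ≃ₗ[ℂ] W := LinearEquiv.ofFinrankEq _ _ h3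
  set Ψ : (Cm d × Cm c) ≃ₗ[ℂ] Cm N :=
    (eW.prodCongr (LinearEquiv.ofInjective ℓ hℓ)).trans
      (Submodule.prodEquivOfIsCompl W (LinearMap.range ℓ) hW.symm)
  refine ⟨Ψ.toContinuousLinearEquiv, fun x => ?_⟩
  show Submodule.prodEquivOfIsCompl W (LinearMap.range ℓ) hW.symm
    (eW 0, LinearEquiv.ofInjective ℓ hℓ x) = ℓ x
  rw [Submodule.coe_prodEquivOfIsCompl']
  simp

variable {N : ℕ} {X : Type} [TopologicalSpace X] [ChartedSpace (Cm N) X]
  {L : LineBundle N X} {w σ : Chart N X → Cm N → Matrix (Fin N) (Fin N) ℂ}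

lemma IsSection.ne_zero_of {m : ℕ} {s : L.ι → X → ℂ} (hs : L.IsSection m s) {x : X} {a : L.ι}
    (ha : x ∈ L.U a) (h0 : ¬ L.Zero s x) : s a x ≠ 0 := by
  intro h
  apply h0
  intro b hb
  rw [hs.change b a x hb ha, h, mul_zero]

lemma IsSection.continuousOn_chart {m : ℕ} {s : L.ι → X → ℂ} (hs : L.IsSection m s)
    {e : Chart N X} (he : e ∈ atlas (Cm N) X) (a : L.ι) :
    ContinuousOn (fun z => s a (e.symm z)) (e.target ∩ e.symm ⁻¹' (L.U a)) := by
  intro z hz
  have hx : At e (e.symm z) := At.of_target he hz.1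
  have := hs.holo a (e.symm z) hz.2 e hx
  rw [e.right_inv hz.1] at this
  exact this.continuousAt.continuousWithinAt

lemma HolAt.continuousAt' {f : X → ℂ} {x : X} (hf : HolAt N f x) : ContinuousAt f x := by
  set e := chartAt (Cm N) x with he
  have hx : At e x := ⟨chart_mem_atlas _ x, mem_chart_source _ x⟩
  have h1 := (hf e hx).continuousAt
  have h2 : ContinuousAt (fun y => f (e.symm (e y))) x :=
    ContinuousAt.comp (g := fun z => f (e.symm z)) h1 (e.continuousAt hx.2)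
  refine h2.congr ?_
  filter_upwards [e.open_source.mem_nhds hx.2] with y hy
  rw [e.left_inv hy]

lemma IsSection.isOpen_ne {m : ℕ} {s : L.ι → X → ℂ} (hs : L.IsSection m s) :
    IsOpen {x | ¬ L.Zero s x} := by
  rw [isOpen_iff_mem_nhds]
  intro x hx
  have ha := L.mem_idx x
  set a := L.idx x
  have h1 : s a x ≠ 0 := IsSection.ne_zero_of hs ha hx
  filter_upwards [(HolAt.continuousAt' (hs.holo a x ha)).eventually_ne h1,
    (L.isOpen a).mem_nhds ha] with y hy hya hz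
  exact hy (hz a hya)

/-- a finite family of sections of powers of `L` can be replaced by sections of one power -/
lemma exists_common {T : Finset (ℕ × (L.ι → X → ℂ))}
    (hT : ∀ q ∈ T, 1 ≤ q.1 ∧ L.IsSection q.1 q.2) :
    ∃ M : ℕ, 1 ≤ M ∧ ∃ k : ℕ × (L.ι → X → ℂ) → ℕ, ∀ q ∈ T, 1 ≤ k q ∧
      L.IsSection M (fun a x => q.2 a x ^ k q) := by
  refine ⟨∏ q ∈ T, q.1, ?_, fun q => (∏ q ∈ T, q.1) / q.1, fun q hq => ?_⟩
  · exact Nat.one_le_iff_ne_zero.2 (Finset.prod_ne_zero_iff.2 fun q hq => by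
      have := (hT q hq).1; omega)
  · have h1 : q.1 ∣ ∏ q ∈ T, q.1 := Finset.dvd_prod_of_mem (fun q => q.1) hq
    have h2 : 0 < ∏ q ∈ T, q.1 := Nat.pos_of_ne_zero (Finset.prod_ne_zero_iff.2 fun q hq => by
      have := (hT q hq).1; omega)
    refine ⟨Nat.div_pos (Nat.le_of_dvd h2 h1) (hT q hq).1, ?_⟩
    have h3 := IsSection.pow (hT q hq).2 ((∏ q ∈ T, q.1) / q.1)
    rwa [Nat.mul_div_cancel' h1] at h3

variable [IsManifold 𝓘(ℂ, Cm N) ω X] [T2Space X] [CompactSpace X]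

omit [IsManifold 𝓘(ℂ, Cm N) ω X] [T2Space X] in
/-- if the stable base locus is empty then `L` is semiample -/
lemma semiample_of_sbs_empty (h : ∀ x, x ∉ L.sbs) : L.IsSemiample := by
  classical
  have h1 : ∀ x : X, ∃ q : ℕ × (L.ι → X → ℂ), (1 ≤ q.1 ∧ L.IsSection q.1 q.2) ∧
      ¬ L.Zero q.2 x := by
    intro x
    have := h x
    simp only [LineBundle.sbs, LineBundle.bs, mem_setOf_eq, not_forall] at this
    obtain ⟨m, hm, s, hs, hx⟩ := this
    exact ⟨(m, s), ⟨hm, hs⟩, hx⟩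
  choose q hq hqx using h1
  obtain ⟨t, ht⟩ := isCompact_univ.elim_nhds_subcover (fun x => {y | ¬ L.Zero (q x).2 y})
    fun x _ => (IsSection.isOpen_ne (hq x).2).mem_nhds (hqx x)
  obtain ⟨M, hM, k, hk⟩ := exists_common (L := L) (T := t.image q) (by
    intro p hp
    obtain ⟨x, -, rfl⟩ := Finset.mem_image.1 hp
    exact hq x)
  refine ⟨M, hM, fun x => ?_⟩
  obtain ⟨y, hy, hxy⟩ := mem_iUnion₂.1 (ht.2 (mem_univ x))
  obtain ⟨hk1, hk2⟩ := hk (q y) (Finset.mem_image_of_mem q hy)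
  refine ⟨_, hk2, fun hz => ?_⟩
  have ha := L.mem_idx x
  exact IsSection.ne_zero_of (hq y).2 ha hxy (pow_eq_zero_iff (by omega) |>.1 (hz _ ha))

variable [PreconnectedSpace X]

/-- **The common zero set of sections of powers of a nef isotropic line bundle has dimension at least
`n` at each of its points.** -/
theorem dimGE_zeros {n : ℕ} (hn : 1 ≤ n) (hN : N = 2 * n) (hσ : IsSymplectic σ) (hw : IsKahler w)
    (hnef : L.IsNef w) (hL : L.IsIsotropic σ) {S : Set (ℕ × (L.ι → X → ℂ))}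
    (hS : ∀ q ∈ S, 1 ≤ q.1 ∧ L.IsSection q.1 q.2) {p : X} (hp : p ∈ L.zeros S) :
    DimGE N n (L.zeros S) p := by
  classical
  intro e hx c hc ℓ hℓ r₀ hr₀
  by_contra hcon
  push Not at hcon
  haveI : Nonempty X := ⟨p⟩
  obtain ⟨d, hd⟩ : ∃ d, d + 1 = n := ⟨n - 1, by omega⟩
  have hdc : d + c = N := by omega
  obtain ⟨Φ, hΦ⟩ := exists_extend hdc ℓ hℓ
  have hpa := L.mem_idx p
  set a := L.idx p
  set O : Set (Cm N) := e.target ∩ e.symm ⁻¹' (L.U a) with hOdef
  have hOo : IsOpen O := e.symm.isOpen_inter_preimage (L.isOpen a)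
  have hFc : Continuous fun x : Cm c => e p + Φ (0, x) :=
    continuous_const.add (Φ.continuous.comp (by fun_prop))
  have hF0 : e p + Φ (0, (0 : Cm c)) = e p := by simp
  have hpO : e p ∈ O := ⟨hx.mem_target, by
    show e.symm (e p) ∈ L.U a
    rw [hx.left_inv]; exact hpa⟩
  have h1 : (fun x : Cm c => e p + Φ (0, x)) ⁻¹' O ∩ Metric.ball 0 r₀ ∈ 𝓝 (0 : Cm c) := by
    refine Filter.inter_mem ((hOo.preimage hFc).mem_nhds ?_) (Metric.ball_mem_nhds _ hr₀)
    show e p + Φ (0, (0 : Cm c)) ∈ O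
    rw [hF0]; exact hpO
  obtain ⟨η, hη, hηs⟩ := Metric.mem_nhds_iff.1 h1
  set r : ℝ := (η / 2) ^ 2 with hr
  have hrp : 0 < r := by positivity
  have hball : ∀ x : Cm c, nsq x ≤ r → e p + Φ (0, x) ∈ O ∧ ‖x‖ < r₀ := by
    intro x hxr
    have h2 : ‖x‖ ≤ η / 2 := by
      refine le_of_sq_le_sq ?_ (by positivity)
      exact (norm_sq_le_nsq x).trans hxr
    have h3 := hηs (mem_ball_zero_iff.2 (by linarith : ‖x‖ < η))
    exact ⟨h3.1, mem_ball_zero_iff.1 h3.2⟩
  -- finitely many sections suffice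
  have hA : IsCompact ({x : Cm c | nsq x ≤ r} ∩ {x | r / 4 ≤ nsq x}) :=
    (isCompact_nsq_le r).inter_right (isClosed_le continuous_const nsq_continuous)
  have hcov : ∀ x ∈ {x : Cm c | nsq x ≤ r} ∩ {x | r / 4 ≤ nsq x}, ∃ q ∈ S,
      q.2 a (e.symm (e p + Φ (0, x))) ≠ 0 := by
    intro x hxA
    have hx0 : x ≠ 0 := by
      rintro rfl
      have := hxA.2
      simp only [mem_setOf_eq, nsq_zero] at this
      linarith
    obtain ⟨h2, h3⟩ := hball x hxA.1
    have h4 := hcon x hx0 h3 (by rw [← hΦ]; exact h2.1)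
    simp only [LineBundle.zeros, mem_setOf_eq, not_forall] at h4
    obtain ⟨q, hq, h5⟩ := h4
    rw [← hΦ] at h5
    exact ⟨q, hq, IsSection.ne_zero_of (hS q hq).2 h2.2 h5⟩
  set V : ℕ × (L.ι → X → ℂ) → Set (Cm c) := fun q => (fun x : Cm c => e p + Φ (0, x)) ⁻¹'
    (O ∩ (fun z => q.2 a (e.symm z)) ⁻¹' {0}ᶜ) with hV
  obtain ⟨T, hTS, hT⟩ := hA.elim_finite_subcover_image (b := S) (c := V)
    (fun q hq => ((IsSection.continuousOn_chart (hS q hq).2 hx.1 a).isOpen_inter_preimage hOo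
      isOpen_compl_singleton).preimage hFc)
    (fun x hxA => by
      obtain ⟨q, hq, h2⟩ := hcov x hxA
      exact mem_iUnion₂.2 ⟨q, hq, (hball x hxA.1).1, h2⟩)
  obtain ⟨hTf, hTc⟩ := hT
  obtain ⟨M, hM, k, hk⟩ := exists_common (L := L) (T := hTf.toFinset)
    (fun q hq => hS q (hTS (hTf.mem_toFinset.1 hq)))
  obtain ⟨c₁, k₁, hc₁, hk₁, hcore⟩ := core (L := L) hw hx.1 hx.2 hM
    (κ := hTf.toFinset) (s := fun q a x => q.1.2 a x ^ k q.1)
    (fun q => (hk q.1 q.2).2)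
    (fun q b hb => by
      have h2 := hp q.1 (hTS (hTf.mem_toFinset.1 q.2)) b hb
      have h3 : k q.1 ≠ 0 := by have := (hk q.1 q.2).1; omega
      show q.1.2 b p ^ k q.1 = 0
      rw [h2, zero_pow h3])
    hdc Φ hrp (a := a) (fun x hxr => (hball x hxr).1)
    (fun x hx1 hx2 => by
      obtain ⟨q, hq, h2⟩ := mem_iUnion₂.1 (hTc ⟨hx2, hx1⟩)
      exact ⟨⟨q, hTf.mem_toFinset.2 hq⟩, pow_ne_zero _ h2.2⟩)
  -- the upper bound
  obtain ⟨C, hC, hup⟩ := det_bound hn hN hσ hw hnef hL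
  have hkey : ∀ t : ℝ, 0 < t → t ≤ 1 / 2 → c₁ ≤ k₁ * C * 2 ^ n * t := by
    intro t ht ht1
    obtain ⟨h, hh, hpos⟩ := hnef t ht
    obtain ⟨H, hH, h2⟩ := hcore t t ht.le ht h hh hpos
    have h3 := hup H hH (t + t) (by linarith) (by linarith)
    have h4 : c₁ * t ^ d ≤ k₁ * (C * (t + t) ^ n) :=
      h2.trans (mul_le_mul_of_nonneg_left h3 hk₁)
    have h5 : k₁ * (C * (t + t) ^ n) = (k₁ * C * 2 ^ n * t) * t ^ d := by
      rw [← two_mul, mul_pow, ← hd, pow_succ t d]; ring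
    rw [h5] at h4
    exact le_of_mul_le_mul_right h4 (pow_pos ht d)
  set B := k₁ * C * 2 ^ n with hB
  have hB0 : 0 ≤ B := by positivity
  have h6 := hkey (min (1 / 2) (c₁ / (2 * (B + 1)))) (lt_min (by norm_num) (by positivity))
    (min_le_left _ _)
  have h7 : B * min (1 / 2) (c₁ / (2 * (B + 1))) ≤ B * (c₁ / (2 * (B + 1))) :=
    mul_le_mul_of_nonneg_left (min_le_right _ _) hB0
  have h8 : B * (c₁ / (2 * (B + 1))) ≤ c₁ / 2 := by
    rw [mul_div_assoc', div_le_div_iff₀ (by positivity) (by norm_num)]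
    nlinarith
  linarith

theorem semiample_iff {n : ℕ} (hn : 1 ≤ n) (hN : N = 2 * n) (hσ : IsSymplectic σ)
    (hw : IsKahler w) (hnef : L.IsNef w) (hL : L.IsIsotropic σ) :
    L.IsSemiample ↔ ∀ p ∈ L.sbs, ¬ DimGE N n L.sbs p := by
  constructor
  · rintro ⟨m, hm, h⟩ p hp
    obtain ⟨s, hs, hsp⟩ := h p
    exact absurd (hp m hm s hs) hsp
  · intro h
    refine semiample_of_sbs_empty fun x hx => ?_
    set S : Set (ℕ × (L.ι → X → ℂ)) := {q | 1 ≤ q.1 ∧ L.IsSection q.1 q.2} with hS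
    have h1 : L.sbs = L.zeros S := by
      ext y
      constructor
      · intro hy q hq
        exact hy q.1 hq.1 q.2 hq.2
      · intro hy m hm s hs
        exact hy (m, s) ⟨hm, hs⟩
    have h2 := dimGE_zeros (L := L) hn hN hσ hw hnef hL (S := S) (fun q hq => hq) (p := x)
      (by rw [← h1]; exact hx)
    rw [← h1] at h2
    exact h x hx h2

end Vale.Agent.P301
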