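import Vale.Agent.P301.Defs
import Vale.Agent.P272.K.AMP.Calc

/-! The complex Hessian of `log (Σ |s_i|² + ε e^ψ)`. -/

open scoped Manifold ContDiff ComplexOrder Topology Matrix
open MeasureTheory Set Filter

set_option linter.all false

noncomputable section

namespace Vale.Agent.P301

open Vale.Agent.P272.K
open Vale.Agent.P272.K.AMP (gm cHess_comp_real)

variable {N : ℕ} {z : Cm N}

/-- the square of a vector, as a positive matrix -/
def sqM (a : Fin N → ℂ) : Matrix (Fin N) (Fin N) ℂ := Matrix.vecMulVec a (star a)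

lemma sqM_psd (a : Fin N → ℂ) : (sqM a).PosSemidef := Matrix.posSemidef_vecMulVec_self_star _

lemma sqM_quad (a x : Fin N → ℂ) :
    star x ⬝ᵥ (sqM a *ᵥ x) = ((‖∑ j, a j * (starRingEnd ℂ) (x j)‖ ^ 2 : ℝ) : ℂ) := by
  have h1 : star x ⬝ᵥ (sqM a *ᵥ x) = (∑ j, a j * (starRingEnd ℂ) (x j)) *
      (starRingEnd ℂ) (∑ j, a j * (starRingEnd ℂ) (x j)) := by
    simp only [sqM, dotProduct, Matrix.mulVec, Matrix.vecMulVec_apply, Pi.star_apply,
      RCLike.star_def, map_sum, map_mul, Complex.conj_conj]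
    rw [Finset.sum_mul_sum]
    refine Finset.sum_congr rfl fun i _ => ?_
    rw [Finset.mul_sum]
    refine Finset.sum_congr rfl fun j _ => ?_
    ring
  rw [h1, Complex.mul_conj, Complex.normSq_eq_norm_sq]

/-- Cauchy-Schwarz -/
lemma cs_psd {κ : Type*} [Fintype κ] (α : κ → ℂ) (a : κ → Fin N → ℂ) :
    (((∑ i, ‖α i‖ ^ 2 : ℝ) : ℂ) • ∑ i, sqM (a i) -
      sqM (fun j => ∑ i, (starRingEnd ℂ) (α i) * a i j)).PosSemidef := by
  refine Matrix.PosSemidef.of_dotProduct_mulVec_nonneg ?_ fun x => ?_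
  · refine Matrix.IsHermitian.sub ?_ (sqM_psd _).1
    have h1 : (∑ i, sqM (a i)).IsHermitian := by
      rw [Matrix.IsHermitian, Matrix.conjTranspose_sum]
      exact Finset.sum_congr rfl fun i _ => (sqM_psd (a i)).1
    rw [Matrix.IsHermitian, Matrix.conjTranspose_smul, h1]
    simp
  · have h1 : star x ⬝ᵥ ((((∑ i, ‖α i‖ ^ 2 : ℝ) : ℂ) • ∑ i, sqM (a i) -
        sqM (fun j => ∑ i, (starRingEnd ℂ) (α i) * a i j)) *ᵥ x) =
        (((∑ i, ‖α i‖ ^ 2) * ∑ i, ‖∑ j, a i j * (starRingEnd ℂ) (x j)‖ ^ 2 -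
          ‖∑ i, (starRingEnd ℂ) (α i) * ∑ j, a i j * (starRingEnd ℂ) (x j)‖ ^ 2 : ℝ) : ℂ) := by
      rw [Matrix.sub_mulVec, dotProduct_sub, Matrix.smul_mulVec, dotProduct_smul, sqM_quad,
        Matrix.sum_mulVec, dotProduct_sum]
      simp only [sqM_quad, smul_eq_mul]
      have h2 : ∑ j, (∑ i, (starRingEnd ℂ) (α i) * a i j) * (starRingEnd ℂ) (x j) =
          ∑ i, (starRingEnd ℂ) (α i) * ∑ j, a i j * (starRingEnd ℂ) (x j) := by
        simp only [Finset.sum_mul, Finset.mul_sum]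
        rw [Finset.sum_comm]
        refine Finset.sum_congr rfl fun i _ => Finset.sum_congr rfl fun j _ => by ring
      rw [h2]
      push_cast
      ring
    rw [h1]
    have h3 : ‖∑ i, (starRingEnd ℂ) (α i) * ∑ j, a i j * (starRingEnd ℂ) (x j)‖ ^ 2 ≤
        (∑ i, ‖α i‖ ^ 2) * ∑ i, ‖∑ j, a i j * (starRingEnd ℂ) (x j)‖ ^ 2 := by
      have b1 : ‖∑ i, (starRingEnd ℂ) (α i) * ∑ j, a i j * (starRingEnd ℂ) (x j)‖ ≤
          ∑ i, ‖α i‖ * ‖∑ j, a i j * (starRingEnd ℂ) (x j)‖ := by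
        refine (norm_sum_le _ _).trans (le_of_eq ?_)
        refine Finset.sum_congr rfl fun i _ => ?_
        rw [norm_mul, RCLike.norm_conj]
      have b2 := Finset.sum_mul_sq_le_sq_mul_sq Finset.univ (fun i => ‖α i‖)
        (fun i => ‖∑ j, a i j * (starRingEnd ℂ) (x j)‖)
      calc _ ≤ (∑ i, ‖α i‖ * ‖∑ j, a i j * (starRingEnd ℂ) (x j)‖) ^ 2 := by gcongr
        _ ≤ _ := b2
    exact_mod_cast sub_nonneg.2 h3

/-- the complex Hessian of `|s|²` -/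
lemma cHess_norm_sq {s : Cm N → ℂ} (hs : ContDiffAt ℂ ω s z) :
    cHess (fun y => ‖s y‖ ^ 2) z = sqM (fun j => dz j s z) := by
  have hev : ∀ᶠ y in 𝓝 z, ContDiffAt ℂ ω s y := hs.eventually (by simp)
  ext j k
  rw [cHess_apply]
  have h0 : (fun y => ((‖s y‖ ^ 2 : ℝ) : ℂ)) = fun y => s y * cj (s y) := by
    funext y
    unfold cj
    rw [Complex.mul_conj, Complex.normSq_eq_norm_sq]
  have h1 : dzb k (fun y => ((‖s y‖ ^ 2 : ℝ) : ℂ)) =ᶠ[𝓝 z] fun y => s y * cj (dz k s y) := by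
    rw [h0]
    filter_upwards [hev] with y hy
    have hd : DifferentiableAt ℝ s y := (hy.differentiableAt (by simp)).restrictScalars ℝ
    have hdc : DifferentiableAt ℝ (fun y => cj (s y)) y :=
      Complex.conjCLE.differentiableAt.comp y hd
    rw [dzb_mul hd hdc, dzb_of_holo (hy.differentiableAt (by simp)), dzb_cj hd]
    ring
  have hd : DifferentiableAt ℝ s z := (hs.differentiableAt (by simp)).restrictScalars ℝ
  have h3 : ContDiffAt ℂ ω (fun y => dz k s y) z := by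
    have h4 : ContDiffAt ℂ ω (fun y => fderiv ℂ s y (Pi.single k 1)) z :=
      (hs.fderiv_right (m := ω) (by exact le_top)).clm_apply contDiffAt_const
    refine h4.congr_of_eventuallyEq ?_
    filter_upwards [hev] with y hy
    exact dz_of_holo (hy.differentiableAt (by simp))
  have hd3 : DifferentiableAt ℝ (fun y => dz k s y) z :=
    (h3.differentiableAt (by simp)).restrictScalars ℝ
  have hd4 : DifferentiableAt ℝ (fun y => cj (dz k s y)) z :=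
    Complex.conjCLE.differentiableAt.comp z hd3
  rw [dz_congr h1, dz_mul hd hd4, dz_cj hd3, dzb_of_holo (h3.differentiableAt (by simp))]
  simp [sqM, Matrix.vecMulVec_apply, cj]

lemma norm_sq_smooth {s : Cm N → ℂ} (hs : ContDiffAt ℂ ω s z) :
    ContDiffAt ℝ ∞ (fun y => ‖s y‖ ^ 2) z :=
  ((hs.restrict_scalars ℝ).of_le (by exact le_top)).norm_sq ℝ

lemma dz_norm_sq {s : Cm N → ℂ} (hs : ContDiffAt ℂ ω s z) (j : Fin N) :
    dz j (fun y => ((‖s y‖ ^ 2 : ℝ) : ℂ)) z = (starRingEnd ℂ) (s z) * dz j s z := by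
  have h0 : (fun y => ((‖s y‖ ^ 2 : ℝ) : ℂ)) = fun y => s y * cj (s y) := by
    funext y
    unfold cj
    rw [Complex.mul_conj, Complex.normSq_eq_norm_sq]
  have hd : DifferentiableAt ℝ s z := (hs.differentiableAt (by simp)).restrictScalars ℝ
  have hdc : DifferentiableAt ℝ (fun y => cj (s y)) z :=
    Complex.conjCLE.differentiableAt.comp z hd
  rw [h0, dz_mul hd hdc, dz_cj hd, dzb_of_holo (hs.differentiableAt (by simp))]
  simp [cj]; ring

lemma cHess_fsum {κ : Type*} (s : Finset κ) {v : κ → Cm N → ℝ}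
    (hv : ∀ i, ContDiffAt ℝ 2 (v i) z) :
    cHess (fun y => ∑ i ∈ s, v i y) z = ∑ i ∈ s, cHess (v i) z := by
  classical
  induction s using Finset.induction_on with
  | empty =>
    simp only [Finset.sum_empty]
    apply INT.cHess_zero_of_notMem
    rw [notMem_tsupport_iff_eventuallyEq]
    exact Eventually.of_forall fun y => rfl
  | insert a s ha ih =>
    have h2 : ContDiffAt ℝ 2 (fun y => ∑ i ∈ s, v i y) z := ContDiffAt.sum fun i _ => hv i
    have h3 : (fun y => ∑ i ∈ insert a s, v i y) = fun y => v a y + ∑ i ∈ s, v i y := by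
      funext y; rw [Finset.sum_insert ha]
    rw [Finset.sum_insert ha, ← ih, h3, cHess_add (hv a) h2]

/-- `Σ |s_i|² + ε e^ψ` -/
def QQ {κ : Type*} [Fintype κ] (s : κ → Cm N → ℂ) (ε : ℝ) (ψ : Cm N → ℝ) (y : Cm N) : ℝ :=
  ∑ i, ‖s i y‖ ^ 2 + ε * Real.exp (ψ y)

section QQ

variable {κ : Type*} [Fintype κ] {s : κ → Cm N → ℂ} {ε : ℝ} {ψ : Cm N → ℝ}

lemma QQ_pos (hε : 0 < ε) (y : Cm N) : 0 < QQ s ε ψ y := by
  unfold QQ
  have : 0 ≤ ∑ i, ‖s i y‖ ^ 2 := Finset.sum_nonneg fun i _ => sq_nonneg _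
  have := Real.exp_pos (ψ y)
  positivity

lemma QQ_smooth (hs : ∀ i, ContDiffAt ℂ ω (s i) z) (hψ : ContDiffAt ℝ ∞ ψ z) :
    ContDiffAt ℝ ∞ (QQ s ε ψ) z :=
  (ContDiffAt.sum fun i _ => norm_sq_smooth (hs i)).add (contDiffAt_const.mul hψ.exp)

lemma logQQ_smooth (hs : ∀ i, ContDiffAt ℂ ω (s i) z) (hψ : ContDiffAt ℝ ∞ ψ z) (hε : 0 < ε) :
    ContDiffAt ℝ ∞ (fun y => Real.log (QQ s ε ψ y)) z :=
  (QQ_smooth hs hψ).log (QQ_pos hε z).ne'

/-- coefficients and derivatives, over `Option κ` -/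
def al (s : κ → Cm N → ℂ) (ε : ℝ) (ψ : Cm N → ℝ) (z : Cm N) : Option κ → ℂ
  | none => ((Real.sqrt (ε * Real.exp (ψ z)) : ℝ) : ℂ)
  | some i => s i z

def av (s : κ → Cm N → ℂ) (ε : ℝ) (ψ : Cm N → ℝ) (z : Cm N) : Option κ → Fin N → ℂ
  | none => fun j => ((Real.sqrt (ε * Real.exp (ψ z)) : ℝ) : ℂ) * dz j (fun y => (ψ y : ℂ)) z
  | some i => fun j => dz j (s i) z

lemma QQ_eq (hε : 0 < ε) : QQ s ε ψ z = ∑ i, ‖al s ε ψ z i‖ ^ 2 := by
  rw [Fintype.sum_option]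
  simp only [al]
  rw [Complex.norm_real, Real.norm_eq_abs, sq_abs,
    Real.sq_sqrt (mul_pos hε (Real.exp_pos _)).le, add_comm]
  rfl

lemma dz_QQ (hs : ∀ i, ContDiffAt ℂ ω (s i) z) (hψ : ContDiffAt ℝ ∞ ψ z) (hε : 0 < ε) (j : Fin N) :
    dz j (fun y => ((QQ s ε ψ y : ℝ) : ℂ)) z =
      ∑ i, (starRingEnd ℂ) (al s ε ψ z i) * av s ε ψ z i j := by
  have h1 : (fun y => ((QQ s ε ψ y : ℝ) : ℂ)) = fun y => (∑ i, ((‖s i y‖ ^ 2 : ℝ) : ℂ)) +
      ((ε : ℝ) : ℂ) * ((Real.exp (ψ y) : ℝ) : ℂ) := by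
    funext y; unfold QQ; push_cast; ring
  have hd1 : ∀ i, DifferentiableAt ℝ (fun y => ((‖s i y‖ ^ 2 : ℝ) : ℂ)) z := fun i =>
    (ofReal_contDiffAt (norm_sq_smooth (hs i))).differentiableAt (by simp)
  have hd2 : DifferentiableAt ℝ (fun y => ((Real.exp (ψ y) : ℝ) : ℂ)) z :=
    (ofReal_contDiffAt hψ.exp).differentiableAt (by simp)
  rw [h1, dz_add (DifferentiableAt.fun_sum fun i _ => hd1 i) (hd2.const_mul _),
    dz_sum Finset.univ fun i _ => hd1 i, dz_const_mul _ hd2,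
    AMP.dz_real_comp Real.differentiableAt_exp (hψ.differentiableAt (by simp)), Real.deriv_exp,
    Fintype.sum_option]
  simp only [al, av, dz_norm_sq (hs _)]
  have h2 : (starRingEnd ℂ) ((Real.sqrt (ε * Real.exp (ψ z)) : ℝ) : ℂ) *
      (((Real.sqrt (ε * Real.exp (ψ z)) : ℝ) : ℂ) * dz j (fun y => (ψ y : ℂ)) z) =
      ((ε * Real.exp (ψ z) : ℝ) : ℂ) * dz j (fun y => (ψ y : ℂ)) z := by
    rw [Complex.conj_ofReal, ← mul_assoc, ← Complex.ofReal_mul,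
      Real.mul_self_sqrt (mul_pos hε (Real.exp_pos _)).le]
  rw [h2]
  push_cast
  ring

lemma cHess_QQ (hs : ∀ i, ContDiffAt ℂ ω (s i) z) (hψ : ContDiffAt ℝ ∞ ψ z) (hε : 0 < ε) :
    cHess (QQ s ε ψ) z = ∑ i, sqM (av s ε ψ z i) +
      ((ε * Real.exp (ψ z) : ℝ) : ℂ) • cHess ψ z := by
  have hψ2 : ContDiffAt ℝ 2 ψ z := hψ.of_le (by norm_cast)
  have hexp : ContDiffAt ℝ 2 (fun y => Real.exp (ψ y)) z := hψ2.exp
  have h1 : cHess (QQ s ε ψ) z = cHess (fun y => ∑ i, ‖s i y‖ ^ 2) z +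
      cHess (fun y => ε * Real.exp (ψ y)) z :=
    cHess_add (ContDiffAt.sum fun i _ => (norm_sq_smooth (hs i)).of_le (by norm_cast))
      (contDiffAt_const.mul hexp)
  rw [h1, cHess_fsum Finset.univ fun i => (norm_sq_smooth (hs i)).of_le (by norm_cast),
    cHess_const_mul ε hexp, cHess_comp_real Real.contDiff_exp.contDiffAt hψ2, Fintype.sum_option]
  have h2 : sqM (av s ε ψ z none) = ((ε * Real.exp (ψ z) : ℝ) : ℂ) • gm ψ ψ z := by
    ext j k
    simp only [sqM, av, Matrix.vecMulVec_apply, Matrix.smul_apply, gm, Matrix.of_apply,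
      Pi.star_apply, RCLike.star_def, smul_eq_mul, map_mul, Complex.conj_ofReal,
      AMP.dzb_real_eq]
    have h3 : ((Real.sqrt (ε * Real.exp (ψ z)) : ℝ) : ℂ) *
        ((Real.sqrt (ε * Real.exp (ψ z)) : ℝ) : ℂ) = ((ε * Real.exp (ψ z) : ℝ) : ℂ) := by
      rw [← Complex.ofReal_mul, Real.mul_self_sqrt (mul_pos hε (Real.exp_pos _)).le]
    rw [← h3]; ring
  rw [h2]
  simp only [Real.deriv_exp, cHess_norm_sq (hs _), av]
  push_cast
  simp only [smul_add, smul_smul]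
  abel

lemma cHess_logQQ (hs : ∀ i, ContDiffAt ℂ ω (s i) z) (hψ : ContDiffAt ℝ ∞ ψ z) (hε : 0 < ε) :
    cHess (fun y => Real.log (QQ s ε ψ y)) z =
      ((ε * Real.exp (ψ z) / QQ s ε ψ z : ℝ) : ℂ) • cHess ψ z +
      (((QQ s ε ψ z) ^ 2)⁻¹ : ℝ) • (((QQ s ε ψ z : ℝ) : ℂ) • ∑ i, sqM (av s ε ψ z i) -
        sqM (fun j => ∑ i, (starRingEnd ℂ) (al s ε ψ z i) * av s ε ψ z i j)) := by
  have hQ := QQ_pos (s := s) (ψ := ψ) hε z
  have hQs : ContDiffAt ℝ 2 (QQ s ε ψ) z := (QQ_smooth hs hψ).of_le (by norm_cast)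
  have hlog : ContDiffAt ℝ 2 Real.log (QQ s ε ψ z) := Real.contDiffAt_log.2 hQ.ne'
  have hg : gm (QQ s ε ψ) (QQ s ε ψ) z =
      sqM (fun j => ∑ i, (starRingEnd ℂ) (al s ε ψ z i) * av s ε ψ z i j) := by
    ext j k
    simp only [gm, sqM, Matrix.vecMulVec_apply, Matrix.of_apply, Pi.star_apply, RCLike.star_def,
      AMP.dzb_real_eq, dz_QQ hs hψ hε]
  have hd2 : deriv (deriv Real.log) (QQ s ε ψ z) = -((QQ s ε ψ z) ^ 2)⁻¹ := by
    rw [Real.deriv_log']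
    have := (hasDerivAt_inv hQ.ne').deriv
    exact this
  rw [cHess_comp_real hlog hQs, cHess_QQ hs hψ hε, hg, Real.deriv_log, hd2]
  set Q := QQ s ε ψ z
  ext j k
  simp only [Matrix.add_apply, Matrix.smul_apply, Matrix.sub_apply, smul_eq_mul,
    Complex.real_smul]
  have hQ' : (Q : ℂ) ≠ 0 := by exact_mod_cast hQ.ne'
  push_cast
  field_simp
  ring

/-- **Claim A** -/
lemma logQQ_psd (hs : ∀ i, ContDiffAt ℂ ω (s i) z) (hψ : ContDiffAt ℝ ∞ ψ z) (hε : 0 < ε) :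
    (cHess (fun y => Real.log (QQ s ε ψ y)) z -
      ((ε * Real.exp (ψ z) / QQ s ε ψ z : ℝ) : ℂ) • cHess ψ z).PosSemidef := by
  have h1 := cs_psd (al s ε ψ z) (av s ε ψ z)
  rw [← QQ_eq hε] at h1
  have hQ := QQ_pos (s := s) (ψ := ψ) hε z
  rw [cHess_logQQ hs hψ hε, add_sub_cancel_left]
  exact h1.smul (inv_nonneg.2 (sq_nonneg _))

/-- **Claim B** -/
lemma logQQ_psd_one (hs : ∀ i, ContDiffAt ℂ ω (s i) z) (hψ : ContDiffAt ℝ ∞ ψ z) (hε : 0 < ε)
    {i0 : κ} (h1 : s i0 =ᶠ[𝓝 z] fun _ => 1) :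
    (cHess (fun y => Real.log (QQ s ε ψ y)) z -
      ((ε * Real.exp (ψ z) / QQ s ε ψ z : ℝ) : ℂ) • cHess ψ z -
      (((QQ s ε ψ z) ^ 2)⁻¹ : ℝ) • ∑ i, sqM (fun j => dz j (s i) z)).PosSemidef := by
  classical
  set α' : Option κ → ℂ := fun i => if i = some i0 then 0 else al s ε ψ z i with hα'
  have h2 := cs_psd α' (av s ε ψ z)
  have hQ := QQ_pos (s := s) (ψ := ψ) hε z
  have hav : av s ε ψ z (some i0) = 0 := by
    funext j
    simp only [av, Pi.zero_apply]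
    rw [dz_congr h1, dz_const]
  have h3 : (fun j => ∑ i, (starRingEnd ℂ) (α' i) * av s ε ψ z i j) =
      fun j => ∑ i, (starRingEnd ℂ) (al s ε ψ z i) * av s ε ψ z i j := by
    funext j
    refine Finset.sum_congr rfl fun i _ => ?_
    by_cases h : i = some i0
    · rw [h, hav]; simp
    · simp [hα', h]
  have h4 : ∑ i, ‖α' i‖ ^ 2 = QQ s ε ψ z - 1 := by
    rw [QQ_eq hε, ← Finset.add_sum_erase _ _ (Finset.mem_univ (some i0)),
      ← Finset.add_sum_erase _ (fun i => ‖al s ε ψ z i‖ ^ 2) (Finset.mem_univ (some i0))]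
    have h5 : ‖al s ε ψ z (some i0)‖ ^ 2 = 1 := by
      simp only [al]; rw [h1.self_of_nhds]; simp
    have h6 : ∑ i ∈ Finset.univ.erase (some i0), ‖α' i‖ ^ 2 =
        ∑ i ∈ Finset.univ.erase (some i0), ‖al s ε ψ z i‖ ^ 2 := by
      refine Finset.sum_congr rfl fun i hi => ?_
      simp [hα', Finset.ne_of_mem_erase hi]
    rw [h5, h6]
    simp [hα']
  rw [h3, h4] at h2
  have h7 : ((QQ s ε ψ z : ℝ) : ℂ) • ∑ i, sqM (av s ε ψ z i) -
        sqM (fun j => ∑ i, (starRingEnd ℂ) (al s ε ψ z i) * av s ε ψ z i j) =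
      (((QQ s ε ψ z - 1 : ℝ) : ℂ) • ∑ i, sqM (av s ε ψ z i) -
        sqM (fun j => ∑ i, (starRingEnd ℂ) (al s ε ψ z i) * av s ε ψ z i j)) +
        ∑ i, sqM (av s ε ψ z i) := by
    push_cast
    rw [sub_smul, one_smul]
    abel
  rw [cHess_logQQ hs hψ hε, add_sub_cancel_left, h7, smul_add, add_sub_assoc, ← smul_sub]
  refine (h2.smul (inv_nonneg.2 (sq_nonneg _))).add
    (Matrix.PosSemidef.smul ?_ (inv_nonneg.2 (sq_nonneg _)))
  rw [Fintype.sum_option]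
  have h8 : ∑ i, sqM (av s ε ψ z (some i)) = ∑ i, sqM (fun j => dz j (s i) z) := rfl
  rw [h8, add_sub_cancel_right]
  exact sqM_psd _

end QQ

end Vale.Agent.P301
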