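import Vale.Agent.P301.SympStokes
import Vale.Agent.P301.LogSum

/-! Metrics on line bundles. -/

open scoped Manifold ContDiff ComplexOrder Topology Matrix
open MeasureTheory Set Filter

set_option linter.all false

noncomputable section

namespace Vale.Agent.P301

open Vale.Agent.P272.K
open Vale.Agent.P272.K.INT (IsDensity intX intX_congr intX_of_support IsClosedForm)

variable {N : ℕ} {X : Type} [TopologicalSpace X] [ChartedSpace (Cm N) X]
  {L : LineBundle N X} {h h' : L.ι → X → ℝ} {e e' : Chart N X} {x : X} {a b : L.ι}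

lemma LineBundle.mem_idx (L : LineBundle N X) (x : X) : x ∈ L.U (L.idx x) :=
  Classical.choose_spec (L.cover x)

/-- near `e x` the point `e.symm z` stays in an open set containing `x` -/
lemma At.nhds_mem {V : Set X} (hV : IsOpen V) (hx : At e x) (hxV : x ∈ V) :
    ∀ᶠ z in 𝓝 (e x), z ∈ e.target ∧ At e (e.symm z) ∧ e.symm z ∈ V := by
  have h2 : ∀ᶠ z in 𝓝 (e x), e.symm z ∈ V :=
    (e.continuousAt_symm hx.mem_target).eventually
      (hV.mem_nhds (by rw [hx.left_inv]; exact hxV))
  filter_upwards [hx.nhds_target, h2] with z hz hz'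
  exact ⟨hz, At.of_target hx.1 hz, hz'⟩

lemma g_self (L : LineBundle N X) {a : L.ι} (ha : x ∈ L.U a) : L.g a a x = 1 := by
  have h1 := L.cocycle a a a x ha ha ha
  have h2 := L.ne_zero a a x ha ha
  exact mul_left_cancel₀ h2 (by rw [h1, mul_one])

/-- the weight in two trivialisations -/
lemma IsMetric.eventually (hh : L.IsMetric h) (hx : At e x) (ha : x ∈ L.U a) (hb : x ∈ L.U b) :
    (fun y => h a (e.symm y)) =ᶠ[𝓝 (e x)]
      fun y => h b (e.symm y) + Real.log (‖L.g a b (e.symm y)‖ ^ 2) := by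
  filter_upwards [At.nhds_mem ((L.isOpen a).inter (L.isOpen b)) hx ⟨ha, hb⟩] with y hy
  exact hh.change a b _ hy.2.2.1 hy.2.2.2

lemma IsMetric.cHess_eq (hh : L.IsMetric h) (hx : At e x) (ha : x ∈ L.U a) (hb : x ∈ L.U b) :
    cHess (fun y => h a (e.symm y)) (e x) = cHess (fun y => h b (e.symm y)) (e x) := by
  have hg := L.holo a b x ha hb e hx
  have hg0 : L.g a b (e.symm (e x)) ≠ 0 := by
    rw [hx.left_inv]; exact L.ne_zero a b x ha hb
  have h1 : ContDiffAt ℝ 2 (fun y => h b (e.symm y)) (e x) :=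
    (hh.smooth b x hb e hx).of_le (by norm_cast)
  have h2 : ContDiffAt ℝ 2 (fun y => Real.log (‖L.g a b (e.symm y)‖ ^ 2)) (e x) := by
    refine ((norm_sq_smooth hg).of_le (by norm_cast)).log ?_
    exact pow_ne_zero 2 (norm_ne_zero_iff.2 hg0)
  rw [cHess_congr (IsMetric.eventually hh hx ha hb), cHess_add h1 h2, cHess_log_norm_sq hg hg0,
    add_zero]

lemma IsMetric.curv_eq (hh : L.IsMetric h) (hx : At e x) (ha : x ∈ L.U a) :
    L.curv h e (e x) = cHess (fun y => h a (e.symm y)) (e x) := by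
  unfold LineBundle.curv
  rw [hx.left_inv]
  exact IsMetric.cHess_eq hh hx (L.mem_idx x) ha

lemma IsMetric.curv_eventually (hh : L.IsMetric h) (hx : At e x) (ha : x ∈ L.U a) :
    L.curv h e =ᶠ[𝓝 (e x)] fun z => cHess (fun y => h a (e.symm y)) z := by
  filter_upwards [At.nhds_mem (L.isOpen a) hx ha] with z hz
  have := IsMetric.curv_eq hh hz.2.1 hz.2.2
  rwa [e.right_inv hz.1] at this

variable [IsManifold 𝓘(ℂ, Cm N) ω X]

lemma IsMetric.isClosedForm (hh : L.IsMetric h) : IsClosedForm (L.curv h) where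
  smooth e x hx i j := by
    have h1 := hh.smooth (L.idx x) x (L.mem_idx x) e hx
    refine (INT.smooth_cHess h1 i j).congr_of_eventuallyEq ?_
    filter_upwards [IsMetric.curv_eventually hh hx (L.mem_idx x)] with z hz
    rw [hz]
  form := by
    intro e e' x hx hx'
    have ha := L.mem_idx x
    rw [IsMetric.curv_eq hh hx ha, IsMetric.curv_eq hh hx' ha]
    set a := L.idx x
    have h1 : (fun y => h a (e.symm y)) =ᶠ[𝓝 (e x)]
        fun y => (fun y => h a (e'.symm y)) (e' (e.symm y)) := by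
      filter_upwards [hx.nhds_at hx'] with z hz
      show h a (e.symm z) = h a (e'.symm (e' (e.symm z)))
      rw [hz.2.2.left_inv]
    have h2 : e' (e.symm (e x)) = e' x := by rw [hx.left_inv]
    rw [cHess_congr h1]
    have := cHess_comp (τ := fun z => e' (e.symm z)) (f := fun y => h a (e'.symm y)) (z := e x)
      (by rw [h2]; exact (hh.smooth a x ha e' hx').of_le (by norm_cast)) (transition hx hx')
    rw [h2] at this
    exact this
  closed e x hx i k l := by
    have h1 := hh.smooth (L.idx x) x (L.mem_idx x) e hx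
    have h2 := IsMetric.curv_eventually hh hx (L.mem_idx x)
    rw [dz_congr (f := fun z => L.curv h e z k l)
      (g := fun z => cHess (fun y => h (L.idx x) (e.symm y)) z k l)
      (by filter_upwards [h2] with z hz; rw [hz]),
      dz_congr (f := fun z => L.curv h e z i l)
      (g := fun z => cHess (fun y => h (L.idx x) (e.symm y)) z i l)
      (by filter_upwards [h2] with z hz; rw [hz])]
    exact INT.cHess_closed h1 i k l

/-- the difference of two metrics is a function -/
lemma IsMetric.exists_diff (hh : L.IsMetric h) (hh' : L.IsMetric h') :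
    ∃ u : X → ℝ, SmoothFn (n := N) u ∧ (∀ a x, x ∈ L.U a → u x = h a x - h' a x) ∧
      ∀ e x, At e x → L.curv h e (e x) = L.curv h' e (e x) +
        cHess (fun y => u (e.symm y)) (e x) := by
  set u : X → ℝ := fun x => h (L.idx x) x - h' (L.idx x) x with hu
  have hu' : ∀ a x, x ∈ L.U a → u x = h a x - h' a x := by
    intro a x ha
    simp only [hu]
    rw [hh.change (L.idx x) a x (L.mem_idx x) ha, hh'.change (L.idx x) a x (L.mem_idx x) ha]
    ring
  have hev : ∀ (e : Chart N X) x a, At e x → x ∈ L.U a →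
      (fun y => u (e.symm y)) =ᶠ[𝓝 (e x)] fun y => h a (e.symm y) - h' a (e.symm y) := by
    intro e x a hx ha
    filter_upwards [At.nhds_mem (L.isOpen a) hx ha] with y hy
    exact hu' a _ hy.2.2
  refine ⟨u, fun e x hx => ?_, hu', fun e x hx => ?_⟩
  · have ha := L.mem_idx x
    exact ((hh.smooth _ x ha e hx).sub (hh'.smooth _ x ha e hx)).congr_of_eventuallyEq
      (hev e x _ hx ha)
  · have ha := L.mem_idx x
    rw [cHess_congr (hev e x _ hx ha), cHess_sub ((hh.smooth _ x ha e hx).of_le (by norm_cast))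
      ((hh'.smooth _ x ha e hx).of_le (by norm_cast)), IsMetric.curv_eq hh hx ha,
      IsMetric.curv_eq hh' hx ha]
    abel

/-! ### Metrics from sections -/

section sections

variable {κ : Type} [Fintype κ] {m : ℕ} {s : κ → L.ι → X → ℂ} {ε : ℝ}

/-- the metric on `L` with weight `(1/m) log (Σ |s_i|² + ε e^(m h))` -/
def secMetric (m : ℕ) (s : κ → L.ι → X → ℂ) (ε : ℝ) (h : L.ι → X → ℝ) (a : L.ι) (x : X) : ℝ :=
  (1 / (m : ℝ)) * Real.log (∑ i, ‖s i a x‖ ^ 2 + ε * Real.exp (m * h a x))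

omit [IsManifold 𝓘(ℂ, Cm N) ω X] in
lemma secMetric_eq (e : Chart N X) (a : L.ι) :
    (fun y => secMetric m s ε h a (e.symm y)) = fun y => (1 / (m : ℝ)) *
      Real.log (QQ (fun i y => s i a (e.symm y)) ε (fun y => m * h a (e.symm y)) y) := rfl

omit [IsManifold 𝓘(ℂ, Cm N) ω X] in
lemma secMetric_isMetric (hm : 1 ≤ m) (hs : ∀ i, L.IsSection m (s i)) (hε : 0 < ε)
    (hh : L.IsMetric h) : L.IsMetric (secMetric m s ε h) where
  smooth a x ha := by
    intro e hx
    rw [secMetric_eq]
    exact contDiffAt_const.mul (logQQ_smooth (fun i => (hs i).holo a x ha e hx)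
      (contDiffAt_const.mul (hh.smooth a x ha e hx)) hε)
  change a b x ha hb := by
    have hm0 : (m : ℝ) ≠ 0 := by exact_mod_cast (by omega : m ≠ 0)
    have hg := L.ne_zero a b x ha hb
    have hgp : 0 < ‖L.g a b x‖ ^ 2 := by positivity
    have h1 : ∀ i, ‖s i a x‖ ^ 2 = (‖L.g a b x‖ ^ 2) ^ m * ‖s i b x‖ ^ 2 := by
      intro i
      rw [(hs i).change a b x ha hb, norm_mul, norm_pow, mul_pow, ← pow_mul, ← pow_mul, mul_comm m 2]
    have h2 : Real.exp (m * h a x) = (‖L.g a b x‖ ^ 2) ^ m * Real.exp (m * h b x) := by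
      rw [hh.change a b x ha hb, mul_add, Real.exp_add, mul_comm]
      congr 1
      rw [← Real.log_pow, Real.exp_log (pow_pos hgp m)]
    have h3 : ∑ i, ‖s i a x‖ ^ 2 + ε * Real.exp (m * h a x) =
        (‖L.g a b x‖ ^ 2) ^ m * (∑ i, ‖s i b x‖ ^ 2 + ε * Real.exp (m * h b x)) := by
      rw [h2, Finset.sum_congr rfl fun i _ => h1 i, ← Finset.mul_sum]
      ring
    have h4 : 0 < ∑ i, ‖s i b x‖ ^ 2 + ε * Real.exp (m * h b x) := by
      have : 0 ≤ ∑ i, ‖s i b x‖ ^ 2 := Finset.sum_nonneg fun i _ => sq_nonneg _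
      have := Real.exp_pos (m * h b x)
      positivity
    unfold secMetric
    rw [h3, Real.log_mul (pow_pos hgp m).ne' h4.ne', Real.log_pow]
    field_simp
    ring

omit [IsManifold 𝓘(ℂ, Cm N) ω X] in
lemma secMetric_curv (hm : 1 ≤ m) (hs : ∀ i, L.IsSection m (s i)) (hε : 0 < ε)
    (hh : L.IsMetric h) (hx : At e x) (ha : x ∈ L.U a) :
    L.curv (secMetric m s ε h) e (e x) = ((1 / (m : ℝ) : ℝ) : ℂ) •
      cHess (fun y => Real.log (QQ (fun i y => s i a (e.symm y)) ε
        (fun y => m * h a (e.symm y)) y)) (e x) := by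
  rw [IsMetric.curv_eq (secMetric_isMetric hm hs hε hh) hx ha, secMetric_eq]
  exact cHess_const_mul _ ((logQQ_smooth (fun i => (hs i).holo a x ha e hx)
      (contDiffAt_const.mul (hh.smooth a x ha e hx)) hε).of_le (by norm_cast))

/-- positivity of the metric defined by sections -/
lemma secMetric_psd {w : Chart N X → Cm N → Matrix (Fin N) (Fin N) ℂ} {δ : ℝ} (hδ : 0 ≤ δ)
    (hw : ∀ e x, At e x → (w e (e x)).PosSemidef) (hm : 1 ≤ m)
    (hs : ∀ i, L.IsSection m (s i)) (hε : 0 < ε)
    (hh : L.IsMetric h) (hpos : ∀ e x, At e x → (L.curv h e (e x) + (δ : ℂ) • w e (e x)).PosSemidef)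
    (hx : At e x) : (L.curv (secMetric m s ε h) e (e x) + (δ : ℂ) • w e (e x)).PosSemidef := by
  have ha := L.mem_idx x
  set a := L.idx x
  have hm0 : (0 : ℝ) < m := by exact_mod_cast hm
  rw [secMetric_curv hm hs hε hh hx ha]
  have hψ : ContDiffAt ℝ ∞ (fun y => m * h a (e.symm y)) (e x) :=
    contDiffAt_const.mul (hh.smooth a x ha e hx)
  have h1 := logQQ_psd (s := fun i y => s i a (e.symm y)) (fun i => (hs i).holo a x ha e hx) hψ hε
  have h2 : cHess (fun y => (m : ℝ) * h a (e.symm y)) (e x) = ((m : ℝ) : ℂ) • L.curv h e (e x) := by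
    rw [IsMetric.curv_eq hh hx ha]
    exact cHess_const_mul _ ((hh.smooth a x ha e hx).of_le (by norm_cast))
  rw [h2] at h1
  set Q := QQ (fun i y => s i a (e.symm y)) ε (fun y => (m : ℝ) * h a (e.symm y)) (e x) with hQ
  set E := ε * Real.exp (m * h a (e.symm (e x))) with hE
  have hQp : 0 < Q := QQ_pos hε _
  have hEp : 0 < E := mul_pos hε (Real.exp_pos _)
  have hEQ : E ≤ Q := by
    rw [hQ, hE]; unfold QQ
    have : 0 ≤ ∑ i, ‖s i a (e.symm (e x))‖ ^ 2 := Finset.sum_nonneg fun i _ => sq_nonneg _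
    linarith
  have hθ : 0 ≤ 1 - E / Q := by
    rw [sub_nonneg, div_le_one hQp]; exact hEQ
  have h3 := (h1.smul (inv_nonneg.2 hm0.le)).add (((hpos e x hx).smul (div_nonneg hEp.le hQp.le)).add
    ((hw e x hx).smul (mul_nonneg hθ hδ)))
  convert h3 using 1
  ext j k
  simp only [Matrix.add_apply, Matrix.smul_apply, Matrix.sub_apply, smul_eq_mul,
    Complex.real_smul]
  have hm' : ((m : ℝ) : ℂ) ≠ 0 := by exact_mod_cast hm0.ne'
  push_cast at hm' ⊢
  field_simp
  ring

end sections

end Vale.Agent.P301
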