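import Vale.Agent.P301.Region

/-! The mass of a line bundle near an isolated point of a slice of a base locus. -/

open scoped Manifold ContDiff ComplexOrder Topology Matrix
open MeasureTheory Set Filter

set_option linter.all false

noncomputable section

namespace Vale.Agent.P301

open Vale.Agent.P272.K
open Vale.Agent.P272.K.INT (IsDensity intX intX_congr intX_of_support IsClosedForm)

variable {N c d : ℕ}

lemma pull_posDef {κ : Type*} [Fintype κ] {J : Matrix (Fin N) κ ℂ}
    (hJ : Function.Injective J.mulVec) {M : Matrix (Fin N) (Fin N) ℂ} (hM : M.PosDef) :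
    (pull J M).PosDef := by
  unfold pull
  rw [map_conj_eq']
  refine hM.mul_mul_conjTranspose_same ?_
  intro v w hvw
  simp only [Matrix.vecMul_transpose] at hvw
  exact hJ hvw

lemma pull_lower {κ : Type*} [Fintype κ] [DecidableEq κ] {J : Matrix (Fin N) κ ℂ}
    (hJ : Function.Injective J.mulVec) {K : Set (Cm N)} (hK : IsCompact K)
    {W : Cm N → Matrix (Fin N) (Fin N) ℂ} (hWc : ContinuousOn W K)
    (hWp : ∀ z ∈ K, (W z).PosDef) :
    ∃ s : ℝ, 0 < s ∧ ∀ z ∈ K, (pull J (W z) - (s : ℂ) • 1).PosSemidef := by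
  have hPc : ContinuousOn (fun z => pull J (W z)) K := by
    have h1 : Continuous fun M : Matrix (Fin N) (Fin N) ℂ => pull J M := by
      unfold pull
      exact (continuous_const.matrix_mul continuous_id).matrix_mul continuous_const
    exact h1.comp_continuousOn hWc
  have hP : ∀ z ∈ K, (pull J (W z)).PosDef := fun z hz => pull_posDef hJ (hWp z hz)
  have hf : ContinuousOn (fun z => (pull J (W z)).det⁻¹ * (pull J (W z)).adjugate.trace) K := by
    refine ContinuousOn.mul (ContinuousOn.inv₀ ?_ fun z hz => (hP z hz).det_pos.ne') ?_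
    · exact (Continuous.matrix_det continuous_id).comp_continuousOn hPc
    · exact ((Continuous.matrix_adjugate continuous_id).matrix_trace).comp_continuousOn hPc
  obtain ⟨B, hB⟩ := hK.exists_bound_of_continuousOn hf
  refine ⟨(|B| + 1)⁻¹, by positivity, fun z hz => ?_⟩
  have h1 := C2.trace_smul_sub_posSemidef (hP z hz) (Matrix.PosSemidef.one (n := κ) (R := ℂ))
  have h2 : ((pull J (W z))⁻¹ * 1).trace =
      (pull J (W z)).det⁻¹ * (pull J (W z)).adjugate.trace := by
    rw [mul_one, Matrix.inv_def, Ring.inverse_eq_inv', Matrix.trace_smul, smul_eq_mul]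
  have h3 : (0 : ℂ) ≤ ((pull J (W z))⁻¹ * 1).trace := by
    rw [mul_one]; exact (hP z hz).inv.posSemidef.trace_nonneg
  have h4 : ((pull J (W z))⁻¹ * 1).trace = ((((pull J (W z))⁻¹ * 1).trace.re : ℝ) : ℂ) := by
    rw [Complex.le_def] at h3
    apply Complex.ext
    · simp
    · simpa using h3.2.symm
  set τ := ((pull J (W z))⁻¹ * 1).trace.re with hτ
  have hτB : τ ≤ |B| + 1 := by
    have := hB z hz
    rw [← h2, h4, Complex.norm_real, Real.norm_eq_abs] at this
    linarith [le_abs_self τ, le_abs_self B]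
  rw [h4] at h1
  have hB0 : (0 : ℝ) < |B| + 1 := by positivity
  have h5 : (((|B| + 1 : ℝ) : ℂ) • pull J (W z) - 1).PosSemidef := by
    have h6 : (((|B| + 1 - τ : ℝ) : ℂ) • pull J (W z)).PosSemidef :=
      (hP z hz).posSemidef.smul (by exact_mod_cast sub_nonneg.2 hτB)
    have h7 := h1.add h6
    convert h7 using 1
    push_cast
    rw [sub_smul]; abel
  have h8 := h5.smul (show (0 : ℂ) ≤ (((|B| + 1)⁻¹ : ℝ) : ℂ) by
    exact_mod_cast (inv_pos.2 hB0).le)
  convert h8 using 1
  rw [smul_sub, smul_smul, ← Complex.ofReal_mul, inv_mul_cancel₀ hB0.ne', Complex.ofReal_one,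
    one_smul]

lemma det_pull (hdc : d + c = N) (J : Matrix (Fin N) (Fin d ⊕ Fin c) ℂ) : ∃ k : ℝ, 0 ≤ k ∧
    ∀ M : Matrix (Fin N) (Fin N) ℂ, (pull J M).det.re = k * M.det.re := by
  set σ : Fin N ≃ Fin d ⊕ Fin c := ((finSumFinEquiv (m := d) (n := c)).trans (finCongr hdc)).symm
  set J' : Matrix (Fin N) (Fin N) ℂ := J.submatrix id σ with hJ'
  refine ⟨‖J'.det‖ ^ 2, sq_nonneg _, fun M => ?_⟩
  have h1 : (pull J M).submatrix σ σ = J'ᵀ * M * J'.map (starRingEnd ℂ) := by
    ext i j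
    simp only [pull, Matrix.submatrix_apply, Matrix.mul_apply, Matrix.transpose_apply,
      Matrix.map_apply, hJ', id]
  have h2 : (J'.map (starRingEnd ℂ)).det = (starRingEnd ℂ) J'.det :=
    ((starRingEnd ℂ).map_det J').symm
  rw [← Matrix.det_submatrix_equiv_self σ, h1, Matrix.det_mul, Matrix.det_mul,
    Matrix.det_transpose, h2, mul_right_comm, Complex.mul_conj, Complex.normSq_eq_norm_sq,
    Complex.re_ofReal_mul]

/-- the matrix of an isomorphism `ℂ^d × ℂ^c ≃ ℂ^N` -/
def JF (Φ : (Cm d × Cm c) ≃L[ℂ] Cm N) : Matrix (Fin N) (Fin d ⊕ Fin c) ℂ :=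
  JM (Sum.elim (fun i => Φ (Pi.single i 1, 0)) (fun j => Φ (0, Pi.single j 1)))

lemma JF_mulVec (Φ : (Cm d × Cm c) ≃L[ℂ] Cm N) (v : Fin d ⊕ Fin c → ℂ) :
    JF Φ *ᵥ v = Φ (fun i => v (Sum.inl i), fun j => v (Sum.inr j)) := by
  have h1 : ((fun i => v (Sum.inl i), fun j => v (Sum.inr j)) : Cm d × Cm c) =
      ∑ i, v (Sum.inl i) • (Pi.single i 1, 0) + ∑ j, v (Sum.inr j) • (0, Pi.single j 1) := by
    refine Prod.ext ?_ ?_
    · simp only [Prod.fst_add, Prod.fst_sum, Prod.smul_fst, smul_zero, Finset.sum_const_zero,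
        add_zero]
      funext i
      simp [Finset.sum_apply, Pi.single_apply]
    · simp only [Prod.snd_add, Prod.snd_sum, Prod.smul_snd, smul_zero, Finset.sum_const_zero,
        zero_add]
      funext i
      simp [Finset.sum_apply, Pi.single_apply]
  rw [h1, map_add, map_sum, map_sum]
  ext p
  simp only [map_smul, JF, JM, Matrix.mulVec, dotProduct, Matrix.of_apply, Fintype.sum_sum_type,
    Sum.elim_inl, Sum.elim_inr, Pi.add_apply, Finset.sum_apply, Pi.smul_apply, smul_eq_mul]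
  congr 1 <;> exact Finset.sum_congr rfl fun i _ => mul_comm _ _

lemma JF_injective (Φ : (Cm d × Cm c) ≃L[ℂ] Cm N) : Function.Injective (JF Φ).mulVec := by
  intro v w hvw
  rw [JF_mulVec, JF_mulVec] at hvw
  have h1 := Φ.injective hvw
  rw [Prod.mk.injEq] at h1
  funext i
  rcases i with i | j
  · exact congrFun h1.1 i
  · exact congrFun h1.2 j

/-- the slice direction -/
def sl (Φ : (Cm d × Cm c) ≃L[ℂ] Cm N) : Cm c →L[ℂ] Cm N :=
  (Φ : (Cm d × Cm c) →L[ℂ] Cm N).comp (ContinuousLinearMap.inr ℂ (Cm d) (Cm c))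

lemma sl_add (Φ : (Cm d × Cm c) ≃L[ℂ] Cm N) (a : Cm N) (y : Cm d) (x : Cm c) :
    (a + Φ (y, 0)) + sl Φ x = a + Φ (y, x) := by
  have h1 : sl Φ x = Φ (0, x) := rfl
  rw [h1, add_assoc, ← map_add]
  simp

lemma JF_block (Φ : (Cm d × Cm c) ≃L[ℂ] Cm N) (M : Matrix (Fin N) (Fin N) ℂ) :
    (pull (JF Φ) M).toBlocks₂₂ = pull (JM (cols (sl Φ))) M := by
  ext i j
  simp only [Matrix.toBlocks₂₂, Matrix.of_apply, pull_apply]
  rfl

end Vale.Agent.P301
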