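import Vale.Agent.P301.Core

/-! The mass of a line bundle near an isolated point of a slice of a base locus. -/

open scoped Manifold ContDiff ComplexOrder Topology Matrix
open MeasureTheory Set Filter

set_option linter.all false

noncomputable section

namespace Vale.Agent.P301

open Vale.Agent.P272.K
open Vale.Agent.P272.K.INT (IsDensity intX intX_congr intX_of_support IsClosedForm)

variable {N c d : ℕ}

/-- a uniform neighbourhood of a slice -/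
lemma exists_tube {F : Cm d × Cm c → Cm N} (hF : Continuous F) {O : Set (Cm N)} (hO : IsOpen O)
    {Q : Cm N → ℝ} (hQ : ContinuousOn Q O) {r m₀ κ : ℝ} (hr : 0 < r)
    (h0 : ∀ x : Cm c, nsq x ≤ r → F (0, x) ∈ O)
    (h1 : ∀ x : Cm c, r / 4 ≤ nsq x → nsq x ≤ r → m₀ < Q (F (0, x)))
    (h2 : Q (F (0, 0)) < κ) :
    ∃ ρ : ℝ, 0 < ρ ∧ ∃ s : ℝ, 0 < s ∧ s ≤ r ∧ ∀ y : Cm d, ‖y‖ ≤ ρ →
      (∀ x : Cm c, nsq x ≤ r → F (y, x) ∈ O) ∧
      (∀ x : Cm c, r / 4 ≤ nsq x → nsq x ≤ r → m₀ < Q (F (y, x))) ∧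
      (∀ x : Cm c, nsq x < s → Q (F (y, x)) < κ) := by
  have hW0 : IsOpen (F ⁻¹' O) := hO.preimage hF
  have hW1 : IsOpen (F ⁻¹' (O ∩ Q ⁻¹' Ioi m₀)) :=
    (hQ.isOpen_inter_preimage hO isOpen_Ioi).preimage hF
  have hW2 : IsOpen (F ⁻¹' (O ∩ Q ⁻¹' Iio κ)) :=
    (hQ.isOpen_inter_preimage hO isOpen_Iio).preimage hF
  obtain ⟨u0, v0, hu0, hv0, h0u, h0v, h0W⟩ := generalized_tube_lemma
    (isCompact_singleton (x := (0 : Cm d))) (isCompact_nsq_le (c := c) r) hW0 (by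
      rintro ⟨y, x⟩ ⟨hy, hx⟩
      rw [mem_singleton_iff] at hy
      subst hy
      exact h0 x hx)
  have hA : IsCompact ({x : Cm c | nsq x ≤ r} ∩ {x | r / 4 ≤ nsq x}) :=
    (isCompact_nsq_le r).inter_right (isClosed_le continuous_const nsq_continuous)
  obtain ⟨u1, v1, hu1, hv1, h1u, h1v, h1W⟩ := generalized_tube_lemma
    (isCompact_singleton (x := (0 : Cm d))) hA hW1 (by
      rintro ⟨y, x⟩ ⟨hy, hx⟩
      rw [mem_singleton_iff] at hy
      subst hy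
      exact ⟨h0 x hx.1, h1 x hx.2 hx.1⟩)
  have hm2 : F ⁻¹' (O ∩ Q ⁻¹' Iio κ) ∈ 𝓝 ((0 : Cm d), (0 : Cm c)) :=
    hW2.mem_nhds ⟨h0 0 (by rw [nsq_zero]; exact hr.le), h2⟩
  obtain ⟨u2, v2, hu2, h2u, hv2, h2v, h2W⟩ := mem_nhds_prod_iff'.1 hm2
  have hu : u0 ∩ u1 ∩ u2 ∈ 𝓝 (0 : Cm d) :=
    ((hu0.inter hu1).inter hu2).mem_nhds ⟨⟨h0u rfl, h1u rfl⟩, h2u⟩
  obtain ⟨ρ, hρ, hρu⟩ := Metric.nhds_basis_closedBall.mem_iff.1 hu
  obtain ⟨η, hη, hηv⟩ := Metric.mem_nhds_iff.1 (hv2.mem_nhds h2v)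
  refine ⟨ρ, hρ, min r (η ^ 2), lt_min hr (by positivity), min_le_left _ _, fun y hy => ?_⟩
  have hyu := hρu (mem_closedBall_zero_iff.2 hy)
  refine ⟨fun x hx => ?_, fun x hx hx' => ?_, fun x hx => ?_⟩
  · exact h0W ⟨hyu.1.1, h0v hx⟩
  · exact (h1W (⟨hyu.1.2, h1v ⟨hx', hx⟩⟩ : (y, x) ∈ u1 ×ˢ v1)).2
  · have h3 : ‖x‖ < η := by
      refine lt_of_pow_lt_pow_left₀ 2 hη.le ?_
      exact (norm_sq_le_nsq x).trans_lt (lt_of_lt_of_le hx (min_le_right _ _))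
    exact (h2W (⟨hyu.2, hηv (mem_ball_zero_iff.2 h3)⟩ : (y, x) ∈ u2 ×ˢ v2)).2

variable {X : Type} [TopologicalSpace X] [ChartedSpace (Cm N) X]
  [IsManifold 𝓘(ℂ, Cm N) ω X] {L : LineBundle N X}
  {w : Chart N X → Cm N → Matrix (Fin N) (Fin N) ℂ}

/-- integrate a lower bound over slices -/
lemma integrate_slices (Φ : (Cm d × Cm c) ≃L[ℂ] Cm N) {k : ℝ}
    (hk : ∀ (a : Cm N) (f : Cm N → ℝ) (s : Set (Cm d × Cm c)), MeasurableSet s →
      ∫ z in (fun p => a + Φ p) '' s, f z = k * ∫ p in s, f (a + Φ p)) (hk0 : 0 ≤ k)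
    {a : Cm N} {f : Cm N → ℝ} {r ρ v : ℝ}
    (hf : ContinuousOn f ((fun p => a + Φ p) '' (Metric.closedBall 0 ρ ×ˢ {x | nsq x ≤ r})))
    (hv : ∀ y : Cm d, ‖y‖ ≤ ρ → v ≤ ∫ x in {x : Cm c | nsq x < r}, f (a + Φ (y, x))) :
    k * (volume.real (Metric.closedBall (0 : Cm d) ρ) * v) ≤
      ∫ z in (fun p => a + Φ p) '' (Metric.closedBall 0 ρ ×ˢ {x | nsq x < r}), f z := by
  have hm : MeasurableSet (Metric.closedBall (0 : Cm d) ρ ×ˢ {x : Cm c | nsq x < r}) :=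
    Metric.isClosed_closedBall.measurableSet.prod (isOpen_nsq_lt r).measurableSet
  have hsub : Metric.closedBall (0 : Cm d) ρ ×ˢ {x : Cm c | nsq x < r} ⊆
      Metric.closedBall (0 : Cm d) ρ ×ˢ {x : Cm c | nsq x ≤ r} :=
    prod_mono subset_rfl fun x hx => le_of_lt (show nsq x < r from hx)
  have hcomp : IsCompact (Metric.closedBall (0 : Cm d) ρ ×ˢ {x : Cm c | nsq x ≤ r}) :=
    (isCompact_closedBall 0 ρ).prod (isCompact_nsq_le r)
  have hFc : Continuous fun p : Cm d × Cm c => a + Φ p := continuous_const.add Φ.continuous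
  have hg : ContinuousOn (fun p => f (a + Φ p))
      (Metric.closedBall (0 : Cm d) ρ ×ˢ {x : Cm c | nsq x ≤ r}) :=
    hf.comp hFc.continuousOn fun p hp => ⟨p, hp, rfl⟩
  have hint : IntegrableOn (fun p => f (a + Φ p))
      (Metric.closedBall (0 : Cm d) ρ ×ˢ {x : Cm c | nsq x < r})
      ((volume : Measure (Cm d)).prod (volume : Measure (Cm c))) :=
    (hg.integrableOn_compact (μ := (volume : Measure (Cm d)).prod (volume : Measure (Cm c)))
      hcomp).mono_set hsub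
  rw [hk a f _ hm]
  refine mul_le_mul_of_nonneg_left ?_ hk0
  have h1 : ∫ p in Metric.closedBall (0 : Cm d) ρ ×ˢ {x : Cm c | nsq x < r}, f (a + Φ p) =
      ∫ y in Metric.closedBall (0 : Cm d) ρ, ∫ x in {x : Cm c | nsq x < r}, f (a + Φ (y, x)) :=
    setIntegral_prod (fun p => f (a + Φ p)) hint
  rw [h1]
  have h2 : volume.real (Metric.closedBall (0 : Cm d) ρ) * v =
      ∫ y in Metric.closedBall (0 : Cm d) ρ, v := by
    rw [setIntegral_const, smul_eq_mul]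
  rw [h2]
  refine setIntegral_mono_on ?_ ?_ Metric.isClosed_closedBall.measurableSet fun y hy =>
    hv y (mem_closedBall_zero_iff.1 hy)
  · exact integrableOn_const (isCompact_closedBall (0 : Cm d) ρ).measure_lt_top.ne
  · have h3 : Integrable (fun p => f (a + Φ p))
        ((volume.restrict (Metric.closedBall (0 : Cm d) ρ)).prod
          (volume.restrict {x : Cm c | nsq x < r})) := by
      rw [Measure.prod_restrict]; exact hint
    exact h3.integral_prod_left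

/-- the determinant of a form bounded below, in terms of its restriction to a slice -/
lemma det_slice_le (Φ : (Cm d × Cm c) ≃L[ℂ] Cm N) {k : ℝ}
    (hk : ∀ M : Matrix (Fin N) (Fin N) ℂ, (pull (JF Φ) M).det.re = k * M.det.re)
    {T W : Matrix (Fin N) (Fin N) ℂ} {s t : ℝ} (hT : T.PosSemidef) (hs : 0 < s) (ht : 0 < t)
    (hW : (pull (JF Φ) W - (s : ℂ) • 1).PosSemidef) :
    (t * s) ^ d * (pull (JM (cols (sl Φ))) T).det.re ≤ k * (T + (t : ℂ) • W).det.re := by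
  have h1 := det_block (pull_psd (JF Φ) hT) (mul_pos ht hs)
  rw [JF_block] at h1
  refine h1.trans ?_
  rw [← hk]
  have hts : (0 : ℂ) < ((t * s : ℝ) : ℂ) := by exact_mod_cast mul_pos ht hs
  refine det_re_le' ?_ ?_
  · exact Matrix.PosDef.posSemidef_add (pull_psd _ hT) (Matrix.PosDef.one.smul hts)
  · have h2 : pull (JF Φ) (T + (t : ℂ) • W) - (pull (JF Φ) T + ((t * s : ℝ) : ℂ) • 1) =
        (t : ℂ) • (pull (JF Φ) W - (s : ℂ) • 1) := by
      rw [pull_add, pull_smul, smul_sub, smul_smul]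
      push_cast
      abel
    rw [h2]
    exact hW.smul (by exact_mod_cast ht.le)

end Vale.Agent.P301
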