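import Vale.Agent.P301.Core2

/-! The mass of a line bundle near an isolated point of a slice of a base locus. -/

open scoped Manifold ContDiff ComplexOrder Topology Matrix
open MeasureTheory Set Filter

set_option linter.all false

noncomputable section

namespace Vale.Agent.P301

open Vale.Agent.P272.K
open Vale.Agent.P272.K.INT (IsDensity intX intX_congr intX_of_support IsClosedForm)

variable {N c d : ℕ} {X : Type} [TopologicalSpace X] [ChartedSpace (Cm N) X]
  [IsManifold 𝓘(ℂ, Cm N) ω X] {L : LineBundle N X}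
  {w : Chart N X → Cm N → Matrix (Fin N) (Fin N) ℂ}

/-- weights of `secMetric` where the sections are small -/
lemma secMetric_lt {κ : Type} [Fintype κ] {m : ℕ} (hm : 1 ≤ m) {s : κ → L.ι → X → ℂ} {ε k b : ℝ}
    (hε : 0 < ε) (hk : k = Real.exp (-(m * (b + 2))) / 2) {h : L.ι → X → ℝ} {a : L.ι} {x : X}
    (h1 : ∑ i, ‖s i a x‖ ^ 2 < k) (h2 : ε * Real.exp (m * h a x) ≤ k) :
    secMetric m s ε h a x + 1 < -b := by
  have hm0 : (0 : ℝ) < m := by exact_mod_cast hm
  unfold secMetric
  have h3 : ∑ i, ‖s i a x‖ ^ 2 + ε * Real.exp (m * h a x) < Real.exp (-(m * (b + 2))) := by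
    rw [hk] at h1 h2; linarith
  have h0 : 0 < ∑ i, ‖s i a x‖ ^ 2 + ε * Real.exp (m * h a x) := by
    have a1 : 0 ≤ ∑ i, ‖s i a x‖ ^ 2 := Finset.sum_nonneg fun i _ => sq_nonneg _
    have a2 := mul_pos hε (Real.exp_pos (m * h a x))
    linarith
  have h4 := Real.log_lt_log h0 h3
  rw [Real.log_exp] at h4
  have h5 : 1 / (m : ℝ) * Real.log (∑ i, ‖s i a x‖ ^ 2 + ε * Real.exp (m * h a x)) <
      1 / (m : ℝ) * (-(m * (b + 2))) := mul_lt_mul_of_pos_left h4 (by positivity)
  have h6 : 1 / (m : ℝ) * (-(m * (b + 2))) = -(b + 2) := by field_simp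
  linarith

/-- weights of `secMetric` where the sections are not small -/
lemma lt_secMetric {κ : Type} [Fintype κ] {m : ℕ} (hm : 1 ≤ m) {s : κ → L.ι → X → ℂ} {ε k : ℝ}
    (hε : 0 < ε) (hk : 0 < k) {h : L.ι → X → ℝ} {a : L.ι} {x : X}
    (h1 : k < ∑ i, ‖s i a x‖ ^ 2) :
    1 / (m : ℝ) * Real.log k < secMetric m s ε h a x := by
  have hm0 : (0 : ℝ) < m := by exact_mod_cast hm
  unfold secMetric
  refine mul_lt_mul_of_pos_left (Real.log_lt_log hk ?_) (by positivity)
  have := mul_pos hε (Real.exp_pos (m * h a x))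
  linarith

variable [T2Space X] [CompactSpace X]

/-- **Lower bound for the volume near an isolated point of a slice of a base locus.** -/
theorem core (hw : IsKahler w) {e : Chart N X} (he : e ∈ atlas (Cm N) X) {p : X}
    (hp : p ∈ e.source) {m : ℕ} (hm : 1 ≤ m) {κ : Type} [Fintype κ] {s : κ → L.ι → X → ℂ}
    (hs : ∀ i, L.IsSection m (s i)) (hsp : ∀ i, L.Zero (s i) p) (hdc : d + c = N)
    (Φ : (Cm d × Cm c) ≃L[ℂ] Cm N) {r : ℝ} (hr : 0 < r) {a : L.ι}
    (hO : ∀ x : Cm c, nsq x ≤ r → e p + Φ (0, x) ∈ e.target ∧ e.symm (e p + Φ (0, x)) ∈ L.U a)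
    (hnz : ∀ x : Cm c, r / 4 ≤ nsq x → nsq x ≤ r → ∃ i, s i a (e.symm (e p + Φ (0, x))) ≠ 0) :
    ∃ c₁ k₁ : ℝ, 0 < c₁ ∧ 0 ≤ k₁ ∧ ∀ δ t : ℝ, 0 ≤ δ → 0 < t → ∀ h : L.ι → X → ℝ, L.IsMetric h →
      (∀ e x, At e x → (L.curv h e (e x) + (δ : ℂ) • w e (e x)).PosSemidef) →
      ∃ H : L.ι → X → ℝ, L.IsMetric H ∧
        c₁ * t ^ d ≤ k₁ * intX (fun e z => (L.curv H e z + ((δ + t : ℝ) : ℂ) • w e z).det.re) := by
  have hm0 : (0 : ℝ) < m := by exact_mod_cast hm
  set F : Cm d × Cm c → Cm N := fun q => e p + Φ q with hF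
  have hFc : Continuous F := continuous_const.add Φ.continuous
  have hF0 : F (0, 0) = e p := by simp [hF]
  set O : Set (Cm N) := e.target ∩ e.symm ⁻¹' (L.U a) with hOdef
  have hOo : IsOpen O := e.symm.isOpen_inter_preimage (L.isOpen a)
  have hpa : p ∈ L.U a := by
    have := (hO 0 (by rw [nsq_zero]; exact hr.le)).2
    rw [show e p + Φ (0, 0) = e p by simp, e.left_inv hp] at this
    exact this
  set Q : Cm N → ℝ := fun z => ∑ i, ‖s i a (e.symm z)‖ ^ 2 with hQdef
  have hQc : ContinuousOn Q O := by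
    intro z hz
    have hx : At e (e.symm z) := At.of_target he hz.1
    have h1 : ∀ i, ContDiffAt ℂ ω (fun y => s i a (e.symm y)) z := by
      intro i
      have := (hs i).holo a (e.symm z) hz.2 e hx
      rwa [e.right_inv hz.1] at this
    exact (ContDiffAt.sum fun i _ => norm_sq_smooth (h1 i)).continuousAt.continuousWithinAt
  have hQ0 : Q (F (0, 0)) = 0 := by
    rw [hF0]
    simp only [hQdef]
    refine Finset.sum_eq_zero fun i _ => ?_
    rw [e.left_inv hp, hsp i a hpa]; simp
  have hFO : ∀ x : Cm c, nsq x ≤ r → F (0, x) ∈ O := fun x hx => hO x hx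
  -- lower bound on the annulus
  obtain ⟨m₀, hm₀, hm₀'⟩ : ∃ m₀ : ℝ, 0 < m₀ ∧
      ∀ x : Cm c, r / 4 ≤ nsq x → nsq x ≤ r → m₀ < Q (F (0, x)) := by
    have hA : IsCompact ({x : Cm c | nsq x ≤ r} ∩ {x | r / 4 ≤ nsq x}) :=
      (isCompact_nsq_le r).inter_right (isClosed_le continuous_const nsq_continuous)
    have hcont : ContinuousOn (fun x : Cm c => Q (F (0, x)))
        ({x : Cm c | nsq x ≤ r} ∩ {x | r / 4 ≤ nsq x}) :=
      hQc.comp (hFc.comp (by fun_prop)).continuousOn fun x hx => hFO x hx.1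
    obtain ⟨a', h1, h2⟩ := hA.exists_forall_le' hcont (a := 0) (fun x hx => by
      obtain ⟨i, hi⟩ := hnz x hx.2 hx.1
      have h3 : 0 < ‖s i a (e.symm (F (0, x)))‖ ^ 2 := by
        have := norm_pos_iff.2 hi
        exact pow_pos this 2
      exact h3.trans_le (Finset.single_le_sum
        (f := fun i => ‖s i a (e.symm (F (0, x)))‖ ^ 2) (fun i _ => sq_nonneg _)
          (Finset.mem_univ i)))
    exact ⟨a' / 2, half_pos h1, fun x h3 h4 => (half_lt_self h1).trans_le (h2 x ⟨h4, h3⟩)⟩
  set b : ℝ := r + 2 - 1 / (m : ℝ) * Real.log m₀ with hb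
  set k₀ : ℝ := Real.exp (-(m * (b + 2))) / 2 with hk₀
  have hk₀p : 0 < k₀ := by positivity
  obtain ⟨ρ, hρ, s₀, hs₀, hs₀r, htube⟩ := exists_tube hFc hOo hQc hr hFO hm₀'
    (by rw [hQ0]; exact hk₀p)
  set K : Set (Cm N) := F '' (Metric.closedBall 0 ρ ×ˢ {x | nsq x ≤ r}) with hK
  have hKc : IsCompact K := ((isCompact_closedBall 0 ρ).prod (isCompact_nsq_le r)).image hFc
  have hKO : K ⊆ O := by
    rintro _ ⟨⟨y, x⟩, ⟨hy, hx⟩, rfl⟩
    exact (htube y (mem_closedBall_zero_iff.1 hy)).1 x hx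
  have hKt : K ⊆ e.target := fun z hz => (hKO hz).1
  have hwc : ContinuousOn (w e) K := by
    intro z hz
    refine ContinuousAt.continuousWithinAt ?_
    refine continuousAt_pi.2 fun i => continuousAt_pi.2 fun j => ?_
    have := hw.smooth e (e.symm z) (At.of_target he (hKt hz)) i j
    rw [e.right_inv (hKt hz)] at this
    exact this.continuousAt
  have hwp : ∀ z ∈ e.target, (w e z).PosDef := by
    intro z hz
    have := hw.posDef e (e.symm z) (At.of_target he hz)
    rwa [e.right_inv hz] at this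
  obtain ⟨s₁, hs₁, hs₁'⟩ := pull_lower (JF_injective Φ) hKc hwc fun z hz => hwp z (hKt hz)
  obtain ⟨k₂, hk₂, hk₂'⟩ := det_pull hdc (JF Φ)
  obtain ⟨k₃, hk₃, hk₃'⟩ := exists_scale Φ
  set v₀ : ℝ := volume.real {x : Cm c | nsq x < s₀} with hv₀
  have hv₀p : 0 < v₀ := by
    refine ENNReal.toReal_pos ?_ ?_
    · exact ((isOpen_nsq_lt s₀).measure_pos volume ⟨0, by
        show nsq (0 : Cm c) < s₀
        rw [nsq_zero]; exact hs₀⟩).ne'
    · refine ne_top_of_le_ne_top (isCompact_nsq_le (c := c) s₀).measure_lt_top.ne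
        (measure_mono fun x hx => le_of_lt (show nsq x < s₀ from hx))
  set V : ℝ := volume.real (Metric.closedBall (0 : Cm d) ρ) with hV
  have hVp : 0 < V := by
    refine ENNReal.toReal_pos ?_ (isCompact_closedBall (0 : Cm d) ρ).measure_lt_top.ne
    exact (Metric.measure_closedBall_pos volume _ hρ).ne'
  refine ⟨k₃ * (V * (s₁ ^ d * v₀)), k₂, by positivity, hk₂, fun δ t hδ ht h hh hpos => ?_⟩
  -- the metric
  have hcont : ContinuousOn (fun z => (m : ℝ) * h a (e.symm z)) K := by
    intro z hz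
    have hx : At e (e.symm z) := At.of_target he (hKt hz)
    have := hh.smooth a (e.symm z) (hKO hz).2 e hx
    rw [e.right_inv (hKt hz)] at this
    exact (continuousAt_const.mul this.continuousAt).continuousWithinAt
  obtain ⟨B, hB⟩ := hKc.exists_bound_of_continuousOn hcont
  set ε : ℝ := k₀ * Real.exp (-B) with hε
  have hεp : 0 < ε := mul_pos hk₀p (Real.exp_pos _)
  have hεb : ∀ z ∈ K, ε * Real.exp (m * h a (e.symm z)) ≤ k₀ := by
    intro z hz
    have h1 := hB z hz
    rw [Real.norm_eq_abs] at h1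
    have h2 := (le_abs_self _).trans h1
    rw [hε, mul_assoc, ← Real.exp_add]
    have h3 : Real.exp (-B + m * h a (e.symm z)) ≤ 1 := by
      rw [Real.exp_le_one_iff]; linarith
    exact mul_le_of_le_one_right hk₀p.le h3
  have hHm := secMetric_isMetric hm hs hεp hh
  have hHp : ∀ e x, At e x →
      (L.curv (secMetric m s ε h) e (e x) + (δ : ℂ) • w e (e x)).PosSemidef := fun e x hx =>
    secMetric_psd hδ (fun e x hx => (hw.posDef e x hx).posSemidef) hm hs hεp hh hpos hx
  refine ⟨secMetric m s ε h, hHm, ?_⟩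
  set H := secMetric m s ε h with hH
  -- each slice
  have hslice : ∀ y : Cm d, ‖y‖ ≤ ρ → v₀ ≤ ∫ x in {x : Cm c | nsq x < r},
      (pull (JM (cols (sl Φ))) (L.curv H e (F (y, x)) + (δ : ℂ) • w e (F (y, x)))).det.re := by
    intro y hy
    obtain ⟨t1, t2, t3⟩ := htube y hy
    have hsl : ∀ x : Cm c, (e p + Φ (y, 0)) + sl Φ x = F (y, x) := fun x => sl_add Φ (e p) y x
    have h1 := slice_mass (a₀ := e p + Φ (y, 0)) (ℓ := sl Φ) (a := a) (r := r) (s := s₀) (b := b)
      hw he hHm hδ hHp hr hs₀r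
      (fun x hx => by rw [hsl]; exact t1 x hx)
      (fun x hx hx' => by
        rw [hsl]
        have h2 := lt_secMetric hm hεp hm₀ (h := h) (t2 x hx hx')
        have h3 : nsq x - b + 1 ≤ 1 / (m : ℝ) * Real.log m₀ := by rw [hb]; linarith
        exact h3.trans_lt h2)
      (fun x hx => by
        rw [hsl]
        have hxr : nsq x ≤ r := hx.le.trans hs₀r
        have h2 := secMetric_lt hm hεp hk₀ (h := h) (t3 x hx)
          (hεb (F (y, x)) ⟨(y, x), ⟨mem_closedBall_zero_iff.2 hy, hxr⟩, rfl⟩)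
        have h3 := nsq_nonneg x
        linarith)
    simp only [hsl] at h1
    exact h1
  -- the density
  have hT : IsClosedForm fun e z => L.curv H e z + ((δ + t : ℝ) : ℂ) • w e z :=
    (IsMetric.isClosedForm hHm).add ((INT.IsKahler.isClosedForm hw).smul _)
  have hT' : IsClosedForm fun e z => L.curv H e z + (δ : ℂ) • w e z :=
    (IsMetric.isClosedForm hHm).add ((INT.IsKahler.isClosedForm hw).smul _)
  set D : Chart N X → Cm N → ℝ := fun e z =>
    (L.curv H e z + ((δ + t : ℝ) : ℂ) • w e z).det.re with hD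
  have hDd : IsDensity D := INT.isDensity_det hT.form hT.smooth
  have hDt : ∀ e z, L.curv H e z + ((δ + t : ℝ) : ℂ) • w e z =
      (L.curv H e z + (δ : ℂ) • w e z) + (t : ℂ) • w e z := by
    intro e z
    rw [Complex.ofReal_add, add_smul, add_assoc]
  have hD0 : ∀ e x, At e x → 0 ≤ D e (e x) := by
    intro e x hx
    have h1 : (L.curv H e (e x) + ((δ + t : ℝ) : ℂ) • w e (e x)).PosSemidef := by
      rw [hDt]
      exact (hHp e x hx).add ((hw.posDef e x hx).posSemidef.smul (by exact_mod_cast ht.le))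
    exact (Complex.le_def.1 h1.det_nonneg).1
  have hDc : ContinuousOn (D e) e.target := hDd.continuousOn he
  set R : Set (Cm N) := F '' (Metric.closedBall 0 ρ ×ˢ {x | nsq x < r}) with hR
  have hRK : R ⊆ K := image_mono (prod_mono subset_rfl fun x hx => le_of_lt
    (show nsq x < r from hx))
  have hRm : MeasurableSet R := by
    have hemb : MeasurableEmbedding F := by
      have : F = (Homeomorph.addLeft (e p)) ∘ Φ.toHomeomorph := rfl
      rw [this]
      exact (Homeomorph.addLeft (e p)).measurableEmbedding.comp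
        Φ.toHomeomorph.measurableEmbedding
    exact hemb.measurableSet_image.2
      (Metric.isClosed_closedBall.measurableSet.prod (isOpen_nsq_lt r).measurableSet)
  have h1 := region_le hDd hD0 he hKc hKt hRm hRK
  -- integrate
  have h2 : k₃ * (V * ((t * s₁) ^ d * v₀)) ≤ ∫ z in R, k₂ * D e z := by
    refine integrate_slices Φ hk₃' hk₃.le (a := e p) (f := fun z => k₂ * D e z) (r := r) (ρ := ρ)
      ?_ fun y hy => ?_
    · exact (continuousOn_const.mul hDc).mono hKt
    · have hsub : ∀ x : Cm c, nsq x ≤ r → F (y, x) ∈ K := fun x hx =>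
        ⟨(y, x), ⟨mem_closedBall_zero_iff.2 hy, hx⟩, rfl⟩
      have hyc : Continuous fun x : Cm c => F (y, x) := hFc.comp (by fun_prop)
      have hss : {x : Cm c | nsq x < r} ⊆ {x : Cm c | nsq x ≤ r} := fun x hx =>
        le_of_lt (show nsq x < r from hx)
      have h3 : (t * s₁) ^ d * v₀ ≤ (t * s₁) ^ d * ∫ x in {x : Cm c | nsq x < r},
          (pull (JM (cols (sl Φ))) (L.curv H e (F (y, x)) +
            (δ : ℂ) • w e (F (y, x)))).det.re :=
        mul_le_mul_of_nonneg_left (hslice y hy) (by positivity)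
      refine h3.trans ?_
      rw [← integral_const_mul]
      refine setIntegral_mono_on ?_ ?_ (isOpen_nsq_lt r).measurableSet fun x hx => ?_
      · refine (ContinuousOn.integrableOn_compact (isCompact_nsq_le r) ?_).mono_set hss
        refine continuousOn_const.mul ?_
        intro x hx
        have hz := hKt (hsub x hx)
        have hsm : ∀ i j, ContDiffAt ℝ ∞
            (fun z => (L.curv H e z + (δ : ℂ) • w e z) i j) (e p + Φ (y, 0) + sl Φ x) := by
          intro i j
          rw [sl_add]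
          have := hT'.smooth e (e.symm (F (y, x))) (At.of_target he hz) i j
          rwa [e.right_inv hz] at this
        have h4 := (contDiffAt_det (m := ∞) fun i j => pull_contDiffAt
          (J := JM (cols (sl Φ))) (T := fun z => L.curv H e z + (δ : ℂ) • w e z)
          hsm i j).continuousAt
        simp only [sl_add] at h4
        exact (Complex.continuous_re.continuousAt.comp h4).continuousWithinAt
      · refine (ContinuousOn.integrableOn_compact (isCompact_nsq_le r) ?_).mono_set hss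
        exact continuousOn_const.mul (hDc.comp hyc.continuousOn fun x hx => hKt (hsub x hx))
      · have hxr : nsq x ≤ r := hss hx
        have hz := hKt (hsub x hxr)
        have hTp : (L.curv H e (F (y, x)) + (δ : ℂ) • w e (F (y, x))).PosSemidef := by
          have := hHp e (e.symm (F (y, x))) (At.of_target he hz)
          rwa [e.right_inv hz] at this
        have h5 := det_slice_le Φ hk₂' hTp hs₁ ht (hs₁' _ (hsub x hxr))
        rw [← hDt] at h5
        exact h5
  rw [integral_const_mul] at h2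
  have h6 : k₃ * (V * (s₁ ^ d * v₀)) * t ^ d = k₃ * (V * ((t * s₁) ^ d * v₀)) := by
    rw [mul_pow]; ring
  rw [h6]
  exact h2.trans (mul_le_mul_of_nonneg_left h1 hk₂)

end Vale.Agent.P301
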