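import Vale.Agent.P272.K.Stmt

/-!
# P301: line bundles and holomorphic symplectic forms on a compact complex manifold

Everything is expressed in the charts of a complex manifold `X` modelled on `ℂᴺ = Fin N → ℂ`.
-/

open scoped Manifold ContDiff ComplexOrder
open MeasureTheory

noncomputable section

namespace Vale.Agent.P301

open Vale.Agent.P272.K (Cm dz dzb cHess Chart jacM At IsHermitian IsKahler IsIntegral)

section
variable (N : ℕ) {X : Type} [TopologicalSpace X] [ChartedSpace (Cm N) X]

/-- `f` is holomorphic near `x`: analytic in the charts of `X` around `x`. -/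
def HolAt (f : X → ℂ) (x : X) : Prop :=
  ∀ e : Chart N X, At e x → ContDiffAt ℂ ω (fun z => f (e.symm z)) (e x)

/-- `f` is smooth near `x`. -/
def SmoothAt (f : X → ℝ) (x : X) : Prop :=
  ∀ e : Chart N X, At e x → ContDiffAt ℝ ∞ (fun z => f (e.symm z)) (e x)

variable (X) in
/-- A holomorphic line bundle on `X`, trivialised over the members `U a` of an open cover, with
transition functions `g a b`, holomorphic without zeros on `U a ∩ U b`. -/
structure LineBundle where
  ι : Type
  U : ι → Set X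
  isOpen : ∀ a, IsOpen (U a)
  cover : ∀ x, ∃ a, x ∈ U a
  g : ι → ι → X → ℂ
  holo : ∀ a b x, x ∈ U a → x ∈ U b → HolAt N (g a b) x
  ne_zero : ∀ a b x, x ∈ U a → x ∈ U b → g a b x ≠ 0
  cocycle : ∀ a b c x, x ∈ U a → x ∈ U b → x ∈ U c → g a b x * g b c x = g a c x

variable {N}

/-- `s` is a global holomorphic section of `L^m`: in the trivialisation over `U a` it is the
holomorphic function `s a`. -/
structure LineBundle.IsSection (L : LineBundle N X) (m : ℕ) (s : L.ι → X → ℂ) : Prop where
  holo : ∀ a x, x ∈ L.U a → HolAt N (s a) x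
  change : ∀ a b x, x ∈ L.U a → x ∈ L.U b → s a x = L.g a b x ^ m * s b x

/-- the section `s` vanishes at `x` -/
def LineBundle.Zero (L : LineBundle N X) (s : L.ι → X → ℂ) (x : X) : Prop :=
  ∀ a, x ∈ L.U a → s a x = 0

/-- `h` is a smooth Hermitian metric on `L`, given by its weights: the section `s` has square length
`‖s a‖² exp (-h a)` on `U a`. -/
structure LineBundle.IsMetric (L : LineBundle N X) (h : L.ι → X → ℝ) : Prop where
  smooth : ∀ a x, x ∈ L.U a → SmoothAt N (h a) x
  change : ∀ a b x, x ∈ L.U a → x ∈ L.U b → h a x = h b x + Real.log (‖L.g a b x‖ ^ 2)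

/-- a trivialisation around `x` -/
def LineBundle.idx (L : LineBundle N X) (x : X) : L.ι := Classical.choose (L.cover x)

/-- The curvature form `i∂∂̄h` of the metric with weights `h`, a representative of `2π c₁(L)`. -/
def LineBundle.curv (L : LineBundle N X) (h : L.ι → X → ℝ) (e : Chart N X) (z : Cm N) :
    Matrix (Fin N) (Fin N) ℂ :=
  cHess (fun y => h (L.idx (e.symm z)) (e.symm y)) z

/-- `L` is nef, with respect to the Kähler metric `w`: for every `ε > 0` there is a smooth metric on
`L` with curvature `≥ -ε w`. -/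
def LineBundle.IsNef (L : LineBundle N X) (w : Chart N X → Cm N → Matrix (Fin N) (Fin N) ℂ) :
    Prop :=
  ∀ ε : ℝ, 0 < ε → ∃ h : L.ι → X → ℝ, L.IsMetric h ∧
    ∀ e x, At e x → (L.curv h e (e x) + (ε : ℂ) • w e (e x)).PosSemidef

/-- `L` is semiample: some `L^m`, `m ≥ 1`, is generated by its global holomorphic sections. -/
def LineBundle.IsSemiample (L : LineBundle N X) : Prop :=
  ∃ m : ℕ, 1 ≤ m ∧ ∀ x : X, ∃ s : L.ι → X → ℂ, L.IsSection m s ∧ ¬ L.Zero s x

/-- the base locus of `|L^m|` -/
def LineBundle.bs (L : LineBundle N X) (m : ℕ) : Set X :=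
  {x | ∀ s : L.ι → X → ℂ, L.IsSection m s → L.Zero s x}

/-- `σ` is a closed holomorphic 2-form on `X` which is nondegenerate at every point; in the chart
`e` it is `(1/2) Σ σ_{jk} dz_j ∧ dz_k` with skew-symmetric coefficient matrix `σ e`. -/
structure IsSymplectic (σ : Chart N X → Cm N → Matrix (Fin N) (Fin N) ℂ) : Prop where
  holo : ∀ e x, At e x → ∀ j k, ContDiffAt ℂ ω (fun z => σ e z j k) (e x)
  skew : ∀ e x, At e x → (σ e (e x)).transpose = -σ e (e x)
  nondeg : ∀ e x, At e x → (σ e (e x)).det ≠ 0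
  closed : ∀ e x, At e x → ∀ i j k, dz i (fun z => σ e z j k) (e x) +
    dz j (fun z => σ e z k i) (e x) + dz k (fun z => σ e z i j) (e x) = 0
  change : ∀ e e' x, At e x → At e' x →
    σ e (e x) = (jacM e e' x).transpose * σ e' (e' x) * jacM e e' x

/-- For `σ` with matrix `A` at a point and the real `(1,1)`-forms `α = i Σ H_{jk} dz_j ∧ dz̄_k`,
`β = i Σ K_{jk} dz_j ∧ dz̄_k`, this is, up to a positive factor depending only on the dimension
`N = 2n`, the density of `α ∧ β ∧ (σ ∧ σ̄)^(n-1)`; here `‖det A‖` is, up to such a factor, the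
density of `(σ ∧ σ̄)^n`. -/
def bb (A H K : Matrix (Fin N) (Fin N) ℂ) : ℝ :=
  ‖A.det‖ * (∑ j, ∑ k, ∑ l, ∑ m,
    A⁻¹ j l * (starRingEnd ℂ) (A⁻¹ k m) * H j k * K l m).re

/-- `L` is isotropic: `q(c₁(L)) = 0` for the Beauville-Bogomolov-Fujiki form, which on real classes
`α` of type `(1,1)` is a positive multiple of `∫ α ∧ α ∧ (σ ∧ σ̄)^(n-1)`. -/
def LineBundle.IsIsotropic (L : LineBundle N X)
    (σ : Chart N X → Cm N → Matrix (Fin N) (Fin N) ℂ) : Prop :=
  ∃ h : L.ι → X → ℝ, L.IsMetric h ∧
    IsIntegral (fun e z => bb (σ e z) (L.curv h e z) (L.curv h e z)) 0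

/-- The Poisson bracket `{f, g}`, with respect to the symplectic form `σ`, at the point `x` in the
chart `e`. -/
def bracket (σ : Chart N X → Cm N → Matrix (Fin N) (Fin N) ℂ) (e : Chart N X) (f g : X → ℂ)
    (x : X) : ℂ :=
  ∑ j, ∑ k, (σ e (e x))⁻¹ j k * dz j (fun z => f (e.symm z)) (e x) *
    dz k (fun z => g (e.symm z)) (e x)

end

end Vale.Agent.P301
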