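import Vale.Agent.P301.Lower
import Vale.Agent.P272.K.AMP.ABP.Mat
import Vale.Agent.P272.K.AMP.H470.Glob
import Vale.Agent.P272.K.AMP.LEX.Local
import Vale.Agent.P272.K.Asm.Final

/-! The inequality `∫ det χ ≤ C (∫ bb (χ, χ))^n` for Kähler forms `χ`. -/

open scoped Manifold ContDiff ComplexOrder Topology Matrix
open MeasureTheory Set Filter

set_option linter.all false

noncomputable section

namespace Vale.Agent.P301

open Vale.Agent.P272.K
open Vale.Agent.P272.K.INT (IsDensity intX intX_congr intX_of_support IsClosedForm)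

variable {N : ℕ}

/-- the arithmetic-geometric inequality for `bb` -/
lemma amgm_bb [NeZero N] {A T : Matrix (Fin N) (Fin N) ℂ} (h0 : A.det ≠ 0) (hT : T.PosDef) :
    (N : ℝ) * (‖A.det‖ * (T.det.re ^ 2 / ‖A.det‖ ^ 2) ^ ((1 : ℝ) / N)) ≤ bb A T T := by
  have hu : IsUnit A.det := isUnit_iff_ne_zero.2 h0
  have hPu : IsUnit (A⁻¹)ᵀ := by
    rw [Matrix.isUnit_iff_isUnit_det, Matrix.det_transpose]
    exact Matrix.isUnit_nonsing_inv_det _ hu
  set K : Matrix (Fin N) (Fin N) ℂ := (A⁻¹)ᵀ * T * ((A⁻¹)ᵀ)ᴴ with hK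
  have hKp : K.PosDef := by
    have := (Matrix.IsUnit.posDef_star_right_conjugate_iff (x := T) hPu).2 hT
    simpa [Matrix.star_eq_conjTranspose] using this
  have h1 := AMP.ABP.amgm_trace_inv hKp.inv hT.transpose
  have hKK : (K⁻¹)⁻¹ = K := Matrix.nonsing_inv_nonsing_inv _ (isUnit_iff_ne_zero.2 hKp.det_pos.ne')
  rw [hKK, Matrix.det_transpose, Fintype.card_fin] at h1
  have hdT : ((T.det.re : ℝ) : ℂ) = T.det := C2.det_re_eq hT
  have hTp : 0 < T.det.re := C2.det_re_pos hT
  have hdK : (K⁻¹).det.re = ‖A.det‖ ^ 2 / T.det.re := by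
    have e1 : K.det = ((T.det.re / ‖A.det‖ ^ 2 : ℝ) : ℂ) := by
      rw [hK, Matrix.det_mul, Matrix.det_mul, Matrix.det_conjTranspose, Matrix.det_transpose,
        Matrix.det_nonsing_inv, Ring.inverse_eq_inv']
      have e2 : (A.det)⁻¹ * star (A.det)⁻¹ = ((1 / ‖A.det‖ ^ 2 : ℝ) : ℂ) := by
        rw [RCLike.star_def, Complex.mul_conj, Complex.normSq_eq_norm_sq, norm_inv, inv_pow,
          one_div]
      calc (A.det)⁻¹ * T.det * star (A.det)⁻¹ =
            T.det * ((A.det)⁻¹ * star (A.det)⁻¹) := by ring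
        _ = ((T.det.re : ℝ) : ℂ) * ((1 / ‖A.det‖ ^ 2 : ℝ) : ℂ) := by rw [e2, hdT]
        _ = _ := by rw [← Complex.ofReal_mul]; congr 1; ring
    rw [Matrix.det_nonsing_inv, Ring.inverse_eq_inv', e1, ← Complex.ofReal_inv, Complex.ofReal_re,
      inv_div]
  have h2 : bb A T T = ‖A.det‖ * (K * Tᵀ).trace.re := by
    rw [bb_eq, map_conj_eq]
  have hA : 0 < ‖A.det‖ := norm_pos_iff.2 h0
  have h3 : T.det.re / (K⁻¹).det.re = T.det.re ^ 2 / ‖A.det‖ ^ 2 := by
    rw [hdK]; field_simp
  rw [h3] at h1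
  rw [h2]
  nlinarith [mul_le_mul_of_nonneg_left h1 hA.le]

variable {X : Type} [TopologicalSpace X] [ChartedSpace (Cm N) X] [IsManifold 𝓘(ℂ, Cm N) ω X]
  {σ w χ : Chart N X → Cm N → Matrix (Fin N) (Fin N) ℂ}

/-- the symplectic volume density -/
lemma isDensity_vol (hσ : IsSymplectic σ) : IsDensity fun e z => ‖(σ e z).det‖ where
  cont e x hx := (hσ.loc hx).det_smooth.continuousAt.norm
  change e e' x h h' := by
    show ‖(σ e (e x)).det‖ = ‖(σ e' (e' x)).det‖ * ‖(jacM e e' x).det‖ ^ 2
    rw [hσ.change e e' x h h', Matrix.det_mul, Matrix.det_mul, Matrix.det_transpose, norm_mul,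
      norm_mul]
    ring

omit [IsManifold 𝓘(ℂ, Cm N) ω X] in
lemma isKahler_smul {c : ℝ} (hc : 0 < c) (hχ : IsKahler χ) :
    IsKahler fun e z => (c : ℂ) • χ e z where
  smooth e x hx i j := contDiffAt_const.mul (hχ.smooth e x hx i j)
  posDef e x hx := (hχ.posDef e x hx).smul (by exact_mod_cast hc)
  change e e' x h h' := by
    show (c : ℂ) • χ e (e x) = _
    rw [hχ.change e e' x h h', Matrix.mul_smul, Matrix.smul_mul]
  closed e x hx i j k := by
    have f1 := (hχ.smooth e x hx i j).differentiableAt (by simp)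
    have f2 := (hχ.smooth e x hx k j).differentiableAt (by simp)
    change dz k (fun z => (c : ℂ) * χ e z i j) (e x) = dz i (fun z => (c : ℂ) * χ e z k j) (e x)
    rw [dz_const_mul _ f1, dz_const_mul _ f2, hχ.closed e x hx i j k]

variable [T2Space X] [CompactSpace X]

/-- a modified Aubin-Yau theorem: a representative of the class with prescribed volume -/
theorem exists_rep (hσ : IsSymplectic σ) (hχ : IsKahler χ) {ε : ℝ} (hε : 0 < ε) :
    ∃ v : X → ℝ, SmoothFn (n := N) v ∧
      (∀ e x, At e x → (χ e (e x) + cHess (fun y => v (e.symm y)) (e x)).PosDef) ∧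
      ∀ e x, At e x → (χ e (e x) + cHess (fun y => v (e.symm y)) (e x)).det.re =
        ‖(σ e (e x)).det‖ * Real.exp (ε * v x) := by
  set F : X → ℝ := AMP.atX (fun (e : Chart N X) z => Real.log ‖(σ e z).det‖ -
    Real.log (χ e z).det.re) with hF
  have hchg : ∀ e e' x, At e x → At e' x →
      Real.log ‖(σ e (e x)).det‖ - Real.log (χ e (e x)).det.re =
      Real.log ‖(σ e' (e' x)).det‖ - Real.log (χ e' (e' x)).det.re := by
    intro e e' x h h'
    have h1 := (isDensity_vol hσ).change e e' x h h'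
    have h2 := (INT.isDensity_det hχ.change hχ.smooth).change e e' x h h'
    rw [h1, h2]
    have p1 : 0 < ‖(σ e' (e' x)).det‖ := norm_pos_iff.2 (hσ.nondeg e' x h')
    have p2 : 0 < (χ e' (e' x)).det.re := C2.det_re_pos (hχ.posDef e' x h')
    have p3 : 0 < ‖(jacM e e' x).det‖ ^ 2 := by
      have := norm_pos_iff.2 (jacM_det_ne_zero h h')
      positivity
    rw [Real.log_mul p1.ne' p3.ne', Real.log_mul p2.ne' p3.ne']
    ring
  have hFs : SmoothFn (n := N) F := by
    refine AMP.smoothFn_atX (fun e x hx => ?_) hchg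
    have h1 : ContDiffAt ℝ ∞ (fun z => ‖(σ e z).det‖) (e x) :=
      (hσ.loc hx).det_smooth.norm ℝ (hσ.nondeg e x hx)
    have h2 : ContDiffAt ℝ ∞ (fun z => (χ e z).det.re) (e x) :=
      Complex.reCLM.contDiff.contDiffAt.comp (e x) (contDiffAt_det (hχ.smooth e x hx))
    exact (h1.log (norm_ne_zero_iff.2 (hσ.nondeg e x hx))).sub
      (h2.log (C2.det_re_pos (hχ.posDef e x hx)).ne')
  have hFx : ∀ e x, At e x → F x = Real.log ‖(σ e (e x)).det‖ - Real.log (χ e (e x)).det.re :=
    fun e x hx => hchg _ _ x (AMP.at_chartAt x) hx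
  obtain ⟨u, hu, hup, hueq⟩ := aubinYau N X _ (isKahler_smul hε hχ) F hFs
  have hH : ∀ e x, At e x → χ e (e x) + cHess (fun y => ε⁻¹ * u (e.symm y)) (e x) =
      ((ε⁻¹ : ℝ) : ℂ) • addH (fun e z => (ε : ℂ) • χ e z) u e (e x) := by
    intro e x hx
    have h1 : ContDiffAt ℝ 2 (fun y => u (e.symm y)) (e x) := (hu e x hx).of_le (by norm_cast)
    rw [cHess_const_mul _ h1]
    unfold addH
    rw [smul_add, smul_smul, ← Complex.ofReal_mul, inv_mul_cancel₀ hε.ne', Complex.ofReal_one,
      one_smul]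
  refine ⟨fun x => ε⁻¹ * u x, fun e x hx => contDiffAt_const.mul (hu e x hx), ?_, ?_⟩
  · intro e x hx
    rw [hH e x hx]
    exact (hup e x hx).smul (by exact_mod_cast inv_pos.2 hε)
  · intro e x hx
    rw [hH e x hx]
    have h1 := hueq e x hx
    set M := addH (fun e z => (ε : ℂ) • χ e z) u e (e x) with hM
    have hMp : 0 < M.det.re := C2.det_re_pos (hup e x hx)
    have hχp : 0 < (χ e (e x)).det.re := C2.det_re_pos (hχ.posDef e x hx)
    have hσp : 0 < ‖(σ e (e x)).det‖ := norm_pos_iff.2 (hσ.nondeg e x hx)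
    have h2 : ((ε : ℂ) • χ e (e x)).det.re = ε ^ N * (χ e (e x)).det.re := by
      rw [Matrix.det_smul, Fintype.card_fin, ← Complex.ofReal_pow, Complex.re_ofReal_mul]
    have h3 : (((ε⁻¹ : ℝ) : ℂ) • M).det.re = (ε⁻¹) ^ N * M.det.re := by
      rw [Matrix.det_smul, Fintype.card_fin, ← Complex.ofReal_pow, Complex.re_ofReal_mul]
    rw [h2, hFx e x hx, Real.log_mul (pow_pos hε N).ne' hχp.ne'] at h1
    have h4 : Real.log M.det.re = Real.log (ε ^ N * (‖(σ e (e x)).det‖ * Real.exp (u x))) := by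
      rw [Real.log_mul (pow_pos hε N).ne' (mul_pos hσp (Real.exp_pos _)).ne',
        Real.log_mul hσp.ne' (Real.exp_pos _).ne', Real.log_exp]
      linarith
    have h5 : M.det.re = ε ^ N * (‖(σ e (e x)).det‖ * Real.exp (u x)) :=
      Real.log_injOn_pos (mem_Ioi.2 hMp) (mem_Ioi.2 (by positivity)) h4
    rw [h3, h5, ← mul_assoc, ← mul_pow, inv_mul_cancel₀ hε.ne', one_pow, one_mul, ← mul_assoc ε,
      mul_inv_cancel₀ hε.ne', one_mul]

/-- `∫ bb` of another representative of the class -/
lemma intX_bb_rep (hσ : IsSymplectic σ) (hχ : IsClosedForm χ) {v : X → ℝ}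
    (hv : SmoothFn (n := N) v) :
    intX (fun e z => bb (σ e z) (χ e z + cHess (fun y => v (e.symm y)) z)
      (χ e z + cHess (fun y => v (e.symm y)) z)) = intX (fun e z => bb (σ e z) (χ e z) (χ e z)) := by
  have hc := INT.isClosedForm_cHess hv
  have d1 := IsClosedForm.isDensity_bb hσ hχ hχ
  have d2 := IsClosedForm.isDensity_bb hσ hχ hc
  have d3 := IsClosedForm.isDensity_bb hσ hc hc
  have e1 : intX (fun e z => bb (σ e z) (χ e z + cHess (fun y => v (e.symm y)) z)
      (χ e z + cHess (fun y => v (e.symm y)) z)) = intX (fun e z => bb (σ e z) (χ e z) (χ e z) +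
        (2 * bb (σ e z) (χ e z) (cHess (fun y => v (e.symm y)) z) +
          bb (σ e z) (cHess (fun y => v (e.symm y)) z) (cHess (fun y => v (e.symm y)) z))) := by
    refine intX_congr fun e x hx => ?_
    rw [bb_add_left, bb_add_right, bb_add_right, bb_comm (hσ.skew e x hx) (hσ.nondeg e x hx)
      (cHess (fun y => v (e.symm y)) (e x)) (χ e (e x))]
    ring
  rw [e1, INT.intX_add d1 ((d2.const_mul _).add d3), INT.intX_add (d2.const_mul _) d3,
    INT.intX_const_mul, intX_bb_cHess hσ hχ hv, intX_bb_cHess hσ hc hv]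
  ring

/-- a density is dominated by the volume form of a Kähler metric -/
lemma exists_dominate {D : Chart N X → Cm N → ℝ} (hD : IsDensity D) (hχ : IsHermitian χ) :
    ∃ C : ℝ, 0 ≤ C ∧ ∀ e x, At e x → D e (e x) ≤ C * (χ e (e x)).det.re := by
  have hdet := INT.isDensity_det hχ.change hχ.smooth
  set R : X → ℝ := AMP.atX (fun (e : Chart N X) z => D e z / (χ e z).det.re) with hR
  have hchg : ∀ e e' x, At e x → At e' x →
      D e (e x) / (χ e (e x)).det.re = D e' (e' x) / (χ e' (e' x)).det.re := by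
    intro e e' x h h'
    have h1 := hD.change e e' x h h'
    have h2 := hdet.change e e' x h h'
    rw [h1, h2]
    have p3 : ‖(jacM e e' x).det‖ ^ 2 ≠ 0 := by
      have := norm_pos_iff.2 (jacM_det_ne_zero h h')
      positivity
    rw [mul_div_mul_right _ _ p3]
  have hRx : ∀ e x, At e x → R x = D e (e x) / (χ e (e x)).det.re := fun e x hx =>
    hchg _ _ x (AMP.at_chartAt x) hx
  have hRc : Continuous R := by
    rw [continuous_iff_continuousAt]
    intro x
    have hx := AMP.at_chartAt (n := N) x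
    set e := chartAt (Cm N) x with he
    have h1 : ContinuousAt (fun z => D e z / (χ e z).det.re) (e x) :=
      (hD.cont e x hx).div (hdet.cont e x hx) (C2.det_re_pos (hχ.posDef e x hx)).ne'
    have h2 : ContinuousAt (fun y => (fun z => D e z / (χ e z).det.re) (e y)) x :=
      ContinuousAt.comp (f := e) h1 (e.continuousAt hx.2)
    refine h2.congr ?_
    filter_upwards [e.open_source.mem_nhds hx.2] with y hy
    exact (hRx e y ⟨hx.1, hy⟩).symm
  obtain ⟨C, hC⟩ := (isCompact_univ.image hRc).isBounded.bddAbove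
  refine ⟨|C|, abs_nonneg C, fun e x hx => ?_⟩
  have h1 : R x ≤ C := hC ⟨x, mem_univ x, rfl⟩
  rw [hRx e x hx] at h1
  have hp := C2.det_re_pos (hχ.posDef e x hx)
  rw [div_le_iff₀ hp] at h1
  have := le_abs_self C
  nlinarith

/-- **The inequality** `∫ det χ ≤ C (∫ bb (χ, χ))^(N/2)`. -/
theorem fujiki_ineq [PreconnectedSpace X] [Nonempty X] {n : ℕ} (hn : 1 ≤ n) (hN : N = 2 * n)
    (hσ : IsSymplectic σ) :
    ∃ C : ℝ, 0 ≤ C ∧ ∀ χ : Chart N X → Cm N → Matrix (Fin N) (Fin N) ℂ, IsKahler χ →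
      intX (fun e z => (χ e z).det.re) ≤ C * (intX (fun e z => bb (σ e z) (χ e z) (χ e z))) ^ n := by
  have hNn : NeZero N := ⟨by omega⟩
  have hvol := isDensity_vol hσ
  set V : ℝ := intX (fun (e : Chart N X) z => ‖(σ e z).det‖) with hV
  have hVp : 0 < V := INT.intX_pos hvol fun e x hx => norm_pos_iff.2 (hσ.nondeg e x hx)
  have hNp : (0 : ℝ) < N := by exact_mod_cast Nat.pos_of_ne_zero hNn.out
  have hnp : (0 : ℝ) < n := by exact_mod_cast hn
  refine ⟨V * (2 / (N * V)) ^ n, by positivity, fun χ hχ => ?_⟩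
  set I := intX (fun (e : Chart N X) z => (χ e z).det.re) with hI
  set D := intX (fun (e : Chart N X) z => bb (σ e z) (χ e z) (χ e z)) with hD
  have hχc : IsClosedForm χ := INT.IsKahler.isClosedForm hχ
  have hIp : 0 < I := INT.intX_pos hχc.isDensity fun e x hx => C2.det_re_pos (hχ.posDef e x hx)
  -- exponential integrability
  obtain ⟨α, hα, K, hK⟩ := AMP.expInt (X := X) (LEX.localExp N) χ hχ.toIsHermitian 1 0
  obtain ⟨CR, hCR, hRle⟩ := exists_dominate hvol hχ.toIsHermitian
  set K' : ℝ := |CR * K / α| + 1 with hK'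
  have hK'p : 0 < K' := by rw [hK']; positivity
  set ε : ℝ := n * V / (2 * K') with hε
  have hεp : 0 < ε := by rw [hε]; positivity
  obtain ⟨v, hv, hvp, hvd⟩ := exists_rep hσ hχ hεp
  have hvc : Continuous v := AMP.sm_continuous (n := N) hv
  obtain ⟨x₀, -, hx₀⟩ := isCompact_univ.exists_isMaxOn (univ_nonempty (α := X)) hvc.continuousOn
  have hmax : ∀ x, v x ≤ v x₀ := fun x => hx₀ (mem_univ x)
  set M := v x₀ with hM
  -- the integral of `M - v`
  have hΨ : SmoothFn (n := N) (fun x => v x - M) := fun e x hx => (hv e x hx).sub contDiffAt_const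
  have hcH : ∀ (e : Chart N X) x, At e x → cHess (fun y => v (e.symm y) - M) (e x) =
      cHess (fun y => v (e.symm y)) (e x) := by
    intro e x hx
    have h1 : ContDiffAt ℝ 2 (fun y => v (e.symm y)) (e x) := (hv e x hx).of_le (by norm_cast)
    rw [cHess_sub h1 contDiffAt_const]
    have : cHess (fun _ : Cm N => M) (e x) = 0 := AMP.hess_const' (n := N) (X := X) M e (e x)
    rw [this, sub_zero]
  have hKb := hK (fun x => v x - M) hΨ (fun e x hx => by
      show (((1 : ℝ) : ℂ) • χ e (e x) + cHess (fun y => v (e.symm y) - M) (e x)).PosSemidef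
      rw [Complex.ofReal_one, one_smul, hcH e x hx]
      exact (hvp e x hx).posSemidef) (fun x => by linarith [hmax x]) ⟨x₀, by simp [hM]⟩
  have hdM : IsDensity (fun (e : Chart N X) z => (M - v (e.symm z)) * ‖(σ e z).det‖) :=
    hvol.smul (f := fun x => M - v x) (continuous_const.sub hvc)
  have hdE : IsDensity (fun (e : Chart N X) z => Real.exp (-(α * (v (e.symm z) - M))) *
      (χ e z).det.re) := hχc.isDensity.smul (f := fun x => Real.exp (-(α * (v x - M))))
        (Real.continuous_exp.comp (continuous_const.mul (hvc.sub continuous_const)).neg)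
  have hMv : intX (fun (e : Chart N X) z => (M - v (e.symm z)) * ‖(σ e z).det‖) ≤ K' := by
    have h1 : intX (fun (e : Chart N X) z => (M - v (e.symm z)) * ‖(σ e z).det‖) ≤
        intX (fun (e : Chart N X) z => (CR / α) * (Real.exp (-(α * (v (e.symm z) - M))) *
          (χ e z).det.re)) := by
      refine INT.intX_mono hdM (hdE.const_mul _) fun e x hx => ?_
      rw [hx.left_inv]
      have a1 : M - v x ≤ Real.exp (-(α * (v x - M))) / α := by
        rw [le_div_iff₀ hα]
        have := Real.add_one_le_exp (-(α * (v x - M)))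
        linarith
      have a2 := hRle e x hx
      have a3 : 0 ≤ M - v x := by linarith [hmax x]
      have a4 : 0 ≤ ‖(σ e (e x)).det‖ := norm_nonneg _
      have a5 := Real.exp_pos (-(α * (v x - M)))
      calc (M - v x) * ‖(σ e (e x)).det‖ ≤
            (Real.exp (-(α * (v x - M))) / α) * (CR * (χ e (e x)).det.re) := by gcongr
        _ = _ := by ring
    refine h1.trans ?_
    rw [INT.intX_const_mul]
    have h2 : (CR / α) * intX (fun (e : Chart N X) z => Real.exp (-(α * (v (e.symm z) - M))) *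
          (χ e z).det.re) ≤ CR / α * K := mul_le_mul_of_nonneg_left hKb (by positivity)
    have h3 : CR / α * K = CR * K / α := by ring
    rw [h3] at h2
    have h4 := le_abs_self (CR * K / α)
    linarith
  -- the volume
  have hvol1 : I = intX (fun (e : Chart N X) z => Real.exp (ε * v (e.symm z)) * ‖(σ e z).det‖) := by
    rw [hI, ← INT.intX_det_add_cHess hχc hv]
    refine intX_congr fun e x hx => ?_
    rw [hvd e x hx, hx.left_inv]; ring
  have hde : ∀ c : ℝ, IsDensity (fun (e : Chart N X) z => Real.exp (c * v (e.symm z)) *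
      ‖(σ e z).det‖) := fun c => hvol.smul (f := fun x => Real.exp (c * v x))
        (Real.continuous_exp.comp (continuous_const.mul hvc))
  have hIM : I ≤ Real.exp (ε * M) * V := by
    rw [hvol1, hV, ← INT.intX_const_mul]
    refine INT.intX_mono (hde ε) (hvol.const_mul _) fun e x hx => ?_
    rw [hx.left_inv]
    have a1 : Real.exp (ε * v x) ≤ Real.exp (ε * M) :=
      Real.exp_le_exp.2 (mul_le_mul_of_nonneg_left (hmax x) hεp.le)
    exact mul_le_mul_of_nonneg_right a1 (norm_nonneg _)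
  -- the quadratic form
  have hD1 : N * intX (fun (e : Chart N X) z => Real.exp (ε / n * v (e.symm z)) *
      ‖(σ e z).det‖) ≤ D := by
    rw [hD, ← intX_bb_rep hσ hχc hv, ← INT.intX_const_mul]
    have hTc : IsClosedForm (fun (e : Chart N X) z => χ e z + cHess (fun y => v (e.symm y)) z) :=
      hχc.add (INT.isClosedForm_cHess hv)
    refine INT.intX_mono ((hde _).const_mul _) (IsClosedForm.isDensity_bb hσ hTc hTc)
      fun e x hx => ?_
    rw [hx.left_inv]
    have a1 := amgm_bb (hσ.nondeg e x hx) (hvp e x hx)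
    rw [hvd e x hx] at a1
    refine le_trans (le_of_eq ?_) a1
    have p1 : 0 < ‖(σ e (e x)).det‖ := norm_pos_iff.2 (hσ.nondeg e x hx)
    have a2 : (‖(σ e (e x)).det‖ * Real.exp (ε * v x)) ^ 2 / ‖(σ e (e x)).det‖ ^ 2 =
        Real.exp (ε * v x) ^ 2 := by
      rw [mul_pow]; field_simp
    rw [a2, ← Real.exp_nat_mul, ← Real.exp_mul]
    have a3 : ((2 : ℕ) : ℝ) * (ε * v x) * (1 / (N : ℝ)) = ε / n * v x := by
      rw [hN]; push_cast; field_simp
    rw [a3]; ring
  have hlow : Real.exp (ε / n * M) * (V / 2) ≤ intX (fun (e : Chart N X) z =>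
      Real.exp (ε / n * v (e.symm z)) * ‖(σ e z).det‖) := by
    have h1 : intX (fun (e : Chart N X) z => Real.exp (ε / n * M) * (‖(σ e z).det‖ -
        (ε / n) * ((M - v (e.symm z)) * ‖(σ e z).det‖))) ≤ intX (fun (e : Chart N X) z =>
        Real.exp (ε / n * v (e.symm z)) * ‖(σ e z).det‖) := by
      refine INT.intX_mono ((hvol.sub (hdM.const_mul _)).const_mul _) (hde _) fun e x hx => ?_
      rw [hx.left_inv]
      have a1 : Real.exp (ε / n * v x) = Real.exp (ε / n * M) * Real.exp (ε / n * (v x - M)) := by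
        rw [← Real.exp_add]; congr 1; ring
      have a2 := Real.add_one_le_exp (ε / n * (v x - M))
      rw [a1, mul_assoc]
      refine mul_le_mul_of_nonneg_left ?_ (Real.exp_pos _).le
      have a4 : 0 ≤ ‖(σ e (e x)).det‖ := norm_nonneg _
      nlinarith
    rw [INT.intX_const_mul, INT.intX_sub hvol (hdM.const_mul _), INT.intX_const_mul] at h1
    refine le_trans (mul_le_mul_of_nonneg_left ?_ (Real.exp_pos _).le) h1
    have h2 : (ε / n) * intX (fun (e : Chart N X) z => (M - v (e.symm z)) * ‖(σ e z).det‖) ≤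
        (ε / n) * K' := mul_le_mul_of_nonneg_left hMv (by positivity)
    have h3 : (ε / n) * K' = V / 2 := by rw [hε]; field_simp
    linarith
  -- conclusion
  have hDN : N * (Real.exp (ε / n * M) * (V / 2)) ≤ D :=
    (mul_le_mul_of_nonneg_left hlow hNp.le).trans hD1
  have hDp : 0 < D := lt_of_lt_of_le (by positivity) hDN
  have h5 : Real.exp (ε / n * M) ≤ 2 / (N * V) * D := by
    have h7 : 2 / (N * V) * D = 2 * D / (N * V) := by ring
    rw [h7, le_div_iff₀ (by positivity)]
    linarith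
  have h6 : Real.exp (ε * M) = Real.exp (ε / n * M) ^ n := by
    rw [← Real.exp_nat_mul]; congr 1; field_simp
  calc I ≤ Real.exp (ε * M) * V := hIM
    _ = V * Real.exp (ε / n * M) ^ n := by rw [h6]; ring
    _ ≤ V * (2 / (N * V) * D) ^ n := by
        refine mul_le_mul_of_nonneg_left ?_ hVp.le
        exact pow_le_pow_left₀ (Real.exp_pos _).le h5 n
    _ = _ := by rw [mul_pow]; ring

end Vale.Agent.P301
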