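import Vale.Agent.P301.LogSum
import Vale.Agent.P272.K.INT.Local
import Mathlib.Analysis.SpecialFunctions.SmoothTransition
import Mathlib.MeasureTheory.Integral.IntervalIntegral.FundThmCalculus

/-! Gluing of plurisubharmonic functions and comparison of Monge-Ampère masses. -/

open scoped Manifold ContDiff ComplexOrder Topology Matrix
open MeasureTheory Set Filter

set_option linter.all false

noncomputable section

namespace Vale.Agent.P301

open Vale.Agent.P272.K
open Vale.Agent.P272.K.AMP (gm cHess_comp_real)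

/-- a smooth convex function, equal to `t` for `t ≥ 1` and locally constant for `t ≤ -1` -/
theorem exists_glue : ∃ G : ℝ → ℝ, ContDiff ℝ ∞ G ∧ (∀ t, 1 ≤ t → G t = t) ∧
    (∀ t, 0 ≤ deriv G t) ∧ (∀ t, deriv G t ≤ 1) ∧ (∀ t, 0 ≤ deriv (deriv G) t) ∧
    (∀ t, t ≤ -1 → deriv G t = 0) := by
  set g : ℝ → ℝ := fun s => Real.smoothTransition ((s + 1) / 2) with hg
  have hgs : ContDiff ℝ ∞ g :=
    Real.smoothTransition.contDiff.comp ((contDiff_id.add contDiff_const).div_const 2)
  have hgc : Continuous g := hgs.continuous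
  set G : ℝ → ℝ := fun t => 1 + ∫ s in (1 : ℝ)..t, g s with hG
  have hd : ∀ t, HasDerivAt G (g t) t := fun t =>
    (intervalIntegral.integral_hasDerivAt_right (hgc.intervalIntegrable _ _)
      (hgc.stronglyMeasurableAtFilter _ _) hgc.continuousAt).const_add 1
  have hdG : deriv G = g := funext fun t => (hd t).deriv
  have hmono : Monotone g := by
    intro a b hab
    exact Real.smoothTransition.monotone (by linarith)
  refine ⟨G, ?_, ?_, ?_, ?_, ?_, ?_⟩
  · rw [contDiff_infty_iff_deriv]
    exact ⟨fun t => (hd t).differentiableAt, by rw [hdG]; exact hgs⟩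
  · intro t ht
    have h1 : ∫ s in (1 : ℝ)..t, g s = ∫ s in (1 : ℝ)..t, (1 : ℝ) := by
      refine intervalIntegral.integral_congr fun s hs => ?_
      rw [uIcc_of_le ht] at hs
      exact Real.smoothTransition.one_of_one_le (by linarith [hs.1])
    simp only [hG]
    rw [h1]; simp
  · intro t; rw [hdG]; exact Real.smoothTransition.nonneg _
  · intro t; rw [hdG]; exact Real.smoothTransition.le_one _
  · intro t; rw [hdG]; exact hmono.deriv_nonneg
  · intro t ht; rw [hdG]; exact Real.smoothTransition.zero_of_nonpos (by linarith)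

variable {c : ℕ}

/-- the square of the Euclidean norm -/
def nsq (z : Cm c) : ℝ := ∑ i, ‖z i‖ ^ 2

lemma nsq_nonneg (z : Cm c) : 0 ≤ nsq z := Finset.sum_nonneg fun i _ => sq_nonneg _

lemma nsq_continuous : Continuous (nsq (c := c)) := by
  unfold nsq; fun_prop

lemma nsq_smooth (z : Cm c) : ContDiffAt ℝ ∞ (nsq (c := c)) z := by
  unfold nsq
  refine ContDiffAt.sum fun i _ => ContDiffAt.norm_sq ℝ ?_
  exact (contDiff_apply ℝ ℂ i).contDiffAt

lemma norm_sq_le_nsq (z : Cm c) : ‖z‖ ^ 2 ≤ nsq z := by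
  have h1 : ‖z‖ ≤ Real.sqrt (nsq z) := by
    rw [pi_norm_le_iff_of_nonneg (Real.sqrt_nonneg _)]
    intro i
    refine Real.le_sqrt_of_sq_le ?_
    exact Finset.single_le_sum (f := fun i => ‖z i‖ ^ 2) (fun i _ => sq_nonneg _) (Finset.mem_univ i)
  calc ‖z‖ ^ 2 ≤ Real.sqrt (nsq z) ^ 2 := pow_le_pow_left₀ (norm_nonneg _) h1 2
    _ = nsq z := Real.sq_sqrt (nsq_nonneg z)

lemma nsq_zero : nsq (0 : Cm c) = 0 := by simp [nsq]

lemma isCompact_nsq_le (R : ℝ) : IsCompact {z : Cm c | nsq z ≤ R} := by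
  refine Metric.isCompact_of_isClosed_isBounded (isClosed_le nsq_continuous continuous_const) ?_
  refine (Metric.isBounded_iff_subset_closedBall 0).2 ⟨Real.sqrt R, fun z hz => ?_⟩
  rw [mem_closedBall_zero_iff]
  exact Real.le_sqrt_of_sq_le ((norm_sq_le_nsq z).trans hz)

lemma isOpen_nsq_lt (R : ℝ) : IsOpen {z : Cm c | nsq z < R} :=
  isOpen_lt nsq_continuous continuous_const

lemma cHess_nsq (z : Cm c) : cHess (nsq (c := c)) z = 1 := by
  have h1 : cHess (nsq (c := c)) z = ∑ i, cHess (fun y : Cm c => ‖y i‖ ^ 2) z :=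
    cHess_fsum Finset.univ fun i => (ContDiffAt.norm_sq ℝ (contDiff_apply ℝ ℂ i).contDiffAt)
  rw [h1]
  have h2 : ∀ i : Fin c, cHess (fun y : Cm c => ‖y i‖ ^ 2) z = Matrix.single i i 1 := by
    intro i
    have hi : ContDiffAt ℂ ω (fun y : Cm c => y i) z := (contDiff_apply ℂ ℂ i).contDiffAt
    rw [cHess_norm_sq hi]
    have h3 : ∀ j, dz j (fun y : Cm c => y i) z = if i = j then 1 else 0 := by
      intro j
      have h4 := congrFun (congrFun (jmat_id z) i) j
      rw [Matrix.one_apply] at h4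
      exact h4
    ext j k
    simp only [sqM, Matrix.vecMulVec_apply, h3, Pi.star_apply, Matrix.single_apply]
    by_cases hj : i = j <;> by_cases hk : i = k <;> simp [hj, hk] 
    all_goals (subst hj; simp_all)
  simp only [h2]
  ext j k
  simp only [Matrix.sum_apply, Matrix.single_apply, Matrix.one_apply]
  by_cases h : j = k
  · subst h; simp
  · simp only [h, if_false]
    refine Finset.sum_eq_zero fun i _ => ?_
    rw [if_neg]
    rintro ⟨rfl, rfl⟩
    exact h rfl

section glue

variable {V : Set (Cm c)} {b : Cm c → Matrix (Fin c) (Fin c) ℂ} {u v : Cm c → ℝ} {r s : ℝ}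

/-- **Comparison of masses**: if `u > v + 1` near `{nsq = r}` and `u + 1 < v` on `{nsq ≤ s}` then
the mass of `b ≥ i∂∂̄u` is at least that of `i∂∂̄v` on `{nsq < s}`. -/
theorem glue_mass (hV : IsOpen V) (hr : 0 < r) (hs : s ≤ r) (hrV : {z : Cm c | nsq z ≤ r} ⊆ V)
    (hbs : ∀ z ∈ V, ∀ i j, ContDiffAt ℝ ∞ (fun y => b y i j) z)
    (hcl : ∀ z ∈ V, ∀ i k l, dz i (fun y => b y k l) z = dz k (fun y => b y i l) z)
    (hu : ∀ z ∈ V, ContDiffAt ℝ ∞ u z) (hv : ∀ z ∈ V, ContDiffAt ℝ ∞ v z)
    (hbu : ∀ z ∈ V, (b z - cHess u z).PosSemidef) (hb : ∀ z ∈ V, (b z).PosSemidef)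
    (hvp : ∀ z ∈ V, (cHess v z).PosDef)
    (hann : ∀ z, r / 4 ≤ nsq z → nsq z ≤ r → v z + 1 < u z)
    (hin : ∀ z, nsq z < s → u z + 1 < v z) :
    ∫ z in {z : Cm c | nsq z < s}, (cHess v z).det.re ≤
      ∫ z in {z : Cm c | nsq z < r}, (b z).det.re := by
  obtain ⟨G, hGs, hG1, hG0, hGle, hG2, hGn⟩ := exists_glue
  set f : Cm c → ℝ := fun z => v z + G (u z - v z) - u z with hf
  have hfs : ∀ z ∈ V, ContDiffAt ℝ ∞ f z := fun z hz =>
    ((hv z hz).add (hGs.contDiffAt.comp z ((hu z hz).sub (hv z hz)))).sub (hu z hz)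
  set φ : Cm c → ℝ := {z : Cm c | nsq z < r}.indicator f with hφ
  have hφ1 : ∀ z, nsq z < r → φ =ᶠ[𝓝 z] f := by
    intro z hz
    filter_upwards [(isOpen_nsq_lt r).mem_nhds hz] with y hy
    have hy' : y ∈ {z : Cm c | nsq z < r} := hy
    rw [hφ, indicator_of_mem hy']
  have hφ0 : ∀ z, r / 4 ≤ nsq z → φ z = 0 := by
    intro z hz
    by_cases h : nsq z < r
    · have h' : z ∈ {z : Cm c | nsq z < r} := h
      rw [hφ, indicator_of_mem h']
      have h1 := hann z hz h.le
      simp only [hf]
      rw [hG1 _ (by linarith)]; ring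
    · have h' : z ∉ {z : Cm c | nsq z < r} := h
      rw [hφ, indicator_of_notMem h']
  have hφ2 : ∀ z, r / 4 < nsq z → φ =ᶠ[𝓝 z] fun _ => 0 := by
    intro z hz
    have h1 : IsOpen {z : Cm c | r / 4 < nsq z} := isOpen_lt continuous_const nsq_continuous
    filter_upwards [h1.mem_nhds hz] with y hy
    exact hφ0 y (le_of_lt hy)
  have hφs : ContDiff ℝ ∞ φ := by
    rw [contDiff_iff_contDiffAt]
    intro z
    by_cases h : nsq z < r
    · exact (hfs z (hrV h.le)).congr_of_eventuallyEq (hφ1 z h)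
    · exact contDiffAt_const.congr_of_eventuallyEq (hφ2 z (by linarith))
  have hts : tsupport φ ⊆ {z : Cm c | nsq z ≤ r / 4} := by
    refine closure_minimal ?_ (isClosed_le nsq_continuous continuous_const)
    intro z hz
    by_contra h
    exact hz (hφ0 z (le_of_lt (not_le.1 h)))
  have hφc : HasCompactSupport φ :=
    (isCompact_nsq_le (r / 4)).of_isClosed_subset (isClosed_tsupport φ) hts
  have hsub : {z : Cm c | nsq z < r} ⊆ V := fun z hz => hrV (le_of_lt (show nsq z < r from hz))
  have hst := INT.local_stokes (isOpen_nsq_lt r) (fun z hz => hbs z (hsub hz))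
    (fun z hz => hcl z (hsub hz)) hφs hφc (hts.trans fun z hz => by
      have : nsq z ≤ r / 4 := hz
      show nsq z < r
      linarith)
  -- integrability
  have hib : IntegrableOn (fun z => (b z).det.re) {z : Cm c | nsq z < r} := by
    have h1 : ContinuousOn (fun z => (b z).det.re) {z : Cm c | nsq z ≤ r} := fun z hz =>
      (Complex.continuous_re.continuousAt.comp
        (contDiffAt_det (m := ∞) fun i j => hbs z (hrV hz) i j).continuousAt).continuousWithinAt
    exact (h1.integrableOn_compact (isCompact_nsq_le r)).mono_set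
      fun z hz => le_of_lt (show nsq z < r from hz)
  have hib' : IntegrableOn (fun z => (b z + cHess φ z).det.re) {z : Cm c | nsq z < r} := by
    have h1 : ContinuousOn (fun z => (b z + cHess φ z).det.re) {z : Cm c | nsq z ≤ r} := fun z hz =>
      (Complex.continuous_re.continuousAt.comp
        (contDiffAt_det (m := ∞) fun i j => (hbs z (hrV hz) i j).add
          (INT.smooth_cHess hφs.contDiffAt i j)).continuousAt).continuousWithinAt
    exact (h1.integrableOn_compact (isCompact_nsq_le r)).mono_set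
      fun z hz => le_of_lt (show nsq z < r from hz)
  rw [integral_sub hib' hib, sub_eq_zero] at hst
  rw [← hst]
  -- the modified form
  have hcomp : ∀ z, nsq z < r → b z + cHess φ z =
      ((deriv G (u z - v z) : ℝ) : ℂ) • b z +
      ((1 - deriv G (u z - v z) : ℝ) : ℂ) • (b z - cHess u z) +
      ((1 - deriv G (u z - v z) : ℝ) : ℂ) • cHess v z +
      ((deriv (deriv G) (u z - v z) : ℝ) : ℂ) • gm (fun y => u y - v y) (fun y => u y - v y) z := by
    intro z hz
    have hzV : z ∈ V := hrV hz.le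
    have hu2 : ContDiffAt ℝ 2 u z := (hu z hzV).of_le (by norm_cast)
    have hv2 : ContDiffAt ℝ 2 v z := (hv z hzV).of_le (by norm_cast)
    have hG2' : ContDiffAt ℝ 2 G (u z - v z) := hGs.contDiffAt.of_le (by norm_cast)
    have hGu : ContDiffAt ℝ 2 (fun y => G (u y - v y)) z :=
      ContDiffAt.comp z (g := G) (f := fun y => u y - v y) hG2' (hu2.sub hv2)
    have h1 : cHess f z = cHess v z + cHess (fun y => G (u y - v y)) z - cHess u z := by
      have e1 : cHess f z = cHess (fun y => v y + G (u y - v y)) z - cHess u z :=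
        cHess_sub (hv2.add hGu) hu2
      rw [e1, cHess_add hv2 hGu]
    have h2 : cHess (fun y => G (u y - v y)) z = _ :=
      cHess_comp_real (f := fun y => u y - v y) (φ := G) hG2' (hu2.sub hv2)
    rw [cHess_congr (hφ1 z hz), h1, h2, cHess_sub hu2 hv2]
    ext i j
    simp only [Matrix.add_apply, Matrix.sub_apply, Matrix.smul_apply, smul_eq_mul]
    push_cast
    ring
  have hpsd : ∀ z, nsq z < r → (b z + cHess φ z).PosSemidef := by
    intro z hz
    have hzV : z ∈ V := hrV hz.le
    rw [hcomp z hz]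
    have a0 : (0 : ℂ) ≤ ((deriv G (u z - v z) : ℝ) : ℂ) := by exact_mod_cast hG0 _
    have a1 : (0 : ℂ) ≤ ((1 - deriv G (u z - v z) : ℝ) : ℂ) := by
      have := hGle (u z - v z)
      exact_mod_cast (by linarith : (0 : ℝ) ≤ 1 - deriv G (u z - v z))
    have a2 : (0 : ℂ) ≤ ((deriv (deriv G) (u z - v z) : ℝ) : ℂ) := by exact_mod_cast hG2 _
    exact ((((hb z hzV).smul a0).add ((hbu z hzV).smul a1)).add
      ((hvp z hzV).posSemidef.smul a1)).add ((AMP.gm_self_posSemidef _ z).smul a2)
  have hin' : ∀ z, nsq z < s → (cHess v z).det.re ≤ (b z + cHess φ z).det.re := by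
    intro z hz
    have hzr : nsq z < r := lt_of_lt_of_le hz hs
    have hzV : z ∈ V := hrV hzr.le
    refine N.det_re_le (hvp z hzV) ?_
    have h1 : deriv G (u z - v z) = 0 := hGn _ (by linarith [hin z hz])
    rw [hcomp z hzr, h1]
    have a2 : (0 : ℂ) ≤ ((deriv (deriv G) (u z - v z) : ℝ) : ℂ) := by exact_mod_cast hG2 _
    have h2 : ((0 : ℝ) : ℂ) • b z + ((1 - 0 : ℝ) : ℂ) • (b z - cHess u z) +
        ((1 - 0 : ℝ) : ℂ) • cHess v z +
        ((deriv (deriv G) (u z - v z) : ℝ) : ℂ) • gm (fun y => u y - v y) (fun y => u y - v y) z -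
        cHess v z = (b z - cHess u z) +
        ((deriv (deriv G) (u z - v z) : ℝ) : ℂ) • gm (fun y => u y - v y) (fun y => u y - v y) z := by
      simp only [Complex.ofReal_zero, zero_smul, sub_zero, Complex.ofReal_one, one_smul, zero_add]
      abel
    rw [h2]
    exact (hbu z hzV).add ((AMP.gm_self_posSemidef _ z).smul a2)
  have hdet0 : ∀ z, nsq z < r → 0 ≤ (b z + cHess φ z).det.re := fun z hz =>
    (Complex.le_def.1 (hpsd z hz).det_nonneg).1
  have hss : {z : Cm c | nsq z < s} ⊆ {z : Cm c | nsq z < r} := fun z hz =>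
    lt_of_lt_of_le (show nsq z < s from hz) hs
  calc ∫ z in {z : Cm c | nsq z < s}, (cHess v z).det.re
      ≤ ∫ z in {z : Cm c | nsq z < s}, (b z + cHess φ z).det.re := by
        refine setIntegral_mono_on ?_ (hib'.mono_set hss) (isOpen_nsq_lt s).measurableSet
          fun z hz => hin' z hz
        have h1 : ContinuousOn (fun z => (cHess v z).det.re) {z : Cm c | nsq z ≤ r} := fun z hz =>
          (Complex.continuous_re.continuousAt.comp
            (contDiffAt_det (m := ∞) fun i j =>
              INT.smooth_cHess (hv z (hrV hz)) i j).continuousAt).continuousWithinAt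
        exact (h1.integrableOn_compact (isCompact_nsq_le r)).mono_set fun z hz =>
          le_of_lt (show nsq z < r from hss hz)
    _ ≤ ∫ z in {z : Cm c | nsq z < r}, (b z + cHess φ z).det.re := by
        refine setIntegral_mono_set hib' ?_ (LE.le.eventuallyLE hss)
        filter_upwards [self_mem_ae_restrict (isOpen_nsq_lt r).measurableSet] with z hz
        exact hdet0 z hz

end glue

end Vale.Agent.P301
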