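import Vale.Agent.P301.Defs
import Vale.Agent.P272.K.C2.PosLin
import Mathlib.Tactic

/-! Linear algebra of the pairing `bb`. -/

open scoped ComplexOrder Matrix

set_option linter.all false

noncomputable section

namespace Vale.Agent.P301

open Vale.Agent.P272.K (Cm)

variable {N : ℕ} {A H K J : Matrix (Fin N) (Fin N) ℂ}

lemma sum4_comm {F : Fin N → Fin N → Fin N → Fin N → ℂ} :
    ∑ j, ∑ k, ∑ l, ∑ m, F j k l m = ∑ l, ∑ m, ∑ k, ∑ j, F j k l m := by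
  calc ∑ j, ∑ k, ∑ l, ∑ m, F j k l m = ∑ j, ∑ l, ∑ k, ∑ m, F j k l m :=
        Finset.sum_congr rfl fun j _ => Finset.sum_comm
    _ = ∑ l, ∑ j, ∑ k, ∑ m, F j k l m := Finset.sum_comm
    _ = ∑ l, ∑ k, ∑ j, ∑ m, F j k l m := Finset.sum_congr rfl fun l _ => Finset.sum_comm
    _ = ∑ l, ∑ k, ∑ m, ∑ j, F j k l m :=
        Finset.sum_congr rfl fun l _ => Finset.sum_congr rfl fun k _ => Finset.sum_comm
    _ = ∑ l, ∑ m, ∑ k, ∑ j, F j k l m := Finset.sum_congr rfl fun l _ => Finset.sum_comm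

lemma bb_eq (A H K : Matrix (Fin N) (Fin N) ℂ) :
    bb A H K = ‖A.det‖ * ((A⁻¹)ᵀ * H * (A⁻¹).map (starRingEnd ℂ) * Kᵀ).trace.re := by
  unfold bb
  congr 2
  rw [sum4_comm]
  simp only [Matrix.trace, Matrix.diag_apply, Matrix.mul_apply, Matrix.transpose_apply,
    Matrix.map_apply, Finset.sum_mul]
  refine Finset.sum_congr rfl fun l _ => Finset.sum_congr rfl fun m _ =>
    Finset.sum_congr rfl fun k _ => Finset.sum_congr rfl fun j _ => ?_
  ring

lemma bb_add_left (A H H' K : Matrix (Fin N) (Fin N) ℂ) :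
    bb A (H + H') K = bb A H K + bb A H' K := by
  simp only [bb_eq, Matrix.mul_add, Matrix.add_mul, Matrix.trace_add, Complex.add_re]
  ring

lemma bb_add_right (A H K K' : Matrix (Fin N) (Fin N) ℂ) :
    bb A H (K + K') = bb A H K + bb A H K' := by
  simp only [bb_eq, Matrix.transpose_add, Matrix.mul_add, Matrix.add_mul, Matrix.trace_add,
    Complex.add_re]
  ring

lemma bb_smul_left (c : ℝ) (A H K : Matrix (Fin N) (Fin N) ℂ) :
    bb A ((c : ℂ) • H) K = c * bb A H K := by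
  simp only [bb_eq, Matrix.mul_smul, Matrix.smul_mul, Matrix.trace_smul, smul_eq_mul,
    Complex.re_ofReal_mul]
  ring

lemma bb_smul_right (c : ℝ) (A H K : Matrix (Fin N) (Fin N) ℂ) :
    bb A H ((c : ℂ) • K) = c * bb A H K := by
  simp only [bb_eq, Matrix.transpose_smul, Matrix.mul_smul, Matrix.smul_mul, Matrix.trace_smul,
    smul_eq_mul, Complex.re_ofReal_mul]
  ring

lemma bb_zero_right (A H : Matrix (Fin N) (Fin N) ℂ) : bb A H 0 = 0 := by
  simp [bb_eq]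

lemma bb_zero_left (A H : Matrix (Fin N) (Fin N) ℂ) : bb A 0 H = 0 := by
  simp [bb_eq]

lemma bb_sub_left (A H H' K : Matrix (Fin N) (Fin N) ℂ) :
    bb A (H - H') K = bb A H K - bb A H' K := by
  have := bb_add_left A (H - H') H' K
  rw [sub_add_cancel] at this
  linarith

lemma bb_sub_right (A H K K' : Matrix (Fin N) (Fin N) ℂ) :
    bb A H (K - K') = bb A H K - bb A H K' := by
  have := bb_add_right A H (K - K') K'
  rw [sub_add_cancel] at this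
  linarith

lemma inv_skew (hA : Aᵀ = -A) (h0 : A.det ≠ 0) (j k : Fin N) : A⁻¹ j k = -A⁻¹ k j := by
  have h1 : (A⁻¹)ᵀ = -A⁻¹ := by
    rw [Matrix.transpose_nonsing_inv, hA]
    refine Matrix.inv_eq_left_inv ?_
    rw [Matrix.neg_mul, Matrix.mul_neg, neg_neg,
      Matrix.nonsing_inv_mul _ (isUnit_iff_ne_zero.2 h0)]
  have := congrFun (congrFun h1 k) j
  simpa using this

lemma bb_comm (hA : Aᵀ = -A) (h0 : A.det ≠ 0) (H K : Matrix (Fin N) (Fin N) ℂ) :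
    bb A H K = bb A K H := by
  unfold bb
  congr 2
  rw [show (∑ j, ∑ k, ∑ l, ∑ m, A⁻¹ j l * (starRingEnd ℂ) (A⁻¹ k m) * K j k * H l m) =
    ∑ l, ∑ m, ∑ j, ∑ k, A⁻¹ j l * (starRingEnd ℂ) (A⁻¹ k m) * K j k * H l m from ?_]
  · refine Finset.sum_congr rfl fun j _ => Finset.sum_congr rfl fun k _ =>
      Finset.sum_congr rfl fun l _ => Finset.sum_congr rfl fun m _ => ?_
    rw [inv_skew hA h0 j l, inv_skew hA h0 k m, map_neg]
    ring
  · rw [sum4_comm]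
    exact Finset.sum_congr rfl fun l _ => Finset.sum_congr rfl fun m _ => Finset.sum_comm

lemma map_conj_eq (P : Matrix (Fin N) (Fin N) ℂ) : P.map (starRingEnd ℂ) = (Pᵀ)ᴴ := by
  ext i j; simp [Matrix.conjTranspose_apply]

lemma transpose_psd (h : K.PosSemidef) : (Kᵀ).PosSemidef := h.transpose

lemma bb_nonneg (A : Matrix (Fin N) (Fin N) ℂ) (hH : H.PosSemidef) (hK : K.PosSemidef) :
    0 ≤ bb A H K := by
  rw [bb_eq, map_conj_eq]
  refine mul_nonneg (norm_nonneg _) ?_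
  have h1 := hH.mul_mul_conjTranspose_same ((A⁻¹)ᵀ)
  exact (Complex.le_def.1 (Vale.Agent.P272.K.C2.trace_mul_nonneg h1 hK.transpose)).1

/-- monotonicity -/
lemma bb_mono (A : Matrix (Fin N) (Fin N) ℂ) {S T : Matrix (Fin N) (Fin N) ℂ}
    (hS : S.PosSemidef) (hTS : (T - S).PosSemidef) : bb A S S ≤ bb A T T := by
  have hT : T.PosSemidef := by
    have := hTS.add hS
    rwa [sub_add_cancel] at this
  have h1 := bb_nonneg A hTS hT
  have h2 := bb_nonneg A hS hTS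
  rw [bb_sub_left] at h1
  rw [bb_sub_right] at h2
  linarith

/-- change of coordinates -/
lemma bb_form (hJ : IsUnit J.det) (A H K : Matrix (Fin N) (Fin N) ℂ) :
    bb (Jᵀ * A * J) (Jᵀ * H * J.map (starRingEnd ℂ)) (Jᵀ * K * J.map (starRingEnd ℂ)) =
      bb A H K * ‖J.det‖ ^ 2 := by
  have hJt : IsUnit (Jᵀ).det := by rwa [Matrix.det_transpose]
  have hc : IsUnit (J.map (starRingEnd ℂ)).det := by
    have : (J.map (starRingEnd ℂ)).det = (starRingEnd ℂ) J.det := by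
      rw [RingHom.map_det]; rfl
    rw [this]; exact hJ.map _
  have hct : IsUnit ((J.map (starRingEnd ℂ))ᵀ).det := by rwa [Matrix.det_transpose]
  have hinv : (Jᵀ * A * J)⁻¹ = J⁻¹ * A⁻¹ * (Jᵀ)⁻¹ := by
    rw [Matrix.mul_inv_rev, Matrix.mul_inv_rev, Matrix.mul_assoc]
  have hmap : ∀ M : Matrix (Fin N) (Fin N) ℂ, IsUnit M.det →
      (M⁻¹).map (starRingEnd ℂ) = (M.map (starRingEnd ℂ))⁻¹ := by
    intro M hM
    symm
    refine Matrix.inv_eq_left_inv ?_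
    rw [← Matrix.map_mul, Matrix.nonsing_inv_mul _ hM]
    ext i j
    by_cases h : i = j <;> simp [h, Matrix.one_apply]
  have t1 : ((Jᵀ)⁻¹)ᵀ = J⁻¹ := by
    rw [Matrix.transpose_nonsing_inv, Matrix.transpose_transpose]
  have t2 : (J⁻¹)ᵀ = (Jᵀ)⁻¹ := Matrix.transpose_nonsing_inv J
  have e1 : ((Jᵀ * A * J)⁻¹)ᵀ = J⁻¹ * (A⁻¹)ᵀ * (Jᵀ)⁻¹ := by
    rw [hinv, Matrix.transpose_mul, Matrix.transpose_mul, t1, t2, Matrix.mul_assoc]
  have e2 : ((Jᵀ * A * J)⁻¹).map (starRingEnd ℂ) =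
      (J.map (starRingEnd ℂ))⁻¹ * (A⁻¹).map (starRingEnd ℂ) * ((J.map (starRingEnd ℂ))ᵀ)⁻¹ := by
    rw [hinv, Matrix.map_mul, Matrix.map_mul, hmap J hJ, hmap _ hJt]
    rfl
  have e3 : (Jᵀ * K * J.map (starRingEnd ℂ))ᵀ = (J.map (starRingEnd ℂ))ᵀ * Kᵀ * J := by
    rw [Matrix.transpose_mul, Matrix.transpose_mul, Matrix.transpose_transpose, Matrix.mul_assoc]
  have e4 : J⁻¹ * (A⁻¹)ᵀ * (Jᵀ)⁻¹ * (Jᵀ * H * J.map (starRingEnd ℂ)) *
      ((J.map (starRingEnd ℂ))⁻¹ * (A⁻¹).map (starRingEnd ℂ) * ((J.map (starRingEnd ℂ))ᵀ)⁻¹) *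
      ((J.map (starRingEnd ℂ))ᵀ * Kᵀ * J) =
      J⁻¹ * ((A⁻¹)ᵀ * H * (A⁻¹).map (starRingEnd ℂ) * Kᵀ * J) := by
    calc _ = J⁻¹ * (A⁻¹)ᵀ * ((Jᵀ)⁻¹ * Jᵀ) * H * (J.map (starRingEnd ℂ) *
          (J.map (starRingEnd ℂ))⁻¹) * (A⁻¹).map (starRingEnd ℂ) *
          (((J.map (starRingEnd ℂ))ᵀ)⁻¹ * (J.map (starRingEnd ℂ))ᵀ) * Kᵀ * J := by
          simp only [Matrix.mul_assoc]
      _ = _ := by
          rw [Matrix.nonsing_inv_mul _ hJt, Matrix.mul_nonsing_inv _ hc,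
            Matrix.nonsing_inv_mul _ hct]
          simp only [Matrix.mul_assoc, Matrix.mul_one, Matrix.one_mul]
  rw [bb_eq, bb_eq, e1, e2, e3, e4, Matrix.trace_mul_comm, Matrix.mul_assoc _ J,
    Matrix.mul_nonsing_inv _ hJ, Matrix.mul_one, Matrix.det_mul, Matrix.det_mul,
    Matrix.det_transpose, norm_mul, norm_mul]
  ring

/-- the pairing on rank one forms -/
lemma bb_rank_one (A : Matrix (Fin N) (Fin N) ℂ) (a b : Fin N → ℂ) :
    bb A (Matrix.vecMulVec a (star a)) (Matrix.vecMulVec b (star b)) =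
      ‖A.det‖ * ‖∑ j, ∑ k, A⁻¹ j k * a j * b k‖ ^ 2 := by
  unfold bb
  congr 1
  have h1 : (∑ j, ∑ k, ∑ l, ∑ m, A⁻¹ j l * (starRingEnd ℂ) (A⁻¹ k m) *
      Matrix.vecMulVec a (star a) j k * Matrix.vecMulVec b (star b) l m) =
      (∑ j, ∑ l, A⁻¹ j l * a j * b l) *
        (starRingEnd ℂ) (∑ k, ∑ m, A⁻¹ k m * a k * b m) := by
    rw [Finset.sum_mul]
    refine Finset.sum_congr rfl fun j _ => ?_
    rw [Finset.sum_mul, Finset.sum_comm]
    refine Finset.sum_congr rfl fun l _ => ?_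
    rw [map_sum, Finset.mul_sum]
    refine Finset.sum_congr rfl fun k _ => ?_
    rw [map_sum, Finset.mul_sum]
    refine Finset.sum_congr rfl fun m _ => ?_
    simp only [Matrix.vecMulVec_apply, Pi.star_apply, RCLike.star_def, map_mul]
    ring
  rw [h1, Complex.mul_conj, Complex.ofReal_re, Complex.normSq_eq_norm_sq]

end Vale.Agent.P301
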