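import Vale.Agent.P301.Bundle

/-! Lower bounds for integrals of nonnegative densities; intersection numbers. -/

open scoped Manifold ContDiff ComplexOrder Topology Matrix
open MeasureTheory Set Filter

set_option linter.all false

noncomputable section

namespace Vale.Agent.P301

open Vale.Agent.P272.K
open Vale.Agent.P272.K.INT (IsDensity intX intX_congr intX_of_support IsClosedForm)

variable {N : ℕ} {X : Type} [TopologicalSpace X] [ChartedSpace (Cm N) X]
  [IsManifold 𝓘(ℂ, Cm N) ω X] [T2Space X] [CompactSpace X]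

/-- a nonnegative density which is `≥ c` in a fixed open subset of a chart has integral
`≥ c * c₁`, with `c₁ > 0` not depending on the density -/
lemma exists_lower {e : Chart N X} {x : X} (hx : At e x) {V : Set (Cm N)} (hV : V ∈ 𝓝 (e x)) :
    ∃ c₁ : ℝ, 0 < c₁ ∧ ∀ D : Chart N X → Cm N → ℝ, IsDensity D →
      (∀ e x, At e x → 0 ≤ D e (e x)) → ∀ c : ℝ, (∀ z ∈ V, z ∈ e.target → c ≤ D e z) →
      c * c₁ ≤ intX D := by
  have hVt : V ∩ e.target ∈ 𝓝 (e x) := inter_mem hV (e.open_target.mem_nhds hx.mem_target)
  obtain ⟨r, hr, hrV⟩ := Metric.nhds_basis_closedBall.mem_iff.1 hVt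
  set B := Metric.ball (e x) r with hB
  set C := Metric.closedBall (e x) r with hC
  have hCt : C ⊆ e.target := hrV.trans inter_subset_right
  have hCV : C ⊆ V := hrV.trans inter_subset_left
  set O : Set X := e.source ∩ e ⁻¹' B with hO
  have hOo : IsOpen O := e.isOpen_inter_preimage Metric.isOpen_ball
  have hxO : x ∈ O := ⟨hx.2, Metric.mem_ball_self hr⟩
  set K : Set X := e.symm '' C with hK
  have hKc : IsCompact K := (isCompact_closedBall _ _).image_of_continuousOn
    (e.continuousOn_symm.mono hCt)
  have hOK : O ⊆ K := by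
    intro y hy
    exact ⟨e y, Metric.ball_subset_closedBall hy.2, e.left_inv hy.1⟩
  have hKs : K ⊆ e.source := by
    rintro _ ⟨z, hz, rfl⟩; exact e.map_target (hCt hz)
  obtain ⟨η, h0, h1, h01⟩ := exists_continuous_zero_one_of_isClosed hOo.isClosed_compl
    (isClosed_singleton (x := x)) (by
      rw [Set.disjoint_singleton_right]
      exact fun h => h hxO)
  have hη0 : ∀ y, y ∉ O → η y = 0 := fun y hy => h0 hy
  have hηx : η x = 1 := h1 rfl
  have hsupp : tsupport η ⊆ K := by
    refine closure_minimal ?_ hKc.isClosed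
    intro y hy
    by_contra hyK
    exact hy (hη0 y fun h => hyK (hOK h))
  have hηc : ContinuousOn (fun z => η (e.symm z)) e.target :=
    η.continuous.comp_continuousOn e.continuousOn_symm
  have hint : IntegrableOn (fun z => η (e.symm z)) e.target := by
    refine INT.integrableOn_chart hηc (isClosed_tsupport η) (hsupp.trans hKs) ?_
    intro z _ hz
    exact image_eq_zero_of_notMem_tsupport hz
  refine ⟨∫ z in e.target, η (e.symm z), ?_, ?_⟩
  · rw [setIntegral_pos_iff_support_of_nonneg_ae
      (Eventually.of_forall fun z => (h01 _).1) hint]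
    have hopen : IsOpen (e.target ∩ e.symm ⁻¹' {y | 0 < η y}) :=
      e.isOpen_inter_preimage_symm (isOpen_lt continuous_const η.continuous)
    refine (hopen.measure_pos volume ⟨e x, ?_⟩).trans_le (measure_mono ?_)
    · refine ⟨hx.mem_target, ?_⟩
      change 0 < η (e.symm (e x))
      rw [hx.left_inv, hηx]; norm_num
    · rintro z ⟨hz1, hz2⟩
      exact ⟨ne_of_gt hz2, hz1⟩
  · intro D hD hDpos c hc
    have hDη := hD.smul η.continuous
    have h2 : intX (fun (e : Chart N X) z => η (e.symm z) * D e z) ≤ intX D := by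
      refine INT.intX_mono hDη hD fun e' y hy => ?_
      rw [hy.left_inv]
      have := (h01 y).2
      have := hDpos e' y hy
      nlinarith
    have h3 : intX (fun (e : Chart N X) z => η (e.symm z) * D e z) =
        ∫ z in e.target, η (e.symm z) * D e z :=
      intX_of_support hDη hx.1 (isClosed_tsupport η) (hsupp.trans hKs) fun e' y hy hyK => by
        rw [hy.left_inv, image_eq_zero_of_notMem_tsupport hyK, zero_mul]
    refine le_trans ?_ (h3 ▸ h2)
    rw [← integral_const_mul]
    refine setIntegral_mono_on (hint.const_mul c)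
      (INT.integrableOn_dens hD hx.1 η.continuous (hsupp.trans hKs))
      e.open_target.measurableSet fun z hz => ?_
    by_cases hzO : e.symm z ∈ O
    · have hzV : z ∈ V := by
        have := hzO.2
        simp only [mem_preimage] at this
        rw [e.right_inv hz] at this
        exact hCV (Metric.ball_subset_closedBall this)
      have := hc z hzV hz
      have := (h01 (e.symm z)).1
      nlinarith
    · rw [hη0 _ hzO]; simp

section numbers

variable {L : LineBundle N X} {h h' : L.ι → X → ℝ}
  {σ w β γ : Chart N X → Cm N → Matrix (Fin N) (Fin N) ℂ}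

lemma intX_bb_comm (hσ : IsSymplectic σ) :
    intX (fun e z => bb (σ e z) (β e z) (γ e z)) = intX (fun e z => bb (σ e z) (γ e z) (β e z)) :=
  intX_congr fun e x hx => bb_comm (hσ.skew e x hx) (hσ.nondeg e x hx) _ _

/-- `∫ bb (β, curv h)` does not depend on the metric -/
lemma intX_bb_metric (hσ : IsSymplectic σ) (hβ : IsClosedForm β) (hh : L.IsMetric h)
    (hh' : L.IsMetric h') :
    intX (fun e z => bb (σ e z) (β e z) (L.curv h e z)) =
      intX (fun e z => bb (σ e z) (β e z) (L.curv h' e z)) := by
  obtain ⟨u, hu, -, h1⟩ := IsMetric.exists_diff hh hh'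
  have e1 : intX (fun e z => bb (σ e z) (β e z) (L.curv h e z)) =
      intX (fun e z => bb (σ e z) (β e z) (L.curv h' e z) +
        bb (σ e z) (β e z) (cHess (fun y => u (e.symm y)) z)) :=
    intX_congr fun e x hx => by rw [h1 e x hx, bb_add_right]
  rw [e1, INT.intX_add (IsClosedForm.isDensity_bb hσ hβ (IsMetric.isClosedForm hh'))
    (IsClosedForm.isDensity_bb hσ hβ (INT.isClosedForm_cHess hu)), intX_bb_cHess hσ hβ hu, add_zero]

/-- the square of the class does not depend on the metric -/
lemma intX_bb_self (hσ : IsSymplectic σ) (hh : L.IsMetric h) (hh' : L.IsMetric h') :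
    intX (fun e z => bb (σ e z) (L.curv h e z) (L.curv h e z)) =
      intX (fun e z => bb (σ e z) (L.curv h' e z) (L.curv h' e z)) := by
  rw [intX_bb_metric hσ (IsMetric.isClosedForm hh) hh hh', intX_bb_comm hσ,
    intX_bb_metric hσ (IsMetric.isClosedForm hh') hh hh']

lemma IsIsotropic.self (hσ : IsSymplectic σ) (hL : L.IsIsotropic σ) (hh : L.IsMetric h) :
    intX (fun e z => bb (σ e z) (L.curv h e z) (L.curv h e z)) = 0 := by
  obtain ⟨h0, hh0, hi⟩ := hL
  rw [intX_bb_self hσ hh hh0, INT.intX_eq_of_isIntegral hi]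

/-- `∫ bb (curv h + δ w, curv h + δ w)` -/
lemma intX_bb_expand (hσ : IsSymplectic σ) (hw : IsClosedForm w) (hh : L.IsMetric h) (δ : ℝ) :
    intX (fun e z => bb (σ e z) (L.curv h e z + (δ : ℂ) • w e z) (L.curv h e z + (δ : ℂ) • w e z)) =
      intX (fun e z => bb (σ e z) (L.curv h e z) (L.curv h e z)) +
      2 * δ * intX (fun e z => bb (σ e z) (w e z) (L.curv h e z)) +
      δ ^ 2 * intX (fun e z => bb (σ e z) (w e z) (w e z)) := by
  have d1 := IsClosedForm.isDensity_bb hσ (IsMetric.isClosedForm hh) (IsMetric.isClosedForm hh)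
  have d2 := IsClosedForm.isDensity_bb hσ hw (IsMetric.isClosedForm hh)
  have d3 := IsClosedForm.isDensity_bb hσ hw hw
  have e1 : intX (fun e z => bb (σ e z) (L.curv h e z + (δ : ℂ) • w e z)
      (L.curv h e z + (δ : ℂ) • w e z)) =
      intX (fun e z => bb (σ e z) (L.curv h e z) (L.curv h e z) +
        ((2 * δ) * bb (σ e z) (w e z) (L.curv h e z) +
        δ ^ 2 * bb (σ e z) (w e z) (w e z))) := by
    refine intX_congr fun e x hx => ?_
    rw [bb_add_left, bb_add_right, bb_add_right, bb_smul_left, bb_smul_right, bb_smul_left,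
      bb_smul_right, bb_comm (hσ.skew e x hx) (hσ.nondeg e x hx) (L.curv h e (e x)) (w e (e x))]
    ring
  rw [e1, INT.intX_add d1 ((d2.const_mul _).add (d3.const_mul _)),
    INT.intX_add (d2.const_mul _) (d3.const_mul _), INT.intX_const_mul, INT.intX_const_mul]
  ring

end numbers

end Vale.Agent.P301
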