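import Vale.Agent.P301.Lower

/-! Sections of a nef isotropic line bundle Poisson-commute. -/

open scoped Manifold ContDiff ComplexOrder Topology Matrix
open MeasureTheory Set Filter

set_option linter.all false

noncomputable section

namespace Vale.Agent.P301

open Vale.Agent.P272.K
open Vale.Agent.P272.K.INT (IsDensity intX intX_congr intX_of_support IsClosedForm)

variable {N : ℕ}

/-- lower bound of the pairing by the bracket -/
lemma bb_lower {A T : Matrix (Fin N) (Fin N) ℂ} {κ : Type*} [Fintype κ] (v : κ → Fin N → ℂ)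
    {i j : κ} (hij : i ≠ j) {c : ℝ} (hc : 0 ≤ c)
    (hT : (T - (c : ℂ) • ∑ i, sqM (v i)).PosSemidef) :
    c ^ 2 * (‖A.det‖ * ‖∑ p, ∑ q, A⁻¹ p q * v i p * v j q‖ ^ 2) ≤ bb A T T := by
  classical
  have hc' : (0 : ℂ) ≤ (c : ℂ) := by exact_mod_cast hc
  have hsum : ∀ t : Finset κ, (∑ i ∈ t, sqM (v i)).PosSemidef := fun t =>
    Matrix.posSemidef_sum t fun i _ => sqM_psd _
  have h1 : (T - (c : ℂ) • (sqM (v i) + sqM (v j))).PosSemidef := by
    have h2 : T - (c : ℂ) • (sqM (v i) + sqM (v j)) = (T - (c : ℂ) • ∑ i, sqM (v i)) +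
        (c : ℂ) • ∑ k ∈ (Finset.univ.erase i).erase j, sqM (v k) := by
      rw [← Finset.add_sum_erase _ _ (Finset.mem_univ i),
        ← Finset.add_sum_erase (Finset.univ.erase i) _ (Finset.mem_erase.2 ⟨hij.symm, Finset.mem_univ j⟩)]
      simp only [smul_add]
      abel
    rw [h2]
    exact hT.add ((hsum _).smul hc')
  have h3 : ((c : ℂ) • (sqM (v i) + sqM (v j))).PosSemidef :=
    ((sqM_psd _).add (sqM_psd _)).smul hc'
  refine le_trans ?_ (bb_mono A h3 h1)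
  rw [bb_smul_left, bb_smul_right, bb_add_left, bb_add_right, bb_add_right]
  have h4 := bb_nonneg A (sqM_psd (v i)) (sqM_psd (v i))
  have h5 := bb_nonneg A (sqM_psd (v j)) (sqM_psd (v j))
  have h6 := bb_nonneg A (sqM_psd (v j)) (sqM_psd (v i))
  have h7 : bb A (sqM (v i)) (sqM (v j)) =
      ‖A.det‖ * ‖∑ p, ∑ q, A⁻¹ p q * v i p * v j q‖ ^ 2 := bb_rank_one A (v i) (v j)
  rw [h7]
  have hc2 : 0 ≤ c ^ 2 := sq_nonneg c
  nlinarith [mul_nonneg hc2 h4, mul_nonneg hc2 h5, mul_nonneg hc2 h6]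

variable {X : Type} [TopologicalSpace X] [ChartedSpace (Cm N) X]
  [IsManifold 𝓘(ℂ, Cm N) ω X]
  {L : LineBundle N X} {h : L.ι → X → ℝ} {e : Chart N X} {x : X}
  {σ w : Chart N X → Cm N → Matrix (Fin N) (Fin N) ℂ}

/-- the local lower bound, at a point where the section `s i0` does not vanish -/
lemma secMetric_lower {κ : Type} [Fintype κ] {m : ℕ} {s : κ → L.ι → X → ℂ} {ε δ : ℝ} (hδ : 0 ≤ δ)
    (hw : ∀ e x, At e x → (w e (e x)).PosSemidef) (hm : 1 ≤ m)
    (hs : ∀ i, L.IsSection m (s i)) (hε : 0 < ε)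
    (hh : L.IsMetric h) (hpos : ∀ e x, At e x → (L.curv h e (e x) + (δ : ℂ) • w e (e x)).PosSemidef)
    (hx : At e x) {a : L.ι} (ha : x ∈ L.U a) {i0 : κ} (h0 : s i0 a x ≠ 0) {M : ℝ}
    (hM : ∑ i, ‖s i a x / s i0 a x‖ ^ 2 + ε * Real.exp (m * h a x) / ‖s i0 a x‖ ^ 2 ≤ M) :
    (L.curv (secMetric m s ε h) e (e x) + (δ : ℂ) • w e (e x) -
      ((1 / (m * M ^ 2) : ℝ) : ℂ) •
        ∑ i, sqM (fun j => dz j (fun y => s i a (e.symm y) / s i0 a (e.symm y)) (e x))).PosSemidef := by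
  have hm0 : (0 : ℝ) < m := by exact_mod_cast hm
  rw [secMetric_curv hm hs hε hh hx ha]
  set z := e x with hz
  have hsz : ∀ i, ContDiffAt ℂ ω (fun y => s i a (e.symm y)) z := fun i => (hs i).holo a x ha e hx
  have hzx : e.symm z = x := hx.left_inv
  have h0z : s i0 a (e.symm z) ≠ 0 := by rw [hzx]; exact h0
  have hψ : ContDiffAt ℝ ∞ (fun y => m * h a (e.symm y)) z :=
    contDiffAt_const.mul (hh.smooth a x ha e hx)
  -- the quotients
  set f : κ → Cm N → ℂ := fun i y => s i a (e.symm y) / s i0 a (e.symm y) with hf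
  have hfz : ∀ i, ContDiffAt ℂ ω (f i) z := fun i => (hsz i).div (hsz i0) h0z
  set ψ' : Cm N → ℝ := fun y => m * h a (e.symm y) - Real.log (‖s i0 a (e.symm y)‖ ^ 2) with hψ'
  have hlog : ContDiffAt ℝ ∞ (fun y => Real.log (‖s i0 a (e.symm y)‖ ^ 2)) z :=
    (norm_sq_smooth (hsz i0)).log (pow_ne_zero 2 (norm_ne_zero_iff.2 h0z))
  have hψ's : ContDiffAt ℝ ∞ ψ' z := hψ.sub hlog
  have hne : ∀ᶠ y in 𝓝 z, s i0 a (e.symm y) ≠ 0 := (hsz i0).continuousAt.eventually_ne h0z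
  have hQ : ∀ y, s i0 a (e.symm y) ≠ 0 → QQ (fun i y => s i a (e.symm y)) ε
      (fun y => m * h a (e.symm y)) y = ‖s i0 a (e.symm y)‖ ^ 2 * QQ f ε ψ' y := by
    intro y hy
    have hp : 0 < ‖s i0 a (e.symm y)‖ ^ 2 := by positivity
    unfold QQ
    simp only [hf, hψ']
    rw [Real.exp_sub, Real.exp_log hp, mul_add, Finset.mul_sum]
    congr 1
    · refine Finset.sum_congr rfl fun i _ => ?_
      rw [norm_div, div_pow]
      field_simp
    · field_simp
  have hc1 : cHess (fun y => Real.log (QQ (fun i y => s i a (e.symm y)) ε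
      (fun y => m * h a (e.symm y)) y)) z = cHess (fun y => Real.log (QQ f ε ψ' y)) z := by
    have h1 : (fun y => Real.log (QQ (fun i y => s i a (e.symm y)) ε
        (fun y => m * h a (e.symm y)) y)) =ᶠ[𝓝 z] fun y => Real.log (‖s i0 a (e.symm y)‖ ^ 2) +
        Real.log (QQ f ε ψ' y) := by
      filter_upwards [hne] with y hy
      rw [hQ y hy, Real.log_mul (by positivity) (QQ_pos hε y).ne']
    rw [cHess_congr h1, cHess_add (hlog.of_le (by norm_cast))
      ((logQQ_smooth hfz hψ's hε).of_le (by norm_cast)), cHess_log_norm_sq (hsz i0) h0z, zero_add]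
  have hf1 : f i0 =ᶠ[𝓝 z] fun _ => 1 := by
    filter_upwards [hne] with y hy
    exact div_self hy
  have h2 := logQQ_psd_one hfz hψ's hε hf1
  have hcψ : cHess ψ' z = ((m : ℝ) : ℂ) • L.curv h e z := by
    rw [hψ', cHess_sub (hψ.of_le (by norm_cast)) (hlog.of_le (by norm_cast)),
      cHess_log_norm_sq (hsz i0) h0z, sub_zero, IsMetric.curv_eq hh hx ha]
    exact cHess_const_mul _ ((hh.smooth a x ha e hx).of_le (by norm_cast))
  rw [hcψ] at h2
  rw [hc1]
  set Q := QQ f ε ψ' z with hQdef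
  set E := ε * Real.exp (ψ' z) with hE
  have hQp : 0 < Q := QQ_pos hε _
  have hEp : 0 < E := mul_pos hε (Real.exp_pos _)
  have hEQ : E ≤ Q := by
    rw [hQdef, hE]; unfold QQ
    have : 0 ≤ ∑ i, ‖f i z‖ ^ 2 := Finset.sum_nonneg fun i _ => sq_nonneg _
    linarith
  have hQM : Q ≤ M := by
    have hp : 0 < ‖s i0 a (e.symm z)‖ ^ 2 := by positivity
    have h3 : Q = ∑ i, ‖s i a x / s i0 a x‖ ^ 2 + ε * Real.exp (m * h a x) / ‖s i0 a x‖ ^ 2 := by
      rw [hQdef]; unfold QQ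
      simp only [hf, hψ']
      rw [Real.exp_sub, Real.exp_log hp, hzx]
      ring
    rw [h3]; exact hM
  have hMp : 0 < M := hQp.trans_le hQM
  have hθ : 0 ≤ 1 - E / Q := by
    rw [sub_nonneg, div_le_one hQp]; exact hEQ
  have hθ2 : 0 ≤ (1 / m) * (1 / Q ^ 2 - 1 / M ^ 2) := by
    refine mul_nonneg (by positivity) (sub_nonneg.2 ?_)
    exact one_div_le_one_div_of_le (by positivity) (by gcongr)
  have hS : (∑ i, sqM (fun j => dz j (f i) z)).PosSemidef :=
    Matrix.posSemidef_sum _ fun i _ => sqM_psd _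
  have h3 := ((h2.smul (inv_nonneg.2 hm0.le)).add (((hpos e x hx).smul
    (div_nonneg hEp.le hQp.le)).add ((hw e x hx).smul (mul_nonneg hθ hδ)))).add (hS.smul hθ2)
  convert h3 using 1
  ext j k
  simp only [Matrix.add_apply, Matrix.smul_apply, Matrix.sub_apply, smul_eq_mul,
    Complex.real_smul]
  have hm' : ((m : ℝ) : ℂ) ≠ 0 := by exact_mod_cast hm0.ne'
  have hQ' : (Q : ℂ) ≠ 0 := by exact_mod_cast hQp.ne'
  have hM' : (M : ℂ) ≠ 0 := by exact_mod_cast hMp.ne'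
  push_cast at hm' ⊢
  field_simp
  ring

lemma numeric_contra {c J₁ J₂ : ℝ} (hcp : 0 < c)
    (key : ∀ δ : ℝ, 0 < δ → c ≤ 2 * δ * J₁ + δ ^ 2 * J₂) : False := by
  set S : ℝ := 2 * |J₁| + |J₂| + 1 with hS
  have hSp : 0 < S := by rw [hS]; positivity
  set δ : ℝ := min 1 (c / (2 * S)) with hδ
  have hδp : 0 < δ := by rw [hδ]; positivity
  have hδ1 : δ ≤ 1 := min_le_left _ _
  have hδ2 : δ * (2 * S) ≤ c := by
    rw [← le_div_iff₀ (by positivity)]; exact min_le_right _ _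
  have h9 := key δ hδp
  have h10 : 2 * δ * J₁ ≤ 2 * δ * |J₁| := by
    have := le_abs_self J₁; nlinarith
  have h11 : δ ^ 2 * J₂ ≤ δ * |J₂| := by
    have h12 : δ ^ 2 * J₂ ≤ δ ^ 2 * |J₂| := by
      have := le_abs_self J₂; nlinarith [sq_nonneg δ]
    have h13 : δ ^ 2 ≤ δ := by nlinarith
    have h14 : 0 ≤ |J₂| := abs_nonneg _
    nlinarith
  have h15 : δ * S ≤ c / 2 := by linarith
  rw [hS] at h15
  nlinarith

/-- the bound of `e^{mh}/|s₀|²` on a compact set -/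
lemma exists_eps {m : ℕ} {s₀ : L.ι → X → ℂ} (h0 : L.IsSection m s₀) (hh : L.IsMetric h)
    {a : L.ι} {V : Set (Cm N)} (hV : IsCompact V)
    (hg : ∀ z ∈ V, s₀ a (e.symm z) ≠ 0 ∧ (z ∈ e.target ∧ At e (e.symm z) ∧ e.symm z ∈ L.U a)) :
    ∃ ε : ℝ, 0 < ε ∧
      ∀ z ∈ V, ε * Real.exp (m * h a (e.symm z)) / ‖s₀ a (e.symm z)‖ ^ 2 ≤ 1 := by
  have hcont : ContinuousOn (fun z => Real.exp (m * h a (e.symm z)) / ‖s₀ a (e.symm z)‖ ^ 2) V := by
    intro z hz
    have hg := hg z hz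
    have hza := (hh.smooth a _ hg.2.2.2 e hg.2.2.1).continuousAt
    have hzs := (h0.holo a _ hg.2.2.2 e hg.2.2.1).continuousAt
    rw [e.right_inv hg.2.1] at hza hzs
    refine ContinuousAt.continuousWithinAt ?_
    exact ((continuousAt_const.mul hza).rexp).div (hzs.norm.pow 2)
      (pow_ne_zero 2 (norm_ne_zero_iff.2 hg.1))
  obtain ⟨C, hC⟩ := (hV.image_of_continuousOn hcont).isBounded.bddAbove
  refine ⟨1 / (|C| + 1), by positivity, fun z hz => ?_⟩
  have h5 : Real.exp (m * h a (e.symm z)) / ‖s₀ a (e.symm z)‖ ^ 2 ≤ C := hC ⟨z, hz, rfl⟩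
  have h6 : C ≤ |C| + 1 := by linarith [le_abs_self C]
  rw [mul_div_assoc, one_div, inv_mul_le_iff₀ (by positivity)]
  linarith

variable [T2Space X] [CompactSpace X]

/-- the mass of the modified metric -/
lemma mass_eq (hσ : IsSymplectic σ) (hwc : IsClosedForm w) (hL : L.IsIsotropic σ)
    {H h₀ : L.ι → X → ℝ} (hH : L.IsMetric H) (hh₀ : L.IsMetric h₀) (δ : ℝ) :
    intX (fun e z => bb (σ e z) (L.curv H e z + (δ : ℂ) • w e z)
        (L.curv H e z + (δ : ℂ) • w e z)) =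
      2 * δ * intX (fun e z => bb (σ e z) (w e z) (L.curv h₀ e z)) +
      δ ^ 2 * intX (fun e z => bb (σ e z) (w e z) (w e z)) := by
  rw [intX_bb_expand hσ hwc hH δ, IsIsotropic.self hσ hL hH,
      intX_bb_metric hσ hwc hH hh₀]
  ring

/-- if a modified metric is bounded below near a point, so is its mass -/
lemma mass_lower (hσ : IsSymplectic σ) (hwc : IsClosedForm w)
    {H : L.ι → X → ℝ} (hH : L.IsMetric H) {δ : ℝ}
    (hT : ∀ e x, At e x → (L.curv H e (e x) + (δ : ℂ) • w e (e x)).PosSemidef)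
    {V : Set (Cm N)} {c₁ : ℝ}
    (hlow : ∀ D : Chart N X → Cm N → ℝ, IsDensity D →
      (∀ e x, At e x → 0 ≤ D e (e x)) → ∀ c : ℝ, (∀ z ∈ V, z ∈ e.target → c ≤ D e z) →
      c * c₁ ≤ intX D) {c : ℝ}
    (hc : ∀ z ∈ V, z ∈ e.target → c ≤ bb (σ e z) (L.curv H e z + (δ : ℂ) • w e z)
        (L.curv H e z + (δ : ℂ) • w e z)) :
    c * c₁ ≤ intX (fun e z => bb (σ e z) (L.curv H e z + (δ : ℂ) • w e z)
        (L.curv H e z + (δ : ℂ) • w e z)) := by
  have hTc : IsClosedForm (fun e z => L.curv H e z + (δ : ℂ) • w e z) :=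
    (IsMetric.isClosedForm hH).add (hwc.smul _)
  exact hlow _ (IsClosedForm.isDensity_bb hσ hTc hTc)
    (fun e x hx => bb_nonneg _ (hT e x hx) (hT e x hx)) c hc

/-- **Sections of powers of a nef isotropic line bundle Poisson-commute.** -/
theorem poisson_commute (hσ : IsSymplectic σ) (hw : IsKahler w) (hnef : L.IsNef w)
    (hL : L.IsIsotropic σ) {m : ℕ} (hm : 1 ≤ m) {s₀ s₁ s₂ : L.ι → X → ℂ}
    (h0 : L.IsSection m s₀) (h1 : L.IsSection m s₁) (h2 : L.IsSection m s₂)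
    (hx : At e x) {a : L.ι} (ha : x ∈ L.U a) (hne : s₀ a x ≠ 0) :
    bracket σ e (fun y => s₁ a y / s₀ a y) (fun y => s₂ a y / s₀ a y) x = 0 := by
  by_contra hcon
  set s : Fin 3 → L.ι → X → ℂ := ![s₀, s₁, s₂] with hs
  have hsec : ∀ i, L.IsSection m (s i) := by
    intro i
    fin_cases i <;> simp [hs, h0, h1, h2]
  set f : Fin 3 → Cm N → ℂ := fun i y => s i a (e.symm y) / s₀ a (e.symm y) with hf
  set z₀ := e x with hz₀
  -- everything is nice near `z₀`
  have hne' : s₀ a (e.symm z₀) ≠ 0 := by rw [hx.left_inv]; exact hne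
  have hsz : ∀ i, ContDiffAt ℂ ω (fun y => s i a (e.symm y)) z₀ := fun i =>
    (hsec i).holo a x ha e hx
  have hs0z : ContDiffAt ℂ ω (fun y => s₀ a (e.symm y)) z₀ := h0.holo a x ha e hx
  have hfz : ∀ i, ContDiffAt ℂ ω (f i) z₀ := fun i => (hsz i).div hs0z hne'
  set B : Cm N → ℝ := fun z => ‖(σ e z).det‖ *
    ‖∑ p, ∑ q, (σ e z)⁻¹ p q * dz p (f 1) z * dz q (f 2) z‖ ^ 2 with hB
  have hBc : ContinuousAt B z₀ := by
    have hl := hσ.loc hx
    have hd : ∀ i j, ContinuousAt (fun z => dz j (f i) z) z₀ := fun i j =>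
      (INT.smooth_dz (((hfz i).restrict_scalars ℝ).of_le (by exact le_top))).continuousAt
    refine hl.det_smooth.continuousAt.norm.mul ((ContinuousAt.norm ?_).pow 2)
    refine tendsto_finsetSum _ fun p _ => tendsto_finsetSum _ fun q _ => ?_
    exact ((hl.inv_smooth p q).continuousAt.mul (hd 1 p)).mul (hd 2 q)
  have hB0 : 0 < B z₀ := by
    have h3 : (∑ p, ∑ q, (σ e z₀)⁻¹ p q * dz p (f 1) z₀ * dz q (f 2) z₀) ≠ 0 := hcon
    have h4 := hσ.nondeg e x hx
    simp only [hB]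
    have := norm_pos_iff.2 h3
    have := norm_pos_iff.2 h4
    positivity
  set R : Cm N → ℝ := fun z => ∑ i, ‖f i z‖ ^ 2 with hR
  have hRc : ContinuousAt R z₀ := by
    refine tendsto_finsetSum _ fun i _ => ((hfz i).continuousAt.norm.pow 2)
  set M : ℝ := R z₀ + 1 with hM
  have hR0 : ∀ z, 0 ≤ R z := fun z => Finset.sum_nonneg fun i _ => sq_nonneg _
  -- the good neighbourhood, with compact closure in the good set
  have hgood : ∀ᶠ z in 𝓝 z₀, B z₀ / 2 < B z ∧ R z < M ∧ s₀ a (e.symm z) ≠ 0 ∧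
      (z ∈ e.target ∧ At e (e.symm z) ∧ e.symm z ∈ L.U a) := by
    filter_upwards [hBc.eventually (lt_mem_nhds (by linarith : B z₀ / 2 < B z₀)),
      hRc.eventually (gt_mem_nhds (by rw [hM]; linarith : R z₀ < M)),
      hs0z.continuousAt.eventually_ne hne', At.nhds_mem (L.isOpen a) hx ha]
      with z a1 a2 a3 a4 using ⟨a1, a2, a3, a4⟩
  obtain ⟨r, hr, hrV⟩ := Metric.nhds_basis_closedBall.mem_iff.1 hgood
  set V := Metric.closedBall z₀ r with hV
  have hVn : V ∈ 𝓝 z₀ := Metric.closedBall_mem_nhds _ hr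
  obtain ⟨c₁, hc₁, hlow⟩ := exists_lower hx hVn
  have hwc : IsClosedForm w := INT.IsKahler.isClosedForm hw
  have hwpsd : ∀ e x, At e x → (w e (e x)).PosSemidef := fun e x hx => (hw.posDef e x hx).posSemidef
  -- constants
  have hL' := hL
  obtain ⟨h₀, hh₀, -⟩ := hL
  set J₁ := intX (fun e z => bb (σ e z) (w e z) (L.curv h₀ e z)) with hJ₁
  set J₂ := intX (fun e z => bb (σ e z) (w e z) (w e z)) with hJ₂
  set c₀ : ℝ := 1 / (m * (M + 1) ^ 2) with hc₀
  have hm0 : (0 : ℝ) < m := by exact_mod_cast hm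
  have hMp : 0 < M := by have := hR0 z₀; rw [hM]; linarith
  have hc₀p : 0 < c₀ := by rw [hc₀]; positivity
  have key : ∀ δ : ℝ, 0 < δ → c₀ ^ 2 * (B z₀ / 2) * c₁ ≤ 2 * δ * J₁ + δ ^ 2 * J₂ := by
    intro δ hδ
    obtain ⟨h, hh, hpos⟩ := hnef δ hδ
    obtain ⟨ε, hεp, hE⟩ := exists_eps (e := e) h0 hh (isCompact_closedBall z₀ r)
      (fun z hz => (hrV hz).2.2)
    set H := secMetric m s ε h with hH
    have hHm : L.IsMetric H := secMetric_isMetric hm hsec hεp hh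
    have hT : ∀ e x, At e x → (L.curv H e (e x) + (δ : ℂ) • w e (e x)).PosSemidef := fun e x hx =>
      secMetric_psd hδ.le hwpsd hm hsec hεp hh hpos hx
    have hI := mass_lower hσ hwc hHm hT hlow (c := c₀ ^ 2 * (B z₀ / 2)) (by
        intro z hz hzt
        have hg := hrV hz
        have hzx : e (e.symm z) = z := e.right_inv hzt
        have hbd : ∑ i, ‖s i a (e.symm z) / s 0 a (e.symm z)‖ ^ 2 +
            ε * Real.exp (m * h a (e.symm z)) / ‖s 0 a (e.symm z)‖ ^ 2 ≤ M + 1 :=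
          add_le_add hg.2.1.le (hE z hz)
        have h7 := secMetric_lower (i0 := (0 : Fin 3)) (M := M + 1) hδ.le hwpsd hm hsec hεp hh hpos
          hg.2.2.2.2.1 hg.2.2.2.2.2 hg.2.2.1 hbd
        rw [hzx] at h7
        have h8 := bb_lower (A := σ e z) (fun i j => dz j (f i) z)
          (by decide : (1 : Fin 3) ≠ 2) hc₀p.le h7
        exact (mul_le_mul_of_nonneg_left (hg.1).le (sq_nonneg _)).trans h8)
    exact hI.trans (le_of_eq (mass_eq hσ hwc hL' hHm hh₀ δ))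
  exact numeric_contra (by positivity) key

end Vale.Agent.P301
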