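import Vale.Agent.P301.Fujiki
import Vale.Agent.P301.Poisson

/-! `∫ (c₁(L) + t w)^{2n} = O(t^n)` for a nef isotropic line bundle `L`. -/

open scoped Manifold ContDiff ComplexOrder Topology Matrix
open MeasureTheory Set Filter

set_option linter.all false

noncomputable section

namespace Vale.Agent.P301

open Vale.Agent.P272.K
open Vale.Agent.P272.K.INT (IsDensity intX intX_congr intX_of_support IsClosedForm)

variable {N : ℕ} {X : Type} [TopologicalSpace X] [ChartedSpace (Cm N) X]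
  [IsManifold 𝓘(ℂ, Cm N) ω X] {L : LineBundle N X}
  {σ w χ : Chart N X → Cm N → Matrix (Fin N) (Fin N) ℂ} {h h' : L.ι → X → ℝ}

lemma isKahler_of_nef (hw : IsKahler w) (hh : L.IsMetric h) {t : ℝ} (ht : 0 < t)
    (hpos : ∀ e x, At e x → (L.curv h e (e x) + ((t / 2 : ℝ) : ℂ) • w e (e x)).PosSemidef) :
    IsKahler fun e z => L.curv h e z + (t : ℂ) • w e z := by
  have hc : IsClosedForm fun e z => L.curv h e z + (t : ℂ) • w e z :=
    (IsMetric.isClosedForm hh).add ((INT.IsKahler.isClosedForm hw).smul _)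
  refine ⟨⟨hc.smooth, fun e x hx => ?_, hc.form⟩, fun e x hx i j k => hc.closed e x hx k i j⟩
  have h1 : L.curv h e (e x) + (t : ℂ) • w e (e x) =
      (L.curv h e (e x) + ((t / 2 : ℝ) : ℂ) • w e (e x)) + ((t / 2 : ℝ) : ℂ) • w e (e x) := by
    rw [add_assoc, ← add_smul, ← Complex.ofReal_add, add_halves]
  rw [h1]
  have h2 : (((t / 2 : ℝ) : ℂ) • w e (e x)).PosDef :=
    (hw.posDef e x hx).smul (by exact_mod_cast half_pos ht)
  exact Matrix.PosDef.posSemidef_add (hpos e x hx) h2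

variable [T2Space X] [CompactSpace X]

lemma intX_det_metric (hw : IsClosedForm w) (hh : L.IsMetric h) (hh' : L.IsMetric h') (t : ℝ) :
    intX (fun e z => (L.curv h e z + (t : ℂ) • w e z).det.re) =
      intX (fun e z => (L.curv h' e z + (t : ℂ) • w e z).det.re) := by
  obtain ⟨u, hu, -, h1⟩ := IsMetric.exists_diff hh hh'
  have hc : IsClosedForm fun e z => L.curv h' e z + (t : ℂ) • w e z :=
    (IsMetric.isClosedForm hh').add (hw.smul _)
  rw [← INT.intX_det_add_cHess hc hu]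
  refine intX_congr fun e x hx => ?_
  rw [h1 e x hx]
  congr 2
  abel

/-- **The numerical dimension of a nef isotropic line bundle is at most `n`.** -/
theorem det_bound [PreconnectedSpace X] [Nonempty X] {n : ℕ} (hn : 1 ≤ n) (hN : N = 2 * n)
    (hσ : IsSymplectic σ) (hw : IsKahler w) (hnef : L.IsNef w) (hL : L.IsIsotropic σ) :
    ∃ C : ℝ, 0 ≤ C ∧ ∀ h : L.ι → X → ℝ, L.IsMetric h → ∀ t : ℝ, 0 < t → t ≤ 1 →
      intX (fun e z => (L.curv h e z + (t : ℂ) • w e z).det.re) ≤ C * t ^ n := by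
  obtain ⟨C₀, hC₀, hF⟩ := fujiki_ineq (X := X) hn hN hσ
  have hwc : IsClosedForm w := INT.IsKahler.isClosedForm hw
  have hL' := hL
  obtain ⟨h₀, hh₀, -⟩ := hL
  set J₁ := intX (fun e z => bb (σ e z) (w e z) (L.curv h₀ e z)) with hJ₁
  set J₂ := intX (fun e z => bb (σ e z) (w e z) (w e z)) with hJ₂
  refine ⟨C₀ * (2 * |J₁| + |J₂|) ^ n, by positivity, fun h hh t ht ht1 => ?_⟩
  obtain ⟨h', hh', hpos⟩ := hnef (t / 2) (half_pos ht)
  have hK := isKahler_of_nef hw hh' ht hpos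
  rw [intX_det_metric hwc hh hh' t]
  have h1 := hF _ hK
  have h2 := mass_eq hσ hwc hL' hh' hh₀ t
  rw [h2] at h1
  refine h1.trans ?_
  have hq : 0 ≤ 2 * t * J₁ + t ^ 2 * J₂ := by
    rw [← h2]
    exact INT.intX_nonneg fun e x hx =>
      bb_nonneg _ (hK.posDef e x hx).posSemidef (hK.posDef e x hx).posSemidef
  have hle : 2 * t * J₁ + t ^ 2 * J₂ ≤ t * (2 * |J₁| + |J₂|) := by
    have a1 := le_abs_self J₁
    have a2 := le_abs_self J₂
    have a3 : t ^ 2 * J₂ ≤ t * |J₂| := by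
      have b1 : t ^ 2 * J₂ ≤ t ^ 2 * |J₂| := by nlinarith [sq_nonneg t]
      have b2 : t ^ 2 ≤ t := by nlinarith
      have b3 : 0 ≤ |J₂| := abs_nonneg _
      nlinarith
    nlinarith
  calc C₀ * (2 * t * J₁ + t ^ 2 * J₂) ^ n ≤ C₀ * (t * (2 * |J₁| + |J₂|)) ^ n :=
        mul_le_mul_of_nonneg_left (pow_le_pow_left₀ hq hle n) hC₀
    _ = _ := by rw [mul_pow]; ring

end Vale.Agent.P301
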