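import Vale.Agent.P301.Slice
import Vale.Agent.P301.NumDim
import Mathlib.Topology.UrysohnsLemma

/-! Integrals over regions, and the mass of a metric on a slice. -/

open scoped Manifold ContDiff ComplexOrder Topology Matrix
open MeasureTheory Set Filter

set_option linter.all false

noncomputable section

namespace Vale.Agent.P301

open Vale.Agent.P272.K
open Vale.Agent.P272.K.INT (IsDensity intX intX_congr intX_of_support IsClosedForm)

variable {N c d : ℕ} {X : Type} [TopologicalSpace X] [ChartedSpace (Cm N) X]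
  [IsManifold 𝓘(ℂ, Cm N) ω X] {L : LineBundle N X}
  {w : Chart N X → Cm N → Matrix (Fin N) (Fin N) ℂ} {h : L.ι → X → ℝ}

/-- the integral of a nonnegative density over a region inside a chart -/
lemma region_le [T2Space X] [CompactSpace X] {D : Chart N X → Cm N → ℝ} (hD : IsDensity D)
    (h0 : ∀ e x, At e x → 0 ≤ D e (e x)) {e : Chart N X} (he : e ∈ atlas (Cm N) X)
    {K R : Set (Cm N)} (hK : IsCompact K) (hKe : K ⊆ e.target) (hR : MeasurableSet R)
    (hRK : R ⊆ K) : ∫ z in R, D e z ≤ intX D := by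
  have hK' : IsCompact (e.symm '' K) := hK.image_of_continuousOn
    (e.continuousOn_symm.mono hKe)
  have hsub : e.symm '' K ⊆ e.source := by
    rintro _ ⟨z, hz, rfl⟩
    exact e.map_target (hKe hz)
  obtain ⟨f, hf1, hf2, hf3⟩ := exists_tsupport_one_of_isOpen_isClosed e.open_source
    isClosed_closure.isCompact hK'.isClosed hsub
  have hfD := hD.smul f.continuous
  have h1 : intX (fun e z => f (e.symm z) * D e z) ≤ intX D := by
    refine INT.intX_mono hfD hD fun e' x hx => ?_
    have := h0 e' x hx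
    exact mul_le_of_le_one_left this (hf3 _).2
  rw [intX_of_support hfD he (isClosed_tsupport f) hf1 (fun e' x hx hxK => by
    rw [hx.left_inv, image_eq_zero_of_notMem_tsupport hxK, zero_mul])] at h1
  refine le_trans ?_ h1
  have h2 : ∫ z in R, D e z = ∫ z in R, f (e.symm z) * D e z := by
    refine setIntegral_congr_fun hR fun z hz => ?_
    have : f (e.symm z) = 1 := hf2 ⟨z, hRK hz, rfl⟩
    simp only [this, one_mul]
  rw [h2]
  refine setIntegral_mono_set (INT.integrableOn_dens hD he f.continuous hf1) ?_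
    (LE.le.eventuallyLE (hRK.trans hKe))
  filter_upwards [self_mem_ae_restrict e.open_target.measurableSet] with z hz
  have := h0 e (e.symm z) (At.of_target he hz)
  rw [e.right_inv hz] at this
  exact mul_nonneg (hf3 _).1 this

lemma cHess_nsq_sub (b : ℝ) (z : Cm c) : cHess (fun x : Cm c => nsq x - b) z = 1 := by
  have h1 : cHess (fun x : Cm c => nsq x - b) z =
      cHess (nsq (c := c)) z - cHess (fun _ : Cm c => b) z :=
    cHess_sub ((nsq_smooth z).of_le (by norm_cast)) contDiffAt_const
  have h2 : cHess (fun _ : Cm c => b) z = 0 := by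
    ext j k
    rw [cHess_apply]
    have : dzb k (fun _ : Cm c => ((b : ℝ) : ℂ)) = fun _ => 0 := by
      funext y; exact dzb_const _
    rw [this, dz_const]; rfl
  rw [h1, h2, sub_zero, cHess_nsq]

/-- **Mass on a slice.** -/
theorem slice_mass (hw : IsKahler w) {e : Chart N X} (he : e ∈ atlas (Cm N) X)
    {H : L.ι → X → ℝ} (hH : L.IsMetric H) {δ : ℝ} (hδ : 0 ≤ δ)
    (hpos : ∀ e x, At e x → (L.curv H e (e x) + (δ : ℂ) • w e (e x)).PosSemidef)
    {a₀ : Cm N} {ℓ : Cm c →L[ℂ] Cm N} {a : L.ι} {r s b : ℝ} (hr : 0 < r) (hs : s ≤ r)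
    (hO : ∀ x, nsq x ≤ r → a₀ + ℓ x ∈ e.target ∧ e.symm (a₀ + ℓ x) ∈ L.U a)
    (hann : ∀ x, r / 4 ≤ nsq x → nsq x ≤ r → nsq x - b + 1 < H a (e.symm (a₀ + ℓ x)))
    (hin : ∀ x, nsq x < s → H a (e.symm (a₀ + ℓ x)) + 1 < nsq x - b) :
    volume.real {x : Cm c | nsq x < s} ≤ ∫ x in {x : Cm c | nsq x < r},
      (pull (JM (cols ℓ)) (L.curv H e (a₀ + ℓ x) + (δ : ℂ) • w e (a₀ + ℓ x))).det.re := by
  have hT : IsClosedForm fun e z => L.curv H e z + (δ : ℂ) • w e z :=
    (IsMetric.isClosedForm hH).add ((INT.IsKahler.isClosedForm hw).smul _)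
  set T : Cm N → Matrix (Fin N) (Fin N) ℂ := fun z => L.curv H e z + (δ : ℂ) • w e z with hTdef
  set O : Set (Cm N) := e.target ∩ e.symm ⁻¹' (L.U a) with hOdef
  have hOo : IsOpen O := e.symm.isOpen_inter_preimage (L.isOpen a)
  set V : Set (Cm c) := (fun x => a₀ + ℓ x) ⁻¹' O with hVdef
  have hVo : IsOpen V := hOo.preimage (continuous_const.add ℓ.continuous)
  have hat : ∀ z ∈ e.target, At e (e.symm z) := fun z hz => At.of_target he hz
  have hTs : ∀ z ∈ e.target, ∀ i j, ContDiffAt ℝ ∞ (fun y => T y i j) z := by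
    intro z hz i j
    have := hT.smooth e (e.symm z) (hat z hz) i j
    rwa [e.right_inv hz] at this
  have hTc : ∀ z ∈ e.target, ∀ i k l, dz i (fun y => T y k l) z = dz k (fun y => T y i l) z := by
    intro z hz i k l
    have := hT.closed e (e.symm z) (hat z hz) i k l
    rwa [e.right_inv hz] at this
  have hTp : ∀ z ∈ e.target, (T z).PosSemidef := by
    intro z hz
    have := hpos e (e.symm z) (hat z hz)
    rwa [e.right_inv hz] at this
  have hHs : ∀ z ∈ O, ContDiffAt ℝ ∞ (fun y => H a (e.symm y)) z := by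
    intro z hz
    have := hH.smooth a (e.symm z) hz.2 e (hat z hz.1)
    rwa [e.right_inv hz.1] at this
  have hHc : ∀ z ∈ O, L.curv H e z = cHess (fun y => H a (e.symm y)) z := by
    intro z hz
    have := IsMetric.curv_eq hH (hat z hz.1) hz.2
    rwa [e.right_inv hz.1] at this
  have hwp : ∀ z ∈ e.target, (w e z).PosSemidef := by
    intro z hz
    have := (hw.posDef e (e.symm z) (hat z hz)).posSemidef
    rwa [e.right_inv hz] at this
  have h1 := glue_mass (c := c) (V := V) (r := r) (s := s)
    (b := fun x => pull (JM (cols ℓ)) (T (a₀ + ℓ x)))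
    (u := fun x => H a (e.symm (a₀ + ℓ x))) (v := fun x => nsq x - b)
    hVo hr hs (fun x hx => hO x hx)
    (fun x hx i j => pull_contDiffAt (fun i j => hTs _ hx.1 i j) i j)
    (fun x hx i k l => closed_slice (fun i j => hTs _ hx.1 i j) (hTc _ hx.1) i k l)
    (fun x hx => contDiffAt_slice (g := fun y => H a (e.symm y)) (hHs _ hx))
    (fun x hx => (nsq_smooth x).sub contDiffAt_const)
    (fun x hx => by
      have e1 : cHess (fun x => H a (e.symm (a₀ + ℓ x))) x = _ :=
        cHess_slice (f := fun y => H a (e.symm y)) ((hHs _ hx).of_le (by norm_cast))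
      rw [e1, ← pull_sub, ← hHc _ hx, hTdef]
      simp only [add_sub_cancel_left]
      exact pull_psd _ ((hwp _ hx.1).smul (by exact_mod_cast hδ)))
    (fun x hx => pull_psd _ (hTp _ hx.1))
    (fun x hx => by rw [cHess_nsq_sub]; exact Matrix.PosDef.one)
    hann hin
  have h2 : ∫ x in {x : Cm c | nsq x < s}, (cHess (fun x : Cm c => nsq x - b) x).det.re =
      volume.real {x : Cm c | nsq x < s} := by
    simp only [cHess_nsq_sub, Matrix.det_one, Complex.one_re, integral_const, smul_eq_mul, mul_one,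
      measureReal_restrict_apply_univ]
  rw [h2] at h1
  exact h1

end Vale.Agent.P301
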