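import Vale.Agent.P301.Glue
import Mathlib.MeasureTheory.Measure.Haar.Unique
import Mathlib.MeasureTheory.Integral.Prod

/-! Slices of `ℂᴺ`. -/

open scoped Manifold ContDiff ComplexOrder Topology Matrix
open MeasureTheory Set Filter

set_option linter.all false

noncomputable section

namespace Vale.Agent.P301

open Vale.Agent.P272.K

variable {N c d : ℕ}

/-- the matrix of a linear map -/
def JM {κ : Type*} (f : κ → Cm N) : Matrix (Fin N) κ ℂ := Matrix.of fun p i => f i p

/-- the columns of a linear map -/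
def cols (ℓ : Cm c →L[ℂ] Cm N) (i : Fin c) : Cm N := ℓ (Pi.single i 1)

/-- restriction of a form to a slice -/
def pull {κ : Type*} (J : Matrix (Fin N) κ ℂ) (M : Matrix (Fin N) (Fin N) ℂ) : Matrix κ κ ℂ :=
  Jᵀ * M * J.map (starRingEnd ℂ)

lemma map_conj_eq' {κ : Type*} (J : Matrix (Fin N) κ ℂ) : J.map (starRingEnd ℂ) = (Jᵀ)ᴴ := by
  ext i j; simp [Matrix.conjTranspose_apply]

lemma pull_psd {κ : Type*} [Finite κ] (J : Matrix (Fin N) κ ℂ) {M : Matrix (Fin N) (Fin N) ℂ}
    (hM : M.PosSemidef) : (pull J M).PosSemidef := by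
  unfold pull
  rw [map_conj_eq']
  exact hM.mul_mul_conjTranspose_same _

lemma pull_add {κ : Type*} (J : Matrix (Fin N) κ ℂ) (M M' : Matrix (Fin N) (Fin N) ℂ) :
    pull J (M + M') = pull J M + pull J M' := by
  unfold pull; rw [Matrix.mul_add, Matrix.add_mul]

lemma pull_sub {κ : Type*} (J : Matrix (Fin N) κ ℂ) (M M' : Matrix (Fin N) (Fin N) ℂ) :
    pull J (M - M') = pull J M - pull J M' := by
  unfold pull; rw [Matrix.mul_sub, Matrix.sub_mul]

lemma pull_smul {κ : Type*} (J : Matrix (Fin N) κ ℂ) (a : ℂ) (M : Matrix (Fin N) (Fin N) ℂ) :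
    pull J (a • M) = a • pull J M := by
  unfold pull; rw [Matrix.mul_smul, Matrix.smul_mul]

lemma pull_apply {κ : Type*} (J : Matrix (Fin N) κ ℂ) (M : Matrix (Fin N) (Fin N) ℂ) (i j : κ) :
    pull J M i j = ∑ q, ∑ p, J p i * M p q * (starRingEnd ℂ) (J q j) := by
  simp only [pull, Matrix.mul_apply, Matrix.transpose_apply, Matrix.map_apply, Finset.sum_mul]

section chain

variable {ℓ : Cm c →L[ℂ] Cm N} {a : Cm N} {x : Cm c}

lemma fderiv_slice {g : Cm N → ℂ} (hg : DifferentiableAt ℝ g (a + ℓ x)) (v : Cm c) :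
    fderiv ℝ (fun x => g (a + ℓ x)) x v = fderiv ℝ g (a + ℓ x) (ℓ v) := by
  have h1 : HasFDerivAt (fun x => a + ℓ x) (ℓ.restrictScalars ℝ) x :=
    ((ℓ.restrictScalars ℝ).hasFDerivAt (x := x)).const_add a
  have h2 := hg.hasFDerivAt.comp x h1
  have h3 : fderiv ℝ (fun x => g (a + ℓ x)) x =
      (fderiv ℝ g (a + ℓ x)).comp (ℓ.restrictScalars ℝ) := h2.fderiv
  rw [h3]; rfl

lemma single_I (i : Fin c) : (Pi.single i Complex.I : Cm c) = Complex.I • Pi.single i 1 := by
  rw [← Pi.single_smul]; simp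

lemma dz_slice {g : Cm N → ℂ} (hg : DifferentiableAt ℝ g (a + ℓ x)) (i : Fin c) :
    dz i (fun x => g (a + ℓ x)) x = ∑ p, dz p g (a + ℓ x) * JM (cols ℓ) p i := by
  unfold dz
  rw [fderiv_slice hg, fderiv_slice hg, single_I, map_smul, fderiv_eq, fderiv_eq, Finset.mul_sum,
    ← Finset.sum_sub_distrib, Finset.sum_div]
  refine Finset.sum_congr rfl fun p _ => ?_
  simp only [JM, cols, Matrix.of_apply, Pi.smul_apply, smul_eq_mul]
  have h5 : Complex.I * Complex.I = -1 := Complex.I_mul_I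
  have h4 : cj (Complex.I * ℓ (Pi.single i 1) p) = -Complex.I * cj (ℓ (Pi.single i 1) p) := by
    simp [cj]
  rw [h4]
  show _ = dz p g (a + ℓ x) * ℓ (Pi.single i 1) p
  linear_combination (-(dz p g (a + ℓ x)) * ℓ (Pi.single i 1) p / 2 +
    dzb p g (a + ℓ x) * cj (ℓ (Pi.single i 1) p) / 2) * h5

lemma dzb_slice {g : Cm N → ℂ} (hg : DifferentiableAt ℝ g (a + ℓ x)) (i : Fin c) :
    dzb i (fun x => g (a + ℓ x)) x = ∑ p, dzb p g (a + ℓ x) * cj (JM (cols ℓ) p i) := by
  unfold dzb
  rw [fderiv_slice hg, fderiv_slice hg, single_I, map_smul, fderiv_eq, fderiv_eq, Finset.mul_sum,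
    ← Finset.sum_add_distrib, Finset.sum_div]
  refine Finset.sum_congr rfl fun p _ => ?_
  simp only [JM, cols, Matrix.of_apply, Pi.smul_apply, smul_eq_mul]
  have h5 : Complex.I * Complex.I = -1 := Complex.I_mul_I
  have h4 : cj (Complex.I * ℓ (Pi.single i 1) p) = -Complex.I * cj (ℓ (Pi.single i 1) p) := by
    simp [cj]
  rw [h4]
  show _ = dzb p g (a + ℓ x) * cj (ℓ (Pi.single i 1) p)
  linear_combination (dz p g (a + ℓ x) * ℓ (Pi.single i 1) p / 2 -
    dzb p g (a + ℓ x) * cj (ℓ (Pi.single i 1) p) / 2) * h5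

lemma slice_tendsto : Tendsto (fun x => a + ℓ x) (𝓝 x) (𝓝 (a + ℓ x)) :=
  (continuous_const.add ℓ.continuous).continuousAt

lemma contDiffAt_slice {F : Type*} [NormedAddCommGroup F] [NormedSpace ℝ F] {m : WithTop ℕ∞}
    {g : Cm N → F} (hg : ContDiffAt ℝ m g (a + ℓ x)) :
    ContDiffAt ℝ m (fun x => g (a + ℓ x)) x := by
  have h1 : ContDiffAt ℝ m (fun x => a + ℓ x) x :=
    contDiffAt_const.add (ℓ.restrictScalars ℝ).contDiff.contDiffAt
  exact ContDiffAt.comp x (g := g) (f := fun x => a + ℓ x) hg h1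

/-- Complex Hessian of the restriction to a slice. -/
lemma cHess_slice {f : Cm N → ℝ} (hf : ContDiffAt ℝ 2 f (a + ℓ x)) :
    cHess (fun x => f (a + ℓ x)) x = pull (JM (cols ℓ)) (cHess f (a + ℓ x)) := by
  have hF : ContDiffAt ℝ 2 (fun y => (f y : ℂ)) (a + ℓ x) := ofReal_contDiffAt hf
  ext j k
  rw [cHess_apply]
  have h1 : dzb k (fun x => ((f (a + ℓ x) : ℝ) : ℂ)) =ᶠ[𝓝 x]
      fun x => ∑ q, dzb q (fun y => (f y : ℂ)) (a + ℓ x) * cj (JM (cols ℓ) q k) := by
    filter_upwards [slice_tendsto.eventually (hF.eventually (by simp))] with y hy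
    exact dzb_slice (g := fun y => (f y : ℂ)) (hy.differentiableAt (by norm_num)) k
  have hd : ∀ q, DifferentiableAt ℝ (dzb q (fun y => (f y : ℂ))) (a + ℓ x) := fun q =>
    differentiableAt_dzb hF
  have hd2 : ∀ q, DifferentiableAt ℝ (fun x => dzb q (fun y => (f y : ℂ)) (a + ℓ x)) x := fun q =>
    (contDiffAt_slice (contDiffAt_dzb (m := 1) hF (by norm_num))).differentiableAt (by norm_num)
  rw [dz_congr h1, dz_sum (F := fun q x => dzb q (fun y => (f y : ℂ)) (a + ℓ x) *
    cj (JM (cols ℓ) q k)) Finset.univ fun q _ => (hd2 q).mul_const _, pull_apply]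
  refine Finset.sum_congr rfl fun q _ => ?_
  have h2 : dz j (fun x => dzb q (fun y => (f y : ℂ)) (a + ℓ x) * cj (JM (cols ℓ) q k)) x =
      dz j (fun x => dzb q (fun y => (f y : ℂ)) (a + ℓ x)) x * cj (JM (cols ℓ) q k) := by
    rw [dz_mul (hd2 q) (differentiableAt_const _), dz_const]; ring
  rw [h2, dz_slice (g := dzb q (fun y => (f y : ℂ))) (hd q) j, Finset.sum_mul]
  refine Finset.sum_congr rfl fun p _ => ?_
  rw [cHess_apply]
  simp only [cj]
  ring

/-- the restriction of a closed form is closed -/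
lemma closed_slice {T : Cm N → Matrix (Fin N) (Fin N) ℂ}
    (hs : ∀ i j, ContDiffAt ℝ ∞ (fun y => T y i j) (a + ℓ x))
    (hcl : ∀ i k l, dz i (fun y => T y k l) (a + ℓ x) = dz k (fun y => T y i l) (a + ℓ x))
    (i k l : Fin c) : dz i (fun x => pull (JM (cols ℓ)) (T (a + ℓ x)) k l) x =
      dz k (fun x => pull (JM (cols ℓ)) (T (a + ℓ x)) i l) x := by
  have hd : ∀ p q, DifferentiableAt ℝ (fun x => T (a + ℓ x) p q) x := fun p q =>
    (contDiffAt_slice (hs p q)).differentiableAt (by simp)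
  have key : ∀ i k, dz i (fun x => pull (JM (cols ℓ)) (T (a + ℓ x)) k l) x =
      ∑ q, ∑ p, ∑ r, JM (cols ℓ) p k * (dz r (fun y => T y p q) (a + ℓ x) * JM (cols ℓ) r i) *
        (starRingEnd ℂ) (JM (cols ℓ) q l) := by
    intro i k
    have h1 : (fun x => pull (JM (cols ℓ)) (T (a + ℓ x)) k l) = fun x => ∑ q, ∑ p,
        JM (cols ℓ) p k * T (a + ℓ x) p q * (starRingEnd ℂ) (JM (cols ℓ) q l) := by
      funext x; rw [pull_apply]
    rw [h1, dz_sum (F := fun q x => ∑ p, JM (cols ℓ) p k * T (a + ℓ x) p q *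
      (starRingEnd ℂ) (JM (cols ℓ) q l)) Finset.univ fun q _ => DifferentiableAt.fun_sum
        fun p _ => ((hd p q).const_mul _).mul_const _]
    refine Finset.sum_congr rfl fun q _ => ?_
    rw [dz_sum (F := fun p x => JM (cols ℓ) p k * T (a + ℓ x) p q *
      (starRingEnd ℂ) (JM (cols ℓ) q l)) Finset.univ
        fun p _ => ((hd p q).const_mul _).mul_const _]
    refine Finset.sum_congr rfl fun p _ => ?_
    rw [dz_mul ((hd p q).const_mul _) (differentiableAt_const _), dz_const,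
      dz_const_mul _ (hd p q), dz_slice (g := fun y => T y p q)
        ((hs p q).differentiableAt (by simp)) i, mul_zero, add_zero, Finset.mul_sum, Finset.sum_mul]
  rw [key i k, key k i]
  refine Finset.sum_congr rfl fun q _ => ?_
  rw [Finset.sum_comm]
  refine Finset.sum_congr rfl fun p _ => Finset.sum_congr rfl fun r _ => ?_
  rw [hcl p r q]
  ring

lemma pull_contDiffAt {κ : Type*} {J : Matrix (Fin N) κ ℂ} {T : Cm N → Matrix (Fin N) (Fin N) ℂ}
    {m : WithTop ℕ∞} (hs : ∀ i j, ContDiffAt ℝ m (fun y => T y i j) (a + ℓ x)) (i j : κ) :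
    ContDiffAt ℝ m (fun x => pull J (T (a + ℓ x)) i j) x := by
  have h1 : (fun x => pull J (T (a + ℓ x)) i j) = fun x => ∑ q, ∑ p,
      J p i * T (a + ℓ x) p q * (starRingEnd ℂ) (J q j) := by
    funext x; rw [pull_apply]
  rw [h1]
  exact ContDiffAt.sum fun q _ => ContDiffAt.sum fun p _ =>
    (contDiffAt_const.mul (contDiffAt_slice (hs p q))).mul contDiffAt_const

end chain

/-! ### Determinants of block matrices -/

lemma det_re_le' {κ : Type*} [Fintype κ] [DecidableEq κ] {A B : Matrix κ κ ℂ} (hA : A.PosDef)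
    (hAB : (B - A).PosSemidef) : A.det.re ≤ B.det.re := by
  set e := Fintype.equivFin κ with he
  have h1 : (A.submatrix e.symm e.symm).PosDef := hA.submatrix e.symm.injective
  have h2 : (B.submatrix e.symm e.symm - A.submatrix e.symm e.symm).PosSemidef := by
    have := hAB.submatrix e.symm
    exact this
  have h3 := N.det_re_le h1 h2
  rwa [Matrix.det_submatrix_equiv_self, Matrix.det_submatrix_equiv_self] at h3

lemma det_psd_im {κ : Type*} [Fintype κ] [DecidableEq κ] {A : Matrix κ κ ℂ} (hA : A.PosSemidef) :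
    A.det = ((A.det.re : ℝ) : ℂ) := by
  have := hA.det_nonneg
  rw [Complex.le_def] at this
  apply Complex.ext
  · simp
  · simpa using this.2.symm

/-- `det (K + s) ≥ s^d det K₂₂` for `K ≥ 0` -/
lemma det_block {K : Matrix (Fin d ⊕ Fin c) (Fin d ⊕ Fin c) ℂ} (hK : K.PosSemidef) {s : ℝ}
    (hs : 0 < s) : s ^ d * K.toBlocks₂₂.det.re ≤ (K + (s : ℂ) • 1).det.re := by
  set A := K.toBlocks₁₁ with hA
  set B := K.toBlocks₁₂ with hB
  set D := K.toBlocks₂₂ with hD
  have hherm : K.toBlocks₂₁ = Bᴴ := by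
    ext i j
    have := congrFun (congrFun hK.1 (Sum.inr i)) (Sum.inl j)
    simp only [Matrix.conjTranspose_apply] at this
    simp only [hB, Matrix.toBlocks₂₁, Matrix.toBlocks₁₂, Matrix.of_apply,
      Matrix.conjTranspose_apply]
    exact this.symm
  have hKb : K = Matrix.fromBlocks A B Bᴴ D := by
    rw [← hherm]; exact (Matrix.fromBlocks_toBlocks K).symm
  have hDp : D.PosSemidef := by
    have h1 := hK.submatrix (Sum.inr : Fin c → Fin d ⊕ Fin c)
    exact h1
  have hsc : (0 : ℂ) < (s : ℂ) := by exact_mod_cast hs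
  have hD' : (D + (s : ℂ) • 1).PosDef := Matrix.PosDef.posSemidef_add hDp
    (Matrix.PosDef.one.smul hsc)
  have hone : (1 : Matrix (Fin d ⊕ Fin c) (Fin d ⊕ Fin c) ℂ) = Matrix.fromBlocks 1 0 0 1 :=
    Matrix.fromBlocks_one.symm
  have e1 : K + (s : ℂ) • 1 = Matrix.fromBlocks (A + (s : ℂ) • 1) B Bᴴ (D + (s : ℂ) • 1) := by
    rw [hone, Matrix.fromBlocks_smul, smul_zero, smul_zero]
    conv_lhs => rw [hKb]
    rw [Matrix.fromBlocks_add, add_zero, add_zero]
  have e2 : (Matrix.fromBlocks A B Bᴴ (D + (s : ℂ) • 1)).PosSemidef := by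
    have h1 : Matrix.fromBlocks A B Bᴴ (D + (s : ℂ) • 1) =
        K + (Matrix.of fun i (j : Fin c) => if i = Sum.inr j then ((Real.sqrt s : ℝ) : ℂ) else 0 :
          Matrix (Fin d ⊕ Fin c) (Fin c) ℂ) *
        (Matrix.of fun i (j : Fin c) => if i = Sum.inr j then ((Real.sqrt s : ℝ) : ℂ) else 0 :
          Matrix (Fin d ⊕ Fin c) (Fin c) ℂ)ᴴ := by
      conv_rhs => rw [hKb]
      have hss : ((Real.sqrt s : ℝ) : ℂ) * ((Real.sqrt s : ℝ) : ℂ) = (s : ℂ) := by
        rw [← Complex.ofReal_mul, Real.mul_self_sqrt hs.le]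
      ext i j
      rcases i with i | i <;> rcases j with j | j
      · simp [Matrix.mul_apply]
      · simp [Matrix.mul_apply]
      · simp [Matrix.mul_apply]
      · simp only [Matrix.fromBlocks_apply₂₂, Matrix.add_apply, Matrix.smul_apply,
          Matrix.mul_apply, Matrix.of_apply, Matrix.conjTranspose_apply, Sum.inr.injEq,
          smul_eq_mul, apply_ite star, star_zero, RCLike.star_def, Complex.conj_ofReal]
        congr 1
        by_cases hij : i = j
        · subst hij
          simp [hss]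
        · rw [Matrix.one_apply_ne hij, mul_zero]
          symm
          refine Finset.sum_eq_zero fun k _ => ?_
          by_cases h1 : i = k
          · subst h1
            have h2 : ¬ j = i := fun h => hij h.symm
            simp [h2]
          · rw [if_neg h1, zero_mul]
    rw [h1]
    exact hK.add (Matrix.posSemidef_self_mul_conjTranspose _)
  haveI : Invertible (D + (s : ℂ) • 1) := Matrix.invertibleOfIsUnitDet _
    (isUnit_iff_ne_zero.2 hD'.det_pos.ne')
  have hS := (Matrix.PosDef.fromBlocks₂₂ A B hD').1 e2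
  have hS1 : (A + (s : ℂ) • 1 - B * (D + (s : ℂ) • 1)⁻¹ * Bᴴ - (s : ℂ) • 1).PosSemidef := by
    have : A + (s : ℂ) • 1 - B * (D + (s : ℂ) • 1)⁻¹ * Bᴴ - (s : ℂ) • 1 =
        A - B * (D + (s : ℂ) • 1)⁻¹ * Bᴴ := by abel
    rw [this]; exact hS
  have hs1 : ((s : ℂ) • (1 : Matrix (Fin d) (Fin d) ℂ)).PosDef := Matrix.PosDef.one.smul hsc
  have h2 := det_re_le' hs1 hS1
  have h3 : ((s : ℂ) • (1 : Matrix (Fin d) (Fin d) ℂ)).det.re = s ^ d := by
    rw [Matrix.det_smul, Matrix.det_one, mul_one, Fintype.card_fin, ← Complex.ofReal_pow,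
      Complex.ofReal_re]
  rw [h3] at h2
  have hSp : (A + (s : ℂ) • 1 - B * (D + (s : ℂ) • 1)⁻¹ * Bᴴ).PosSemidef := by
    have := hS1.add hs1.posSemidef
    rwa [sub_add_cancel] at this
  have h4 : D.det.re ≤ (D + (s : ℂ) • 1).det.re := by
    by_cases hz : D.det.re = 0
    · rw [hz]; exact (Complex.le_def.1 hD'.posSemidef.det_nonneg).1
    · have hDd : D.PosDef := by
        refine hDp.posDef_iff_isUnit.2 ?_
        rw [Matrix.isUnit_iff_isUnit_det, isUnit_iff_ne_zero]
        intro h; exact hz (by rw [h]; rfl)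
      refine det_re_le' hDd ?_
      rw [add_sub_cancel_left]
      exact (Matrix.PosDef.one.smul hsc).posSemidef
  rw [e1, Matrix.det_fromBlocks₂₂, Matrix.invOf_eq_nonsing_inv, det_psd_im hD'.posSemidef,
    det_psd_im hSp, ← Complex.ofReal_mul, Complex.ofReal_re, mul_comm]
  have h5 : 0 ≤ D.det.re := (Complex.le_def.1 hDp.det_nonneg).1
  have h6 : 0 ≤ s ^ d := by positivity
  exact mul_le_mul h4 h2 h6 (h5.trans h4)

/-! ### Linear changes of coordinates and integration -/

/-- a linear isomorphism multiplies the volume by a positive constant -/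
lemma exists_scale (Φ : (Cm d × Cm c) ≃L[ℂ] Cm N) : ∃ k : ℝ, 0 < k ∧
    ∀ (a : Cm N) (f : Cm N → ℝ) (s : Set (Cm d × Cm c)), MeasurableSet s →
      ∫ z in (fun p => a + Φ p) '' s, f z = k * ∫ p in s, f (a + Φ p) := by
  let L : (Cm d × Cm c) ≃L[ℝ] Cm N :=
    { Φ.toLinearEquiv.restrictScalars ℝ with
      continuous_toFun := Φ.continuous
      continuous_invFun := Φ.symm.continuous }
  haveI hv : (volume : Measure (Cm d × Cm c)).IsAddHaarMeasure :=
    Measure.prod.instIsAddHaarMeasure _ _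
  haveI hmap : (Measure.map L (volume : Measure (Cm d × Cm c))).IsAddHaarMeasure :=
    L.isAddHaarMeasure_map volume
  set k := Measure.addHaarScalarFactor (Measure.map L (volume : Measure (Cm d × Cm c)))
    (volume : Measure (Cm N)) with hkdef
  have hk : Measure.map L (volume : Measure (Cm d × Cm c)) = k • (volume : Measure (Cm N)) :=
    Measure.isAddLeftInvariant_eq_smul _ _
  have hk0 : 0 < k := Measure.addHaarScalarFactor_pos_of_isAddHaarMeasure _ _
  have hk' : (volume : Measure (Cm N)) = k⁻¹ • Measure.map L volume := by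
    rw [hk, smul_smul, inv_mul_cancel₀ hk0.ne', one_smul]
  refine ⟨((k⁻¹ : NNReal) : ℝ), by exact_mod_cast inv_pos.2 hk0, fun a f s hs => ?_⟩
  set e : (Cm d × Cm c) ≃ₜ Cm N := L.toHomeomorph.trans (Homeomorph.addLeft a) with he
  have hee : ∀ p, e p = a + Φ p := fun p => rfl
  have himg : (fun p => a + Φ p) '' s = e '' s := rfl
  have hemb : MeasurableEmbedding e := e.measurableEmbedding
  have hmapL : Measure.map e volume = Measure.map L (volume : Measure (Cm d × Cm c)) := by
    have h1 : (e : (Cm d × Cm c) → Cm N) = (fun z => a + z) ∘ L := rfl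
    rw [h1, ← Measure.map_map (measurable_const_add a) L.continuous.measurable]
    exact map_add_left_eq_self _ a
  have h2 : ∫ z in e '' s, f z = ((k⁻¹ : NNReal) : ℝ) *
      ∫ z in e '' s, f z ∂(Measure.map e volume) := by
    rw [hmapL]
    conv_lhs => rw [hk']
    rw [Measure.restrict_smul, integral_smul_nnreal_measure]
    rfl
  rw [himg, h2, hemb.setIntegral_map, e.injective.preimage_image]
  rfl

end Vale.Agent.P301
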