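import Vale.Agent.P301.Lin
import Vale.Agent.P272.K.INT.Global
import Vale.Agent.P272.K.C2.Mat
import Vale.Agent.P272.K.Inv.Consts

/-! The divergence identity behind `∫ bb (b, i∂∂̄u) = 0`. -/

open scoped Manifold ContDiff ComplexOrder Topology Matrix
open MeasureTheory Set Filter

set_option linter.all false

noncomputable section

namespace Vale.Agent.P301

open Vale.Agent.P272.K

variable {N : ℕ} {z : Cm N} {A b : Cm N → Matrix (Fin N) (Fin N) ℂ} {u : Cm N → ℝ}

/-- symplectic data at a point -/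
structure LocSymp (A : Cm N → Matrix (Fin N) (Fin N) ℂ) (z : Cm N) : Prop where
  holo : ∀ j k, ContDiffAt ℂ ω (fun y => A y j k) z
  skew : ∀ᶠ y in 𝓝 z, (A y)ᵀ = -A y
  det : (A z).det ≠ 0
  closed : ∀ i j k, dz i (fun y => A y j k) z + dz j (fun y => A y k i) z +
    dz k (fun y => A y i j) z = 0

/-- the density of the symplectic volume -/
def rho (A : Cm N → Matrix (Fin N) (Fin N) ℂ) (z : Cm N) : ℂ := ((‖(A z).det‖ : ℝ) : ℂ)

lemma LocSymp.smooth (h : LocSymp A z) (j k : Fin N) : ContDiffAt ℝ ∞ (fun y => A y j k) z :=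
  ((h.holo j k).restrict_scalars ℝ).of_le (by exact le_top)

lemma LocSymp.det_smooth (h : LocSymp A z) : ContDiffAt ℝ ∞ (fun y => (A y).det) z :=
  contDiffAt_det h.smooth

lemma LocSymp.rho_smooth (h : LocSymp A z) : ContDiffAt ℝ ∞ (rho A) z :=
  ofReal_contDiffAt (h.det_smooth.norm ℝ h.det)

lemma LocSymp.inv_smooth (h : LocSymp A z) (j k : Fin N) :
    ContDiffAt ℝ ∞ (fun y => (A y)⁻¹ j k) z :=
  contDiffAt_inv h.smooth h.det j k

lemma holo_det (h : ∀ j k, ContDiffAt ℂ ω (fun y => A y j k) z) :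
    ContDiffAt ℂ ω (fun y => (A y).det) z := by
  have : (fun y => (A y).det) = fun y => ∑ σ : Equiv.Perm (Fin N),
      (Equiv.Perm.sign σ : ℂ) * ∏ i, A y (σ i) i := by
    funext z; rw [Matrix.det_apply']
  rw [this]
  exact ContDiffAt.sum fun σ _ => contDiffAt_const.mul (contDiffAt_prod fun i _ => h _ _)

lemma holo_inv (h : ∀ j k, ContDiffAt ℂ ω (fun y => A y j k) z) (h0 : (A z).det ≠ 0)
    (j k : Fin N) : ContDiffAt ℂ ω (fun y => (A y)⁻¹ j k) z := by
  have h1 : (fun y => (A y)⁻¹ j k) = fun y => ((A y).det)⁻¹ * (A y).adjugate j k := by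
    ext y
    rw [Matrix.inv_def, Matrix.smul_apply, Ring.inverse_eq_inv', smul_eq_mul]
  rw [h1]
  refine ((holo_det h).inv h0).mul ?_
  simp only [Matrix.adjugate_apply]
  refine holo_det (A := fun y => (A y).updateRow k (Pi.single j 1)) ?_
  intro a b
  by_cases h : a = k
  · subst h
    simp only [Matrix.updateRow_self]
    exact contDiffAt_const
  · simp only [Matrix.updateRow_ne h]
    exact ‹∀ j k, ContDiffAt ℂ ω (fun y => A y j k) z› a b

lemma LocSymp.dz_rho (h : LocSymp A z) (c : Fin N) :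
    dz c (rho A) z = rho A z / 2 * ((A z)⁻¹ * C2.DM c A z).trace := by
  have h1 : (fun y => rho A y * rho A y) = fun y => (A y).det * cj ((A y).det) := by
    funext y
    unfold rho cj
    rw [Complex.mul_conj, Complex.normSq_eq_norm_sq]
    push_cast; ring
  have hr := h.rho_smooth.differentiableAt (n := ∞) (by simp)
  have hd := h.det_smooth.differentiableAt (n := ∞) (by simp)
  have hD : DifferentiableAt ℂ (fun y => (A y).det) z :=
    (holo_det h.holo).differentiableAt (by simp)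
  have h2 := dz_mul (i := c) hr hr
  have hdc : DifferentiableAt ℝ (fun y => cj ((A y).det)) z :=
    Complex.conjCLE.differentiableAt.comp z hd
  have h3 := dz_mul (i := c) hd hdc
  rw [h1] at h2
  rw [h3, dz_cj hd, dzb_of_holo hD, C2.dz_det (fun i j => (h.smooth i j).differentiableAt (by simp))
    h.det] at h2
  have hne : rho A z ≠ 0 := by
    unfold rho; exact_mod_cast (norm_ne_zero_iff.2 h.det)
  have h4 : rho A z * rho A z = (A z).det * cj ((A z).det) := congrFun h1 z
  have h5 : cj (0 : ℂ) = 0 := by simp [cj]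
  rw [h5, mul_zero, add_zero] at h2
  have h6 : rho A z * (2 * dz c (rho A) z) =
      rho A z * (rho A z * ((A z)⁻¹ * C2.DM c A z).trace) := by
    linear_combination (-1 : ℂ) * h2 - ((A z)⁻¹ * C2.DM c A z).trace * h4
  have h7 := mul_left_cancel₀ hne h6
  linear_combination (1 / 2 : ℂ) * h7

lemma LocSymp.inv_skew (h : LocSymp A z) (j k : Fin N) : (A z)⁻¹ j k = -(A z)⁻¹ k j :=
  Vale.Agent.P301.inv_skew h.skew.self_of_nhds h.det j k

lemma LocSymp.dz_skew (h : LocSymp A z) (c j k : Fin N) :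
    dz c (fun y => A y j k) z = -dz c (fun y => A y k j) z := by
  rw [← dz_neg]
  refine dz_congr ?_
  filter_upwards [h.skew] with y hy
  have := congrFun (congrFun hy k) j
  simpa using this

/-- the symplectic volume is preserved by Hamiltonian fields -/
lemma LocSymp.div_rho (h : LocSymp A z) (a : Fin N) :
    ∑ c, dz c (fun y => rho A y * (A y)⁻¹ a c) z = 0 := by
  have hr := h.rho_smooth.differentiableAt (n := ∞) (by simp)
  have hi : ∀ c, DifferentiableAt ℝ (fun y => (A y)⁻¹ a c) z := fun c =>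
    (h.inv_smooth a c).differentiableAt (by simp)
  have hinv : ∀ c, dz c (fun y => (A y)⁻¹ a c) z =
      -∑ l, ∑ k, (A z)⁻¹ a k * dz c (fun y => A y k l) z * (A z)⁻¹ l c := by
    intro c
    have h1 := C2.DM_inv (k := c) (A := A) (z := z) (fun i j => (h.smooth i j).of_le (by simp)) h.det
    have h2 := congrFun (congrFun h1 a) c
    simp only [C2.DM_apply, Matrix.neg_apply, Matrix.mul_apply, Finset.sum_mul] at h2
    exact h2
  set P := (A z)⁻¹ with hP
  have hS : ∑ c, ∑ l, ∑ k, P a k * dz c (fun y => A y k l) z * P l c =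
      -(1 / 2 : ℂ) * ∑ c, ∑ l, ∑ k, P a k * dz k (fun y => A y l c) z * P l c := by
    have e1 : ∑ c, ∑ l, ∑ k, P a k * dz c (fun y => A y k l) z * P l c =
        ∑ c, ∑ l, ∑ k, P a k * dz l (fun y => A y c k) z * P l c := by
      rw [Finset.sum_comm]
      refine Finset.sum_congr rfl fun c _ => Finset.sum_congr rfl fun l _ =>
        Finset.sum_congr rfl fun k _ => ?_
      rw [h.dz_skew l k c, hP, h.inv_skew c l]
      ring
    have e2 : ∀ c l k, P a k * dz c (fun y => A y k l) z * P l c +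
        P a k * dz l (fun y => A y c k) z * P l c =
        -(P a k * dz k (fun y => A y l c) z * P l c) := by
      intro c l k
      have := h.closed c k l
      linear_combination (P a k * P l c) * this
    have e3 : ∑ c, ∑ l, ∑ k, P a k * dz c (fun y => A y k l) z * P l c +
        ∑ c, ∑ l, ∑ k, P a k * dz l (fun y => A y c k) z * P l c =
        -∑ c, ∑ l, ∑ k, P a k * dz k (fun y => A y l c) z * P l c := by
      simp only [← Finset.sum_add_distrib, e2, Finset.sum_neg_distrib]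
    rw [← e1] at e3
    linear_combination (1 / 2 : ℂ) * e3
  have hT : ∑ c, (P * C2.DM c A z).trace * P a c =
      -∑ c, ∑ l, ∑ k, P a k * dz k (fun y => A y l c) z * P l c := by
    simp only [Matrix.trace, Matrix.diag_apply, Matrix.mul_apply, C2.DM_apply, Finset.sum_mul]
    -- ∑ k, ∑ l, ∑ c, P l c * dz k (A c l) * P a k
    have e1 : ∑ c, ∑ l, ∑ k, P a k * dz k (fun y => A y l c) z * P l c =
        ∑ k, ∑ l, ∑ c, P a k * dz k (fun y => A y l c) z * P l c := by
      calc ∑ c, ∑ l, ∑ k, P a k * dz k (fun y => A y l c) z * P l c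
          = ∑ c, ∑ k, ∑ l, P a k * dz k (fun y => A y l c) z * P l c :=
            Finset.sum_congr rfl fun c _ => Finset.sum_comm
        _ = ∑ k, ∑ c, ∑ l, P a k * dz k (fun y => A y l c) z * P l c := Finset.sum_comm
        _ = _ := Finset.sum_congr rfl fun k _ => Finset.sum_comm
    rw [e1, ← Finset.sum_neg_distrib]
    refine Finset.sum_congr rfl fun k _ => ?_
    rw [← Finset.sum_neg_distrib]
    refine Finset.sum_congr rfl fun l _ => ?_
    rw [← Finset.sum_neg_distrib]
    refine Finset.sum_congr rfl fun c _ => ?_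
    rw [h.dz_skew k c l]
    ring
  have hterm : ∀ c, dz c (fun y => rho A y * (A y)⁻¹ a c) z =
      rho A z / 2 * ((P * C2.DM c A z).trace * P a c) -
        rho A z * ∑ l, ∑ k, P a k * dz c (fun y => A y k l) z * P l c := by
    intro c
    rw [dz_mul hr (hi c), h.dz_rho c, hinv c]
    ring
  simp only [hterm]
  rw [Finset.sum_sub_distrib, ← Finset.mul_sum, ← Finset.mul_sum, hT, hS]
  ring

/-- contraction with a closed form -/
lemma LocSymp.contract (h : LocSymp A z)
    (hcl : ∀ i k l, dz i (fun y => b y k l) z = dz k (fun y => b y i l) z) (q : Fin N) :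
    ∑ a, ∑ c, (A z)⁻¹ a c * dz c (fun y => b y a q) z = 0 := by
  have e1 : ∑ a, ∑ c, (A z)⁻¹ a c * dz c (fun y => b y a q) z =
      -∑ a, ∑ c, (A z)⁻¹ a c * dz c (fun y => b y a q) z := by
    conv_lhs => rw [Finset.sum_comm]
    rw [← Finset.sum_neg_distrib]
    refine Finset.sum_congr rfl fun c _ => ?_
    rw [← Finset.sum_neg_distrib]
    refine Finset.sum_congr rfl fun a _ => ?_
    rw [h.inv_skew a c, hcl c a q]
    ring
  linear_combination (1 / 2 : ℂ) * e1

/-- the components of the vector field -/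
def VF (A b : Cm N → Matrix (Fin N) (Fin N) ℂ) (u : Cm N → ℝ) (c : Fin N) (z : Cm N) : ℂ :=
  ∑ a, (rho A z * (A z)⁻¹ a c) * ∑ q, ∑ d, (cj ((A z)⁻¹ q d) * b z a q) *
    dzb d (fun y => (u y : ℂ)) z

lemma LocSymp.div_VF (h : LocSymp A z) (hb : ∀ i j, ContDiffAt ℝ ∞ (fun y => b y i j) z)
    (hcl : ∀ i k l, dz i (fun y => b y k l) z = dz k (fun y => b y i l) z)
    (hu : ContDiffAt ℝ ∞ u z) :
    (∑ c, dz c (VF A b u c) z).re = bb (A z) (b z) (cHess u z) := by
  have hr := h.rho_smooth.differentiableAt (n := ∞) (by simp)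
  have hi : ∀ a c, DifferentiableAt ℝ (fun y => (A y)⁻¹ a c) z := fun a c =>
    (h.inv_smooth a c).differentiableAt (by simp)
  have hci : ∀ a c, DifferentiableAt ℝ (fun y => cj ((A y)⁻¹ a c)) z := fun a c =>
    Complex.conjCLE.differentiableAt.comp z (hi a c)
  have hbd : ∀ a c, DifferentiableAt ℝ (fun y => b y a c) z := fun a c =>
    (hb a c).differentiableAt (by simp)
  have hud : ∀ d, DifferentiableAt ℝ (dzb d (fun y => (u y : ℂ))) z := fun d =>
    (INT.smooth_dzb (INT.ofReal_contDiffAt hu)).differentiableAt (by simp)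
  have hcid : ∀ q d c, dz c (fun y => cj ((A y)⁻¹ q d)) z = 0 := by
    intro q d c
    rw [dz_cj (hi q d), dzb_of_holo ((holo_inv h.holo h.det q d).differentiableAt (by simp))]
    simp [cj]
  have hW : ∀ a c, dz c (fun y => ∑ q, ∑ d, (cj ((A y)⁻¹ q d) * b y a q) *
      dzb d (fun y => (u y : ℂ)) y) z =
      ∑ q, ∑ d, (cj ((A z)⁻¹ q d) * b z a q * cHess u z c d +
        cj ((A z)⁻¹ q d) * dz c (fun y => b y a q) z * dzb d (fun y => (u y : ℂ)) z) := by
    intro a c
    rw [dz_sum (F := fun q y => ∑ d, (cj ((A y)⁻¹ q d) * b y a q) *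
      dzb d (fun y => (u y : ℂ)) y) _ fun q _ => DifferentiableAt.fun_sum fun d _ =>
      ((hci q d).fun_mul (hbd a q)).fun_mul (hud d)]
    refine Finset.sum_congr rfl fun q _ => ?_
    rw [dz_sum (F := fun d y => (cj ((A y)⁻¹ q d) * b y a q) *
      dzb d (fun y => (u y : ℂ)) y) _ fun d _ => ((hci q d).fun_mul (hbd a q)).fun_mul (hud d)]
    refine Finset.sum_congr rfl fun d _ => ?_
    rw [dz_mul ((hci q d).fun_mul (hbd a q)) (hud d), dz_mul (hci q d) (hbd a q), hcid]
    rw [cHess_apply]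
    ring
  have hWd : ∀ a, DifferentiableAt ℝ (fun y => ∑ q, ∑ d, (cj ((A y)⁻¹ q d) * b y a q) *
      dzb d (fun y => (u y : ℂ)) y) z := fun a =>
    DifferentiableAt.fun_sum fun q _ => DifferentiableAt.fun_sum fun d _ =>
      ((hci q d).fun_mul (hbd a q)).fun_mul (hud d)
  have hV : ∀ c, dz c (VF A b u c) z = ∑ a, (dz c (fun y => rho A y * (A y)⁻¹ a c) z *
      (∑ q, ∑ d, (cj ((A z)⁻¹ q d) * b z a q) * dzb d (fun y => (u y : ℂ)) z) +
      rho A z * (A z)⁻¹ a c * ∑ q, ∑ d, (cj ((A z)⁻¹ q d) * b z a q * cHess u z c d +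
        cj ((A z)⁻¹ q d) * dz c (fun y => b y a q) z * dzb d (fun y => (u y : ℂ)) z)) := by
    intro c
    unfold VF
    rw [dz_sum (F := fun a y => (rho A y * (A y)⁻¹ a c) * ∑ q, ∑ d,
      (cj ((A y)⁻¹ q d) * b y a q) * dzb d (fun y => (u y : ℂ)) y) _
      fun a _ => (hr.fun_mul (hi a c)).fun_mul (hWd a)]
    refine Finset.sum_congr rfl fun a _ => ?_
    rw [dz_mul (hr.fun_mul (hi a c)) (hWd a), hW]
  simp only [hV]
  have key : ∑ c, ∑ a, (dz c (fun y => rho A y * (A y)⁻¹ a c) z *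
      (∑ q, ∑ d, (cj ((A z)⁻¹ q d) * b z a q) * dzb d (fun y => (u y : ℂ)) z) +
      rho A z * (A z)⁻¹ a c * ∑ q, ∑ d, (cj ((A z)⁻¹ q d) * b z a q * cHess u z c d +
        cj ((A z)⁻¹ q d) * dz c (fun y => b y a q) z * dzb d (fun y => (u y : ℂ)) z)) =
      rho A z * ∑ j, ∑ k, ∑ l, ∑ m,
        (A z)⁻¹ j l * (starRingEnd ℂ) ((A z)⁻¹ k m) * b z j k * cHess u z l m := by
    simp only [Finset.sum_add_distrib, mul_add]
    have k1 : ∑ c, ∑ a, dz c (fun y => rho A y * (A y)⁻¹ a c) z *
        (∑ q, ∑ d, (cj ((A z)⁻¹ q d) * b z a q) * dzb d (fun y => (u y : ℂ)) z) = 0 := by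
      rw [Finset.sum_comm]
      refine Finset.sum_eq_zero fun a _ => ?_
      rw [← Finset.sum_mul, h.div_rho a, zero_mul]
    have k2 : ∑ c, ∑ a, rho A z * (A z)⁻¹ a c * ∑ q, ∑ d,
        cj ((A z)⁻¹ q d) * dz c (fun y => b y a q) z * dzb d (fun y => (u y : ℂ)) z = 0 := by
      have e1 : ∑ c, ∑ a, rho A z * (A z)⁻¹ a c * ∑ q, ∑ d,
          cj ((A z)⁻¹ q d) * dz c (fun y => b y a q) z * dzb d (fun y => (u y : ℂ)) z =
          ∑ q, ∑ d, rho A z * cj ((A z)⁻¹ q d) * dzb d (fun y => (u y : ℂ)) z *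
            ∑ a, ∑ c, (A z)⁻¹ a c * dz c (fun y => b y a q) z := by
        simp only [Finset.mul_sum]
        rw [sum4_comm]
        rw [Finset.sum_congr rfl fun q _ => Finset.sum_congr rfl fun d _ => Finset.sum_congr rfl
          fun a _ => Finset.sum_congr rfl fun c _ => ?_]
        ring
      rw [e1]
      refine Finset.sum_eq_zero fun q _ => Finset.sum_eq_zero fun d _ => ?_
      rw [h.contract hcl q, mul_zero]
    have k3 : ∑ c, ∑ a, rho A z * (A z)⁻¹ a c * ∑ q, ∑ d,
        cj ((A z)⁻¹ q d) * b z a q * cHess u z c d =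
        rho A z * ∑ j, ∑ k, ∑ l, ∑ m,
          (A z)⁻¹ j l * (starRingEnd ℂ) ((A z)⁻¹ k m) * b z j k * cHess u z l m := by
      rw [Finset.sum_comm]
      simp only [Finset.mul_sum]
      refine Finset.sum_congr rfl fun j _ => ?_
      rw [Finset.sum_comm]
      refine Finset.sum_congr rfl fun k _ => Finset.sum_congr rfl fun l _ =>
        Finset.sum_congr rfl fun m _ => ?_
      simp only [cj]
      ring
    rw [k1, k2, k3]
    ring
  rw [key]
  unfold bb rho
  rw [Complex.re_ofReal_mul]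

end Vale.Agent.P301
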