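import Vale.Agent.P301.SympLoc

/-! `∫ bb (b, i∂∂̄u) = 0` on a compact complex manifold with a holomorphic symplectic form. -/

open scoped Manifold ContDiff ComplexOrder Topology Matrix
open MeasureTheory Set Filter

set_option linter.all false

noncomputable section

namespace Vale.Agent.P301

open Vale.Agent.P272.K
open Vale.Agent.P272.K.INT (IsDensity intX intX_congr intX_of_support IsClosedForm)

variable {N : ℕ} {U : Set (Cm N)} {A b : Cm N → Matrix (Fin N) (Fin N) ℂ} {u : Cm N → ℝ}

theorem local_bb (hU : IsOpen U) (hA : ∀ z ∈ U, LocSymp A z)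
    (hb : ∀ z ∈ U, ∀ i j, ContDiffAt ℝ ∞ (fun y => b y i j) z)
    (hcl : ∀ z ∈ U, ∀ i k l, dz i (fun y => b y k l) z = dz k (fun y => b y i l) z)
    (hu : ContDiff ℝ ∞ u) (hc : HasCompactSupport u) (hs : tsupport u ⊆ U) :
    ∫ z in U, bb (A z) (b z) (cHess u z) = 0 := by
  set F : Fin N → Cm N → ℂ := fun c z => VF A b u c z with hF
  have hF0 : ∀ r z, z ∉ tsupport u → F r z = 0 := by
    intro r z hz
    simp only [hF, VF]
    refine Finset.sum_eq_zero fun a _ => ?_
    rw [Finset.sum_eq_zero fun q _ => Finset.sum_eq_zero fun d _ => ?_, mul_zero]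
    rw [INT.dzb_zero_of_notMem hz d, mul_zero]
  have hFs : ∀ r, HasCompactSupport (F r) := fun r =>
    HasCompactSupport.intro hc (fun z hz => hF0 r z hz)
  have hFt : ∀ r z, z ∉ tsupport u → F r =ᶠ[𝓝 z] fun _ => 0 := by
    intro r z hz
    filter_upwards [(isClosed_tsupport u).isOpen_compl.mem_nhds hz] with y hy
    exact hF0 r y hy
  have hFc : ∀ r, ContDiff ℝ 1 (F r) := by
    intro r
    rw [contDiff_iff_contDiffAt]
    intro z
    by_cases hz : z ∈ tsupport u
    · have h := hA z (hs hz)
      have hi : ∀ a c, ContDiffAt ℝ ∞ (fun y => cj ((A y)⁻¹ a c)) z := fun a c =>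
        Complex.conjCLE.contDiff.contDiffAt.comp z (h.inv_smooth a c)
      have : ContDiffAt ℝ ∞ (F r) z := by
        simp only [hF, VF]
        refine ContDiffAt.sum fun a _ => ?_
        refine (h.rho_smooth.mul (h.inv_smooth a r)).mul ?_
        refine ContDiffAt.sum fun q _ => ContDiffAt.sum fun d _ => ?_
        exact ((hi q d).mul (hb z (hs hz) a q)).mul
          (INT.smooth_dzb (INT.ofReal_contDiffAt hu.contDiffAt))
      exact this.of_le (by exact_mod_cast le_top)
    · exact contDiffAt_const.congr_of_eventuallyEq (hFt r z hz)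
  have key : ∀ z ∈ U, bb (A z) (b z) (cHess u z) = (∑ r, dz r (F r) z).re := by
    intro z hz
    rw [← (hA z hz).div_VF (hb z hz) (hcl z hz) hu.contDiffAt]
  have hcomp : ∀ z, z ∉ U → ∑ r, dz r (F r) z = 0 := by
    intro z hz
    refine Finset.sum_eq_zero fun r _ => ?_
    rw [dz_congr (hFt r z (fun h => hz (hs h))), dz_const]
  have hint : ∀ r, Integrable (fun z => dz r (F r) z) := by
    intro r
    have h1 : Continuous (dz r (F r)) := by
      rw [INT.dz_fun_eq]
      have := (hFc r).continuous_fderiv (by norm_num)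
      exact continuous_const.mul ((this.clm_apply continuous_const).sub
        (continuous_const.mul (this.clm_apply continuous_const)))
    refine h1.integrable_of_hasCompactSupport (HasCompactSupport.intro hc fun z hz => ?_)
    rw [dz_congr (hFt r z hz), dz_const]
  have e1 : ∫ z in U, bb (A z) (b z) (cHess u z) = ∫ z in U, (∑ r, dz r (F r) z).re :=
    setIntegral_congr_fun hU.measurableSet fun z hz => key z hz
  have e2 : ∫ z in U, (∑ r, dz r (F r) z).re = ∫ z, (∑ r, dz r (F r) z).re := by
    apply setIntegral_eq_integral_of_forall_compl_eq_zero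
    intro z hz; rw [hcomp z hz, Complex.zero_re]
  have e3 : ∫ z, (∑ r, dz r (F r) z).re = (∫ z, ∑ r, dz r (F r) z).re :=
    Complex.reCLM.integral_comp_comm (integrable_finsetSum _ fun r _ => hint r)
  rw [e1, e2, e3, integral_finsetSum _ fun r _ => hint r]
  simp [fun r => INT.integral_dz_eq_zero (hFc r) (hFs r) r]

section X

variable {X : Type} [TopologicalSpace X] [ChartedSpace (Cm N) X]
  {σ β γ : Chart N X → Cm N → Matrix (Fin N) (Fin N) ℂ}

lemma IsSymplectic.loc (hσ : IsSymplectic σ) {e : Chart N X} {x : X} (hx : At e x) :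
    LocSymp (σ e) (e x) where
  holo := hσ.holo e x hx
  skew := by
    filter_upwards [hx.nhds_target] with y hy
    have := hσ.skew e (e.symm y) (At.of_target hx.1 hy)
    rwa [e.right_inv hy] at this
  det := hσ.nondeg e x hx
  closed := hσ.closed e x hx

lemma continuousAt_bb {A H K : Cm N → Matrix (Fin N) (Fin N) ℂ} {z : Cm N} (hA : LocSymp A z)
    (hH : ∀ i j, ContinuousAt (fun y => H y i j) z) (hK : ∀ i j, ContinuousAt (fun y => K y i j) z) :
    ContinuousAt (fun y => bb (A y) (H y) (K y)) z := by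
  unfold bb
  have h1 : ∀ i j, ContinuousAt (fun y => (A y)⁻¹ i j) z := fun i j => (hA.inv_smooth i j).continuousAt
  have h2 : ∀ i j, ContinuousAt (fun y => (starRingEnd ℂ) ((A y)⁻¹ i j)) z := fun i j =>
    Complex.continuous_conj.continuousAt.comp (h1 i j)
  refine hA.det_smooth.continuousAt.norm.mul (Complex.continuous_re.continuousAt.comp ?_)
  refine tendsto_finsetSum _ fun j _ => tendsto_finsetSum _ fun k _ =>
    tendsto_finsetSum _ fun l _ => tendsto_finsetSum _ fun m _ => ?_
  exact (((h1 j l).mul (h2 k m)).mul (hH j k)).mul (hK l m)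

variable [IsManifold 𝓘(ℂ, Cm N) ω X]

lemma isDensity_bb (hσ : IsSymplectic σ) (hβ : IsForm β) (hγ : IsForm γ)
    (hβs : ∀ e x, At e x → ∀ i j, ContDiffAt ℝ ∞ (fun z => β e z i j) (e x))
    (hγs : ∀ e x, At e x → ∀ i j, ContDiffAt ℝ ∞ (fun z => γ e z i j) (e x)) :
    IsDensity fun e z => bb (σ e z) (β e z) (γ e z) where
  cont e x hx := continuousAt_bb (hσ.loc hx) (fun i j => (hβs e x hx i j).continuousAt)
    fun i j => (hγs e x hx i j).continuousAt
  change e e' x h h' := by
    show bb (σ e (e x)) (β e (e x)) (γ e (e x)) = bb (σ e' (e' x)) (β e' (e' x)) (γ e' (e' x)) * _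
    rw [hσ.change e e' x h h', hβ e e' x h h', hγ e e' x h h', bb_form (jacM_isUnit h h')]

lemma IsClosedForm.isDensity_bb (hσ : IsSymplectic σ) (hβ : IsClosedForm β) (hγ : IsClosedForm γ) :
    IsDensity fun e z => bb (σ e z) (β e z) (γ e z) :=
  Vale.Agent.P301.isDensity_bb hσ hβ.form hγ.form hβ.smooth hγ.smooth

variable [T2Space X] [CompactSpace X]

/-- one piece, supported in a chart -/
theorem intX_bb_piece (hσ : IsSymplectic σ) (hβ : IsClosedForm β)
    {v : X → ℝ} (hv : SmoothFn (n := N) v) {e : Chart N X} (he : e ∈ atlas (Cm N) X)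
    (hs : tsupport v ⊆ e.source) :
    intX (fun e z => bb (σ e z) (β e z) (cHess (fun y => v (e.symm y)) z)) = 0 := by
  have hd : ∀ (e' : Chart N X) x, At e' x → x ∉ tsupport v →
      cHess (fun y => v (e'.symm y)) (e' x) = 0 := by
    intro e' x hx hxv
    apply INT.cHess_zero_of_notMem
    rw [notMem_tsupport_iff_eventuallyEq]
    have h1 : ∀ᶠ y in 𝓝 (e' x), e'.symm y ∈ (tsupport v)ᶜ := by
      apply (e'.continuousAt_symm (e'.map_source hx.2)).eventually_mem
      rw [e'.left_inv hx.2]
      exact (isClosed_tsupport v).isOpen_compl.mem_nhds hxv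
    filter_upwards [h1] with y hy
    exact image_eq_zero_of_notMem_tsupport hy
  have hD := IsClosedForm.isDensity_bb hσ hβ (INT.isClosedForm_cHess hv)
  rw [intX_of_support hD he (isClosed_tsupport v) hs (fun e' x hx hxv => by
      rw [hd e' x hx hxv, bb_zero_right])]
  set u : Cm N → ℝ := e.target.indicator (fun z => v (e.symm z)) with hu
  set K : Set (Cm N) := e '' tsupport v with hK
  have hKc : IsCompact K :=
    (isClosed_tsupport v).isCompact.image_of_continuousOn (e.continuousOn.mono hs)
  have hKt : K ⊆ e.target := by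
    rintro _ ⟨x, hx, rfl⟩; exact e.map_source (hs hx)
  have hsupp : Function.support u ⊆ K := by
    intro z hz
    simp only [hu, Function.mem_support] at hz
    have hzt : z ∈ e.target := by
      by_contra h; exact hz (indicator_of_notMem h _)
    rw [indicator_of_mem hzt] at hz
    exact ⟨e.symm z, subset_tsupport _ hz, e.right_inv hzt⟩
  have hts : tsupport u ⊆ K := closure_minimal hsupp hKc.isClosed
  have hucs : HasCompactSupport u := hKc.of_isClosed_subset (isClosed_tsupport u) hts
  have hue : ∀ z ∈ e.target, u =ᶠ[𝓝 z] fun z => v (e.symm z) := by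
    intro z hz
    filter_upwards [e.open_target.mem_nhds hz] with y hy
    rw [hu, indicator_of_mem hy]
  have hus : ContDiff ℝ ∞ u := by
    rw [contDiff_iff_contDiffAt]
    intro z
    by_cases hz : z ∈ e.target
    · have := hv e (e.symm z) ⟨he, e.map_target hz⟩
      rw [e.right_inv hz] at this
      exact this.congr_of_eventuallyEq (hue z hz)
    · exact contDiffAt_const.congr_of_eventuallyEq
        (notMem_tsupport_iff_eventuallyEq.1 fun h => hz (hKt (hts h)))
  have hsm : ∀ z ∈ e.target, ∀ i j, ContDiffAt ℝ ∞ (fun y => β e y i j) z := by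
    intro z hz i j
    have := hβ.smooth e (e.symm z) ⟨he, e.map_target hz⟩ i j
    rwa [e.right_inv hz] at this
  have hcl : ∀ z ∈ e.target, ∀ i k l,
      dz i (fun y => β e y k l) z = dz k (fun y => β e y i l) z := by
    intro z hz i k l
    have := hβ.closed e (e.symm z) ⟨he, e.map_target hz⟩ i k l
    rwa [e.right_inv hz] at this
  have hσl : ∀ z ∈ e.target, LocSymp (σ e) z := by
    intro z hz
    have := hσ.loc (e := e) (x := e.symm z) ⟨he, e.map_target hz⟩
    rwa [e.right_inv hz] at this
  have := local_bb e.open_target hσl hsm hcl hus hucs (hts.trans hKt)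
  rw [← this]
  refine setIntegral_congr_fun e.open_target.measurableSet fun z hz => ?_
  show bb (σ e z) (β e z) (cHess (fun y => v (e.symm y)) z) = bb (σ e z) (β e z) (cHess u z)
  rw [cHess_congr (hue z hz)]

omit [IsManifold 𝓘(ℂ, Cm N) ω X] [T2Space X] [CompactSpace X] in
lemma bb_sum_right {κ : Type*} (s : Finset κ) (A H : Matrix (Fin N) (Fin N) ℂ)
    (M : κ → Matrix (Fin N) (Fin N) ℂ) : bb A H (∑ i ∈ s, M i) = ∑ i ∈ s, bb A H (M i) := by
  classical
  induction s using Finset.induction_on with
  | empty => simp [bb_zero_right]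
  | insert a s ha ih => rw [Finset.sum_insert ha, Finset.sum_insert ha, bb_add_right, ih]

omit [IsManifold 𝓘(ℂ, Cm N) ω X] [T2Space X] [CompactSpace X] in
lemma cHess_sum_smoothFn {κ : Type*} (s : Finset κ) {v : κ → X → ℝ}
    (hv : ∀ i, SmoothFn (n := N) (v i)) {e : Chart N X} {x : X} (hx : At e x) :
    cHess (fun y => ∑ i ∈ s, v i (e.symm y)) (e x) =
      ∑ i ∈ s, cHess (fun y => v i (e.symm y)) (e x) := by
  classical
  induction s using Finset.induction_on with
  | empty =>
    simp only [Finset.sum_empty]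
    apply INT.cHess_zero_of_notMem
    rw [notMem_tsupport_iff_eventuallyEq]
    exact Eventually.of_forall fun y => rfl
  | insert a s ha ih =>
    have h2 : ContDiffAt ℝ 2 (fun y => ∑ i ∈ s, v i (e.symm y)) (e x) :=
      ContDiffAt.sum fun i _ => (hv i e x hx).of_le (by norm_cast)
    have h1 : ContDiffAt ℝ 2 (fun y => v a (e.symm y)) (e x) := (hv a e x hx).of_le (by norm_cast)
    have h3 : (fun y => ∑ i ∈ insert a s, v i (e.symm y)) = fun y => v a (e.symm y) +
        ∑ i ∈ s, v i (e.symm y) := by
      funext y; rw [Finset.sum_insert ha]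
    rw [Finset.sum_insert ha, ← ih, h3, cHess_add h1 h2]

/-- **Stokes**: the pairing of a closed form with `i∂∂̄u` integrates to zero. -/
theorem intX_bb_cHess (hσ : IsSymplectic σ) (hβ : IsClosedForm β) {u : X → ℝ}
    (hu : SmoothFn (n := N) u) :
    intX (fun e z => bb (σ e z) (β e z) (cHess (fun y => u (e.symm y)) z)) = 0 := by
  classical
  obtain ⟨P⟩ := INT.exists_part N X
  have hp : ∀ i, SmoothFn (n := N) (fun x => P.ρ i x * u x) := fun i =>
    INT.SmoothFn.mul (P.smooth i) hu
  have h1 : ∀ (e : Chart N X) x, At e x →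
      bb (σ e (e x)) (β e (e x)) (cHess (fun y => u (e.symm y)) (e x)) =
      ∑ i, bb (σ e (e x)) (β e (e x))
        (cHess (fun y => P.ρ i (e.symm y) * u (e.symm y)) (e x)) := by
    intro e x hx
    have h2 : (fun y => u (e.symm y)) = fun y => ∑ i, P.ρ i (e.symm y) * u (e.symm y) := by
      funext y; rw [← Finset.sum_mul, P.sum, one_mul]
    rw [h2, cHess_sum_smoothFn Finset.univ hp hx, bb_sum_right]
  let D : Fin P.N → Chart N X → Cm N → ℝ := fun i e z => bb (σ e z) (β e z)
    (cHess (fun y => P.ρ i (e.symm y) * u (e.symm y)) z)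
  have hD : ∀ i, IsDensity (D i) := fun i =>
    IsClosedForm.isDensity_bb (γ := fun (e : Chart N X) z =>
      cHess (fun y => P.ρ i (e.symm y) * u (e.symm y)) z) hσ hβ
      (INT.isClosedForm_cHess (u := fun x => P.ρ i x * u x) (hp i))
  have hz : ∀ i, intX (D i) = 0 := by
    intro i
    have h3 : tsupport (fun x => P.ρ i x * u x) ⊆ (P.e i).source :=
      INT.tsupport_mul_subset_left'.trans (P.supp i)
    exact intX_bb_piece (v := fun x => P.ρ i x * u x) hσ hβ (hp i) (P.mem i) h3
  have h2 : intX (fun e z => bb (σ e z) (β e z) (cHess (fun y => u (e.symm y)) z)) =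
      intX (fun e z => ∑ i, D i e z) := intX_congr h1
  rw [h2, INT.intX_sum Finset.univ fun i _ => hD i]
  exact Finset.sum_eq_zero fun i _ => hz i

end X

end Vale.Agent.P301
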